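import Crest.Agent.N207.Ga.Met3
import Crest.Agent.N207.A.Co3
import Crest.Agent.N207.K.Sch

-- ▼ part N207/Ga/Data1
section

/-!
# Row 207 (helper18): the metric data of one cell from bounds on the jets
-/

set_option autoImplicit false

open scoped ContDiff
open Metric Set Filter Topology
open Crest.GeometryTopology.CoordMetric Crest.Agent.NLib.Ell
open Crest.Agent.N207.CB Crest.Agent.N207.Jt Crest.Agent.N207.K Crest.Agent.N207.TR

noncomputable section

namespace Crest.Agent.N207.Ga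

theorem ob2 : IsOpen B2 := isOpen_ball

section fo

variable {ι : Type} {m : ℕ} {w : ι → ℝ} {x : ι → E4} {g : ι → MetricField 4}

theorem fo_of_db {f : ι → E4 → ℝ} {K : ℝ} (hx : ∀ j, x j ∈ B2)
    (h : ∀ j, DB B2 m (K * |w j|) (f j)) : FO m w f x :=
  FO.of_le (fun j => (h j).sm.contDiffAt (ob2.mem_nhds (hx j))) fun k hk j => (h j).bd k hk _ (hx j)

theorem fo_le {α : Type} [Finite α] {f : α → ι → E4 → ℝ} (h : ∀ a, FO m w (f a) x) :
    ∃ C, 0 < C ∧ ∀ a j, ∀ k ≤ m, ‖iteratedFDeriv ℝ k (f a j) (x j)‖ ≤ C * |w j| := by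
  choose C _ hC using fun a => (h a).le
  obtain ⟨D, hD⟩ := (finite_range C).bddAbove
  exact ⟨max D 1, by positivity, fun a j k hk => (hC a k hk j).trans (mul_le_mul_of_nonneg_right
    ((hD (mem_range_self a)).trans (le_max_left _ _)) (abs_nonneg _))⟩

theorem fo_mul {u v : ι → E4 → ℝ} (hu : FO m w u x) (hv : FO m (fun _ => 1) v x) :
    FO m w (fun j z => u j z * v j z) x := hu.bil (ContinuousLinearMap.mul ℝ ℝ) hv

theorem fo_inv {c : ℝ} (hc : 0 < c) (h : ∀ a b, FO m (fun _ => 1) (fun j y => g j y a b) x)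
    (hp : ∀ j, Pos c (g j (x j))) (a b : Fin 4) : FO m (fun _ => 1) (fun j y => (g j y)⁻¹ a b) x := by
  have h2 : FO m (fun _ => 1) (fun j y => fun a b => g j y a b) x :=
    FO.pi fun a => FO.pi fun b => h a b
  obtain ⟨C, -, hC⟩ := h2.le
  exact FO.smoothOn (Φ := fun A : Fin 4 → Fin 4 → ℝ => (Matrix.of A)⁻¹ a b)
    ((isCompact_closedBall (0 : Fin 4 → Fin 4 → ℝ) C).inter_right (isClosed_pos c))
    (fun A hA => TR.sm_inv a b A (hA.2.posDef hc)) h2 fun j =>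
      ⟨by simpa [norm_iteratedFDeriv_zero] using hC 0 (Nat.zero_le _) j, hp j⟩

theorem fo_chr (hi : ∀ a b, FO m (fun _ => 1) (fun j y => (g j y)⁻¹ a b) x)
    (hd : ∀ a b c, FO m w (fun j => pderiv c fun y => g j y a b) x) (c a b : Fin 4) :
    FO m w (fun j y => christoffel (g j) y c a b) x :=
  (FO.const (1 / 2 : ℝ)).mul (FO.sum Finset.univ fun d _ => (hi c d).mul
    (((hd b d a).add (hd a d b)).sub (hd a b d)))

end fo

/-- one metric on a cell -/
structure P1 (K δ : ℝ) (g : MetricField 4) : Prop where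
  nn : 0 ≤ δ
  riem : IsRiemannianOn g B2
  pos : ∀ y ∈ B2, Pos K⁻¹ (g y)
  j0 : ∀ a b, DB B2 6 K fun y => g y a b
  j1 : ∀ a b c, DB B2 5 δ (pderiv c fun y => g y a b)

/-- two metrics on a cell -/
structure P2 (K δ : ℝ) (g G : MetricField 4) : Prop where
  nn : 0 ≤ δ
  riem : IsRiemannianOn g B2
  riemG : IsRiemannianOn G B2
  pos : ∀ y ∈ B2, Pos K⁻¹ (g y)
  posG : ∀ y ∈ B2, Pos K⁻¹ (G y)
  j0 : ∀ a b, DB B2 4 K fun y => g y a b
  j0G : ∀ a b, DB B2 4 K fun y => G y a b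
  df : ∀ a b, DB B2 4 δ fun y => G y a b - g y a b

theorem cell_one {K : ℝ} (hK : 0 < K) : ∃ C, 0 < C ∧ ∀ δ g, P1 K δ g →
    (∀ a b, DB B2 5 C fun y => (g y)⁻¹ a b) ∧
    (∀ a b c, DB B2 4 (C * δ) (pderiv c fun y => (g y)⁻¹ a b)) ∧
    (∀ k a b, DB B2 5 (C * δ) fun y => christoffel g y k a b) ∧
    ∀ a b, DB B2 3 (C * δ) fun y => ricci g y a b := by
  let ι := {p : (ℝ × MetricField 4) × E4 // P1 K p.1.1 p.1.2 ∧ p.2 ∈ B2}
  let x : ι → E4 := fun j => j.1.2
  let w : ι → ℝ := fun j => j.1.1.1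
  let g : ι → MetricField 4 := fun j => j.1.1.2
  have hx : ∀ j, x j ∈ B2 := fun j => j.2.2
  have h0 : ∀ a b, FO 6 (fun _ => 1) (fun j y => g j y a b) x := fun a b =>
    fo_of_db (K := K) hx fun j => by simpa using j.2.1.j0 a b
  have h1 : ∀ a b c, FO 5 w (fun j => pderiv c fun y => g j y a b) x := fun a b c =>
    fo_of_db (K := 1) hx fun j => by
      rw [one_mul, abs_of_nonneg j.2.1.nn]; exact j.2.1.j1 a b c
  have hi : ∀ a b, FO 5 (fun _ => 1) (fun j y => (g j y)⁻¹ a b) x := fun a b =>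
    (fo_inv (inv_pos.2 hK) h0 (fun j => j.2.1.pos _ j.2.2) a b).mono (by norm_num)
  have h2 : ∀ a b c, FO 4 w (fun j => pderiv c fun y => (g j y)⁻¹ a b) x := fun a b c =>
    ((FO.zero.sub (FO.sum Finset.univ fun p _ => FO.sum Finset.univ fun q _ =>
      fo_mul ((hi a p).mul (h1 p q c)) (hi q b))).mono (by norm_num)).congr fun j =>
      eventually_of_mem (ob2.mem_nhds (hx j)) fun z hz => by
        simp only [zero_sub]; exact pd_ginv' j.2.1.riem hz c a b
  have h3 := fo_chr hi h1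
  have h4 := fo_chr hi fun a b c => (h0 a b).pd c
  have h5 : ∀ k a b, FO 3 w (fun j y => christoffel (g j) y k a b) x := fun k a b =>
    (h3 k a b).mono (by norm_num)
  have h6 : ∀ k a b, FO 3 (fun _ => 1) (fun j y => christoffel (g j) y k a b) x := fun k a b =>
    (h4 k a b).mono (by norm_num)
  have h7 : ∀ a b, FO 3 w (fun j y => ricci (g j) y a b) x := fun a b =>
    (((FO.sum Finset.univ fun c _ => ((h3 c a b).mono (by norm_num)).pd c).sub
      ((FO.sum Finset.univ fun c _ => (h3 c c a).mono (by norm_num)).pd b)).add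
      (FO.sum Finset.univ fun c _ => FO.sum Finset.univ fun d _ => (h6 c c d).mul (h5 d a b))).sub
      (FO.sum Finset.univ fun c _ => FO.sum Finset.univ fun d _ => (h6 c b d).mul (h5 d c a))
  obtain ⟨C1, p1, q1⟩ := fo_le (α := Fin 4 × Fin 4) fun p => hi p.1 p.2
  obtain ⟨C2, p2, q2⟩ := fo_le (α := Fin 4 × Fin 4 × Fin 4) fun p => h2 p.1 p.2.1 p.2.2
  obtain ⟨C3, p3, q3⟩ := fo_le (α := Fin 4 × Fin 4 × Fin 4) fun p => h3 p.1 p.2.1 p.2.2
  obtain ⟨C4, p4, q4⟩ := fo_le (α := Fin 4 × Fin 4) fun p => h7 p.1 p.2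
  refine ⟨C1 + C2 + C3 + C4, by positivity, fun δ g h => ?_⟩
  have hδ := h.nn
  have e : ∀ {C : ℝ}, C ≤ C1 + C2 + C3 + C4 → C * |δ| ≤ (C1 + C2 + C3 + C4) * δ := fun hC => by
    rw [abs_of_nonneg hδ]; gcongr
  refine ⟨fun a b => ⟨fun y hy => ((hi a b).sm ⟨((δ, g), y), h, hy⟩).contDiffWithinAt,
      fun k hk y hy => (q1 (a, b) ⟨((δ, g), y), h, hy⟩ k hk).trans (by simp; linarith)⟩,
    fun a b c => ⟨fun y hy => ((h2 a b c).sm ⟨((δ, g), y), h, hy⟩).contDiffWithinAt,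
      fun k hk y hy => (q2 (a, b, c) ⟨((δ, g), y), h, hy⟩ k hk).trans (e (by linarith))⟩,
    fun a b c => ⟨fun y hy => ((h3 a b c).sm ⟨((δ, g), y), h, hy⟩).contDiffWithinAt,
      fun k hk y hy => (q3 (a, b, c) ⟨((δ, g), y), h, hy⟩ k hk).trans (e (by linarith))⟩,
    fun a b => ⟨fun y hy => ((h7 a b).sm ⟨((δ, g), y), h, hy⟩).contDiffWithinAt,
      fun k hk y hy => (q4 (a, b) ⟨((δ, g), y), h, hy⟩ k hk).trans (e (by linarith))⟩⟩

theorem cell_two {K : ℝ} (hK : 0 < K) : ∃ C, 0 < C ∧ ∀ δ g G, P2 K δ g G →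
    (∀ a b, DB B2 3 (C * δ) fun y => (G y)⁻¹ a b - (g y)⁻¹ a b) ∧
    ∀ k a b, DB B2 3 (C * δ) fun y => christoffel G y k a b - christoffel g y k a b := by
  let ι := {p : (ℝ × MetricField 4 × MetricField 4) × E4 // P2 K p.1.1 p.1.2.1 p.1.2.2 ∧ p.2 ∈ B2}
  let x : ι → E4 := fun j => j.1.2
  let w : ι → ℝ := fun j => j.1.1.1
  let g : ι → MetricField 4 := fun j => j.1.1.2.1
  let G : ι → MetricField 4 := fun j => j.1.1.2.2
  have hx : ∀ j, x j ∈ B2 := fun j => j.2.2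
  have h0 : ∀ a b, FO 4 (fun _ => 1) (fun j y => g j y a b) x := fun a b =>
    fo_of_db (K := K) hx fun j => by simpa using j.2.1.j0 a b
  have H0 : ∀ a b, FO 4 (fun _ => 1) (fun j y => G j y a b) x := fun a b =>
    fo_of_db (K := K) hx fun j => by simpa using j.2.1.j0G a b
  have h1 : ∀ a b, FO 4 w (fun j y => G j y a b - g j y a b) x := fun a b =>
    fo_of_db (K := 1) hx fun j => by
      rw [one_mul, abs_of_nonneg j.2.1.nn]; exact j.2.1.df a b
  have hi := fo_inv (inv_pos.2 hK) h0 fun j => j.2.1.pos _ j.2.2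
  have Hi := fo_inv (inv_pos.2 hK) H0 fun j => j.2.1.posG _ j.2.2
  have h2 : ∀ a b, FO 3 w (fun j y => (G j y)⁻¹ a b - (g j y)⁻¹ a b) x := fun a b =>
    ((FO.sum Finset.univ fun q _ => fo_mul (FO.sum Finset.univ fun p _ =>
      (Hi a p).mul (FO.zero.sub (h1 p q))) (hi q b)).mono (by norm_num)).congr fun j =>
      eventually_of_mem (ob2.mem_nhds (hx j)) fun z hz => by
        have e := congrFun (congrFun (Matrix.inv_sub_inv (A := G j z) (B := g j z) (iff_of_true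
          (j.2.1.riemG.posDef z hz).isUnit (j.2.1.riem.posDef z hz).isUnit)) a) b
        simpa only [Matrix.sub_apply, Matrix.mul_apply, zero_sub, neg_sub] using e
  have h3 : ∀ a b c, FO 3 w (fun j y => pderiv c (fun y => G j y a b) y -
      pderiv c (fun y => g j y a b) y) x := fun a b c => ((h1 a b).pd c).congr fun j =>
    eventually_of_mem (ob2.mem_nhds (hx j)) fun z hz =>
      (pd_sub c ((j.2.1.j0G a b).diffAt ob2 hz) ((j.2.1.j0 a b).diffAt ob2 hz)).symm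
  have h4 : ∀ k a b, FO 3 w (fun j y => christoffel (G j) y k a b - christoffel (g j) y k a b) x :=
    fun k a b => ((FO.const (1 / 2 : ℝ)).mul (FO.sum Finset.univ fun d _ =>
      (fo_mul (h2 k d) ((((H0 b d).pd a).add ((H0 a d).pd b)).sub ((H0 a b).pd d))).add
      (((hi k d).mono (by norm_num)).mul (((h3 b d a).add (h3 a d b)).sub (h3 a b d))))).congr
      fun j => Eventually.of_forall fun z => by
        simp only [christoffel, inverseField, ← mul_sub, ← Finset.sum_sub_distrib]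
        congr 1
        exact Finset.sum_congr rfl fun _ _ => by ring
  obtain ⟨C1, p1, q1⟩ := fo_le (α := Fin 4 × Fin 4) fun p => h2 p.1 p.2
  obtain ⟨C2, p2, q2⟩ := fo_le (α := Fin 4 × Fin 4 × Fin 4) fun p => h4 p.1 p.2.1 p.2.2
  refine ⟨C1 + C2, by positivity, fun δ g G h => ?_⟩
  have hδ := h.nn
  have e : ∀ {C : ℝ}, C ≤ C1 + C2 → C * |δ| ≤ (C1 + C2) * δ := fun hC => by
    rw [abs_of_nonneg hδ]; gcongr
  exact ⟨fun a b => ⟨fun y hy => ((h2 a b).sm ⟨((δ, g, G), y), h, hy⟩).contDiffWithinAt,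
      fun k hk y hy => (q1 (a, b) ⟨((δ, g, G), y), h, hy⟩ k hk).trans (e (by linarith))⟩,
    fun a b c => ⟨fun y hy => ((h4 a b c).sm ⟨((δ, g, G), y), h, hy⟩).contDiffWithinAt,
      fun k hk y hy => (q2 (a, b, c) ⟨((δ, g, G), y), h, hy⟩ k hk).trans (e (by linarith))⟩⟩

/-- the input of `cell` -/
structure Pre (K η κ : ℝ) (g G : MetricField 4) : Prop where
  p1 : P1 K (K * κ) g
  p2 : P2 K (K * (η * κ)) g G
  ric : (∀ y ∈ B2, ∀ a b, ricci g y a b = 0) ∨ P1 K (K * (η * κ)) g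

variable {K K' δ δ' η κ : ℝ} {g G : MetricField 4}

theorem P1.mono (h : P1 K δ g) (h0 : 0 < K) (hK : K ≤ K') (hδ : δ ≤ δ') : P1 K' δ' g :=
  ⟨h.nn.trans hδ, h.riem, fun y hy => (h.pos y hy).mono (inv_anti₀ h0 hK),
    fun a b => (h.j0 a b).mono hK, fun a b c => (h.j1 a b c).mono hδ⟩

theorem P2.mono (h : P2 K δ g G) (h0 : 0 < K) (hK : K ≤ K') (hδ : δ ≤ δ') : P2 K' δ' g G :=
  ⟨h.nn.trans hδ, h.riem, h.riemG, fun y hy => (h.pos y hy).mono (inv_anti₀ h0 hK),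
    fun y hy => (h.posG y hy).mono (inv_anti₀ h0 hK), fun a b => (h.j0 a b).mono hK,
    fun a b => (h.j0G a b).mono hK, fun a b => (h.df a b).mono hδ⟩

theorem Pre.mono (h : Pre K η κ g G) (h0 : 0 < K) (hK : K ≤ K') (hη : 0 ≤ η) (hκ : 0 ≤ κ) :
    Pre K' η κ g G :=
  ⟨h.p1.mono h0 hK (by gcongr), h.p2.mono h0 hK (by gcongr),
    h.ric.imp_right fun h => h.mono h0 hK (by gcongr)⟩

/-- **the data of a cell** -/
theorem cell (hK : 0 < K) : ∃ K', 0 < K' ∧ ∀ η κ g G, 0 ≤ η → 0 ≤ κ → κ ≤ 2 → Pre K η κ g G →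
    CellG K' (K' * η) κ g G := by
  obtain ⟨C1, p1, q1⟩ := cell_one hK
  obtain ⟨C2, p2, q2⟩ := cell_two hK
  refine ⟨(K + 1) * (1 + 2 * C1 + 4 * C2), by positivity, fun η κ g G hη hκ hκ2 h => ?_⟩
  obtain ⟨a1, a2, a3, -⟩ := q1 _ _ h.p1
  obtain ⟨b1, b2⟩ := q2 _ _ _ h.p2
  have ck : ∀ {m : ℕ} {N N' : ℝ} {f : E4 → ℝ}, DB B2 (m + 1) N f → 2 * N ≤ N' →
      CKA (1 / 2) B1 m N' f := fun h e =>
    (db_cka h isOpen_ball (convex_ball _ _) (ball_subset_ball (by norm_num))).mono e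
  have e1 := mul_pos hK p1
  have e2 := mul_pos hK p2
  have e3 := mul_nonneg hη hκ
  have f1 : 2 * (C1 * K) ≤ (K + 1) * (1 + 2 * C1 + 4 * C2) := by nlinarith
  have f2 : 4 * (C2 * K) ≤ (K + 1) * (1 + 2 * C1 + 4 * C2) := by nlinarith
  have f3 := mul_le_mul_of_nonneg_right f1 hκ
  have f4 := mul_le_mul_of_nonneg_right f1 e3
  have f5 := mul_le_mul_of_nonneg_right f2 hη
  have f6 := mul_le_mul_of_nonneg_right f2 e3
  have f7 := mul_le_mul_of_nonneg_left hκ2 (mul_nonneg e2.le hη)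
  have f8 := mul_nonneg e1.le hκ
  have f9 := mul_nonneg e2.le e3
  refine ⟨h.p1.riem, h.p2.riemG, fun a b => ((h.p1.j0 a b).of_le (by norm_num)).mono (by nlinarith),
    fun a b => ck (a1 a b) (by nlinarith), fun a b c => ck (a2 a b c) (by linarith),
    fun k a b => (a3 k a b).mono (by linarith), fun a b => ?_,
    fun a b => ck (b1 a b) (by linarith), fun k a b => ck (b2 k a b) (by linarith)⟩
  rcases h.ric with h1 | h1
  · exact ck (N := 0) (db_congr ob2 (db_const (a := 0) (by simp)) fun y hy => h1 y hy a b)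
      (by rw [mul_zero]; positivity)
  · exact ck ((q1 _ _ h1).2.2.2 a b) (by linarith)

theorem riem_aff {U : Set E4} {c : E4} {ρ : ℝ} (h : IsRiemannianOn G U)
    (hU : ∀ y ∈ B2, c + ρ • y ∈ U) : IsRiemannianOn (fun y => G (c + ρ • y)) B2 :=
  ⟨ob2, fun a b => (h.contDiffOn a b).comp (f := fun y : E4 => c + ρ • y) (by fun_prop) hU,
    fun y hy => h.posDef _ (hU y hy)⟩

theorem ricci_aff (G : MetricField 4) (c : E4) (ρ : ℝ) (y : E4) (a b : Fin 4) :
    ricci (fun y => G (c + ρ • y)) y a b = ρ ^ 2 * ricci G (c + ρ • y) a b := by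
  have h0 : ∀ (i : Fin 4) (f : E4 → ℝ) (y : E4),
      pderiv i (fun y => f (c + ρ • y)) y = ρ * pderiv i f (c + ρ • y) := fun i f y =>
    K.pd_aff i f c ρ y
  have h1 : ∀ y k i j, christoffel (fun y => G (c + ρ • y)) y k i j =
      ρ * christoffel G (c + ρ • y) k i j := fun y k i j => by
    simp only [christoffel, inverseField, fun i p q => h0 i (fun z => G z p q) y, Finset.mul_sum]
    exact Finset.sum_congr rfl fun _ _ => by ring
  simp only [ricci, h1, ← Finset.mul_sum, pd_cmul, fun k => h0 k (fun z => christoffel G z k a b) y,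
    h0 b (fun z => ∑ k, christoffel G z k k a) y]
  simp only [mul_sub, mul_add, Finset.mul_sum]
  congr 1
  · congr 1
    · congr 1
      · exact Finset.sum_congr rfl fun _ _ => by ring
      · ring
    · exact Finset.sum_congr rfl fun _ _ => Finset.sum_congr rfl fun _ _ => by ring
  · exact Finset.sum_congr rfl fun _ _ => Finset.sum_congr rfl fun _ _ => by ring

end Crest.Agent.N207.Ga

end
end

-- ▼ part N207/Ga/Data2

/-!
# Row 207 (helper18): **DATA**
-/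

set_option autoImplicit false

open scoped ContDiff
open Metric Set Filter Topology
open Crest.GeometryTopology.CoordMetric Crest.Agent.R202.Tens
open Crest.Agent.N207.I Crest.Agent.N207.CB Crest.Agent.N207.Jt Crest.Agent.N207.K

noncomputable section

namespace Crest.Agent.N207.Ga

theorem ue_db {ι : Type} {l : Filter ι} {u : ι → E4 → ℝ} {v : E4 → ℝ} {S : Set E4}
    (h : UE l u (fun _ => v) fun _ => S) {δ R : ℝ} (hδ : 0 < δ) (hR : 1 ≤ R) :
    ∀ᶠ i in l, ∀ (c : E4) (ρ : ℝ), 0 < ρ → ρ ≤ R → (∀ y ∈ B2, c + ρ • y ∈ S) →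
      DB B2 4 δ fun y => u i (c + ρ • y) - v (c + ρ • y) := by
  have h1 := (Finset.range 5).eventually_all.2 fun k _ => h.ev k (ε := δ / R ^ 4) (by positivity)
  filter_upwards [h1, ev_un.1 h.left.sm, ev_un.1 h.right.sm] with i a b c x ρ h0 h2 h3
  have h4 : DB S 4 (δ / R ^ 4) fun z => u i z - v z :=
    ⟨fun z hz => ((b z hz).sub (c z hz)).contDiffWithinAt, fun k hk z hz => by
      rw [show (fun z => u i z - v z) = u i - v from rfl,
        iteratedFDeriv_sub_apply ((b z hz).of_le (kle k)) ((c z hz).of_le (kle k))]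
      exact (a k (Finset.mem_range.2 (by omega)) z hz).le⟩
  exact (db_aff h4 h0 h2 hR h3).mono (le_of_eq (by field_simp))

theorem db_sc {f : E4 → ℝ} {x : E4} {m : ℕ} {N : ℝ} (hx : x ≠ 0)
    (h : ∀ y ∈ B2, ContDiffAt ℝ ∞ f (x + (‖x‖ / 8) • y) ∧ ∀ k ≤ m,
      ‖iteratedFDeriv ℝ k f (x + (‖x‖ / 8) • y)‖ * ‖x + (‖x‖ / 8) • y‖ ^ k ≤ N) :
    DB B2 m N fun y => f (x + (‖x‖ / 8) • y) := by
  have hp : 0 < ‖x‖ / 8 := by have := norm_pos_iff.2 hx; positivity
  refine ⟨fun y hy => ((h y hy).1.comp y (f := fun y : E4 => x + (‖x‖ / 8) • y)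
    (by fun_prop)).contDiffWithinAt, fun k hk y hy => (norm_aff_le f x hp k y).trans ?_⟩
  refine le_trans ?_ ((h y hy).2 k hk)
  rw [mul_comm]
  gcongr
  linarith [(cell_norm x (mem_ball_zero_iff.1 hy).le).1]

theorem rp_le {b t s : ℝ} (hb : 0 ≤ b) (h : b ≤ 2 * t) (hs : 0 ≤ s) (hs1 : s ≤ 1) :
    b ^ s ≤ 2 * t ^ s := by
  have ht : 0 ≤ t := by linarith
  refine (Real.rpow_le_rpow hb h hs).trans ?_
  rw [Real.mul_rpow zero_le_two ht]
  refine mul_le_mul_of_nonneg_right ?_ (by positivity)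
  simpa using Real.rpow_le_rpow_of_exponent_le one_le_two hs1

theorem rp_mid {b γ T0 : ℝ} (hb : 0 < b) (h : b ≤ 2 * Real.exp (-T0)) (h0 : 0 < γ) (h1 : γ ≤ 1) :
    b ^ γ ≤ 2 * Real.exp (-(4 / 5 * γ * T0)) * b ^ (γ / 5) := by
  have h2 := rp_le (s := 4 / 5 * γ) hb.le h (by positivity) (by linarith)
  rw [← Real.exp_mul, show -T0 * (4 / 5 * γ) = -(4 / 5 * γ * T0) by ring] at h2
  rw [show b ^ γ = b ^ (4 / 5 * γ) * b ^ (γ / 5) by rw [← Real.rpow_add hb]; congr 1; ring]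
  gcongr

variable {M : Type*} {T : TD M} {g : T.V → Fam T} {γ T0 : ℝ} {w : T.V}

theorem wt_eq (γ : ℝ) (L : T.V → ℝ) (w : T.V) (x : E4) : T.wt γ L w x =
    ‖x‖⁻¹ ^ γ + if w = T.root then 0 else (Real.exp (-L w) * ‖x‖) ^ γ := by
  rw [TD.wt, Real.rpow_neg (norm_nonneg _), Real.inv_rpow (norm_nonneg _)]

theorem wt_le {L : T.V → ℝ} {x z : E4} {c γ' : ℝ} (h1 : ‖z‖⁻¹ ^ γ ≤ c * ‖x‖⁻¹ ^ γ')
    (h2 : w ≠ T.root → (Real.exp (-L w) * ‖z‖) ^ γ ≤ c * (Real.exp (-L w) * ‖x‖) ^ γ') :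
    T.wt γ L w z ≤ c * T.wt γ' L w x := by
  rw [wt_eq, wt_eq, mul_add]
  split_ifs with hw
  · simpa using h1
  · exact add_le_add h1 (h2 hw)

section nk

variable {L : T.V → ℝ} {x y : E4}

theorem gK_le (hx : x ∈ T.gK L (Sum.inr w)) (hw : w ≠ T.root) :
    Real.exp (-L w) * ‖x‖ ≤ 3 / 4 * T.r := by
  have := TD.nrm_exp_le.2 (hx.2 hw)
  rwa [norm_smul, Real.norm_of_nonneg (Real.exp_pos _).le] at this

theorem nk_mem (hx : x ∈ T.gK L (Sum.inr w)) (hy : y ∈ B2) :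
    x + (‖x‖ / 8) • y ∈ (T.glob L).U (Sum.inr w) := by
  obtain ⟨h1, h2⟩ := cell_norm x (mem_ball_zero_iff.1 hy).le
  exact ⟨by linarith [hx.1], fun hw => by linarith [hx.1, hx.2 hw]⟩

theorem wt_cell (h0 : 0 < γ) (h1 : γ ≤ 1) (hx : x ∈ T.gK L (Sum.inr w)) (hy : y ∈ B2) :
    T.wt γ L w (x + (‖x‖ / 8) • y) ≤ 2 * T.wt γ L w x := by
  obtain ⟨h2, h3⟩ := cell_norm x (mem_ball_zero_iff.1 hy).le
  have h4 := hx.1
  refine wt_le (rp_le (by positivity) ?_ h0.le h1) fun _ => rp_le (by positivity) ?_ h0.le h1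
  · rw [← div_eq_mul_inv, inv_le_comm₀ (by linarith) (by positivity), inv_div]; linarith
  · nlinarith [Real.exp_pos (-L w)]

theorem wt_exp (h : T.Ok) {γ' : ℝ} (h0 : 0 ≤ γ') (h1 : γ' ≤ γ) (hx : x ∈ T.gK L (Sum.inr w)) :
    T.wt γ L w x ≤ 1 * T.wt γ' L w x := by
  have h4 := hx.1
  refine wt_le ?_ fun hw => ?_ <;> rw [one_mul]
  · exact Real.rpow_le_rpow_of_exponent_ge (by positivity)
      (inv_le_one_of_one_le₀ (by linarith)) h1
  · exact Real.rpow_le_rpow_of_exponent_ge (by positivity)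
      (by linarith [gK_le hx hw, h.r_lt, h.r_pos]) h1

theorem wt_two (h : T.Ok) (h0 : 0 ≤ γ) (hx : x ∈ T.gK L (Sum.inr w)) : T.wt γ L w x ≤ 2 := by
  refine (wt_exp h le_rfl h0 hx).trans ?_
  rw [wt_eq]; split_ifs <;> norm_num

end nk

variable {ι : Type} {l : Filter ι} {L : ι → T.V → ℝ} {G : ι → Fam T}

theorem nrm_riem {L : T.V → ℝ} {G : Fam T} (h : (T.glob L).IsMet G) (s : T.S) :
    IsRiemannianOn (T.nrm L G s) ((T.glob L).U s) :=
  riem_smul (h.riem s) (inv_pos.2 (pow_pos (TD.eps_pos L _) 2))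

theorem pre_ball (hL : T.Lim g γ) (hS : T.Seq g γ l L G) (a : T.B) : ∃ K, 0 < K ∧
    ∀ η, 0 < η → η ≤ 1 → ∀ᶠ i in l, ∀ x : E4, ‖x‖ ≤ 3 / 2 →
      Pre K η 1 (fun y => g (T.vx a) (Sum.inl a) (x + (1 / 8 : ℝ) • y))
        fun y => T.nrm (L i) (G i) (Sum.inl a) (x + (1 / 8 : ℝ) • y) := by
  obtain ⟨D, c, h1, hc, hD⟩ := ball_bd hL
  have p1 := sm_nonneg (m := 6) h1
  have p2 : 0 < 2 / c := by positivity
  refine ⟨sm D 6 + 1 + 2 / c, by positivity, fun η h0 hη => ?_⟩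
  have hK : (sm D 6 + 1 + 2 / c)⁻¹ ≤ c / 2 := by
    rw [inv_le_comm₀ (by positivity) (by positivity), inv_div]; linarith
  filter_upwards [hS.met, eventually_all.2 fun p => eventually_all.2 fun q =>
    ue_db (hS.ball a p q _ (isCompact_closedBall 0 (15 / 8)) (closedBall_subset_ball (by norm_num)))
      (δ := min η (c / 32)) (by positivity) le_rfl] with i hm he x hx
  have n1 : ∀ y ∈ B2, ‖x + (1 / 8 : ℝ) • y‖ ≤ 15 / 8 := fun y hy =>
    (ball_norm hx (mem_ball_zero_iff.1 hy).le).trans (by norm_num)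
  have n2 : ∀ y ∈ B2, x + (1 / 8 : ℝ) • y ∈ ball (0 : E4) 2 := fun y hy =>
    mem_ball_zero_iff.2 ((n1 y hy).trans_lt (by norm_num))
  have r1 := riem_aff (lim_ball hL a) n2
  have r2 := riem_aff (nrm_riem hm.2 (Sum.inl a)) n2
  have d1 := fun p q => ball_db (m := 6) (W := B2) hL h1 (fun z hz k => (hD a z hz).2 k p q) hx
    fun y hy => (mem_ball_zero_iff.1 hy).le.trans (by norm_num)
  have d2 := fun p q => he p q x (1 / 8) (by norm_num) (by norm_num) fun y hy =>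
    mem_closedBall_zero_iff.2 (n1 y hy)
  have q1 := fun y hy => ((hD a _ (n1 y hy)).1.mono (half_le_self hc.le)).mono hK
  have m1 := min_le_left η (c / 32)
  refine ⟨⟨by positivity, r1, q1, fun p q => (d1 p q).mono (by linarith),
      fun p q r => (db_pd ob2 (d1 p q) r).mono (by linarith)⟩,
    ⟨by positivity, r1, r2, q1, fun y hy => (pos_near (hD a _ (n1 y hy)).1
      (metric_symm r2 hy) fun p q => ((d2 p q).zero hy).trans (min_le_right _ _)).mono hK,
      fun p q => ((d1 p q).of_le (by norm_num)).mono (by linarith),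
      fun p q => (db_congr ob2 (db_add ob2 ((d1 p q).of_le (by norm_num)) (d2 p q))
        fun y _ => by ring).mono (by linarith), fun p q => (d2 p q).mono (by nlinarith)⟩,
    Or.inl fun y hy p q => ?_⟩
  rw [ricci_aff, hL.ric _ _ _ (core_inl a ▸ n2 y hy), mul_zero]

theorem pre_neck (h : T.Ok) (hL : T.Lim g γ) (hS : T.Seq g γ l L G) (h0 : 0 < γ) (h1 : γ ≤ 1)
    (w : T.V) : ∃ K, 0 < K ∧ ∀ T0, 0 ≤ T0 → ∀ᶠ i in l, ∀ x ∈ T.gK (L i) (Sum.inr w),
      Pre K (Real.exp (-(4 / 5 * γ * T0))) (T.wt (γ / 5) (L i) w x)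
        (fun y => gbL T g T0 (L i) (Sum.inr w) (x + (‖x‖ / 8) • y))
        fun y => T.nrm (L i) (G i) (Sum.inr w) (x + (‖x‖ / 8) • y) := by
  obtain ⟨C, hC0, hC⟩ := gbL_sj h hL
  choose D hD using hS.neck w
  have p1 := sm_nonneg (m := 6) hC0
  have p2 := sm_nonneg (m := 4) fun k => abs_nonneg (D k)
  set A := sm C 6
  set B := sm (fun k => |D k|) 4
  refine ⟨4 * A + 4 * B + 2, by positivity, fun T0 hT => ?_⟩
  have hK : (4 * A + 4 * B + 2)⁻¹ ≤ 1 / 2 := by
    rw [one_div]; exact inv_anti₀ two_pos (by linarith)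
  set η := Real.exp (-(4 / 5 * γ * T0))
  have hη : 0 < η := Real.exp_pos _
  have hδ : 0 < η * Real.exp (-T0) ^ (γ / 5) := by positivity
  have hr := h.r_pos
  have e1 := eventually_all.2 fun p => eventually_all.2 fun q =>
    ue_db (hS.out w p q (closedBall 0 (Real.exp T0) \ ball 0 (5 / 4))
      ((isCompact_closedBall _ _).diff isOpen_ball) fun z hz => by
        have := hz.2; simp only [mem_ball_zero_iff, not_lt] at this
        show 1 < ‖z‖; linarith) hδ (Real.one_le_exp hT)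
  have e2 := eventually_all.2 fun hw : w ≠ T.root => eventually_all.2 fun p =>
    eventually_all.2 fun q =>
    ue_db (hS.inn w hw p q (closedBall 0 (7 / 8 * T.r) \ ball 0 (Real.exp (-T0)))
      ((isCompact_closedBall _ _).diff isOpen_ball) fun z hz => by
        have h2 := hz.2
        have h3 := mem_closedBall_zero_iff.1 hz.1
        simp only [mem_ball_zero_iff, not_lt] at h2
        exact ⟨(Real.exp_pos _).trans_le h2, by linarith⟩) hδ le_rfl
  filter_upwards [hS.met, hS.small, (Finset.range 5).eventually_all.2 fun k _ => hD k, e1, e2,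
    eventually_all.2 fun hw : w ≠ T.root => (hS.top w hw).eventually_ge_atTop (2 * T0 + 1)]
    with i hm hs hn ho hi hl x hx
  have x0 : 0 < ‖x‖ := by linarith [hx.1]
  have x1 := norm_pos_iff.1 x0
  have n1 := fun y hy => nk_mem (y := y) hx hy
  have n2 := fun y (hy : y ∈ B2) => cell_norm x (mem_ball_zero_iff.1 hy).le
  have r1 := riem_aff (gbL_riem (T0 := T0) h hL (Sum.inr w)) n1
  have r2 := riem_aff (nrm_riem hm.2 (Sum.inr w)) n1
  have w0 : 0 ≤ T.wt γ (L i) w x := wt_nonneg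
  have w1 := wt_exp h (γ' := γ / 5) (by positivity) (by linarith : γ / 5 ≤ γ) hx
  have w2 := wt_two h (by positivity : 0 ≤ γ / 5) hx
  set ϖ := T.wt γ (L i) w x
  set κ := T.wt (γ / 5) (L i) w x with hκ
  have k0 : 0 ≤ η * κ := mul_nonneg hη.le (by linarith)
  have d1 : ∀ p q, DB B2 6 (A * (2 * ϖ))
      (TD.dv (fun y => gbL T g T0 (L i) (Sum.inr w) (x + (‖x‖ / 8) • y)) p q) := fun p q =>
    db_sj hC0 (by positivity) x1 (fun y hy => (mem_ball_zero_iff.1 hy).le.trans (by norm_num))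
      fun y hy => (hC T0 (L i) w _ (n1 y hy) p q).mono fun k =>
        mul_le_mul_of_nonneg_left (wt_cell h0 h1 hx hy) (hC0 k)
  have d2 : ∀ p q, DB B2 4 (B * (2 * ϖ))
      (TD.dv (fun y => T.nrm (L i) (G i) (Sum.inr w) (x + (‖x‖ / 8) • y)) p q) := fun p q =>
    db_sc (f := TD.dv (T.nrm (L i) (G i) (Sum.inr w)) p q) x1 fun y hy =>
      ⟨TR.sm_dv (nrm_riem hm.2 _) (n1 y hy) p q, fun k hk => by
        have a1 := hn k (Finset.mem_range.2 (by omega)) p q _ (n1 y hy)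
        have a2 : 0 < ‖x + (‖x‖ / 8) • y‖ ^ k := pow_pos (norm_pos_iff.2 (glob_ne (n1 y hy))) k
        rw [mul_right_comm, ← div_eq_mul_inv, le_div_iff₀ a2] at a1
        exact a1.trans (mul_le_mul ((le_abs_self _).trans (le_sm (C := fun k => |D k|)
          (fun k => abs_nonneg _) hk)) (wt_cell h0 h1 hx hy) wt_nonneg p2)⟩
  have q1 := fun y hy => (gbL_pos (T0 := T0) h hL (n1 y hy)).mono hK
  have b1 : A * (2 * ϖ) + 1 ≤ 4 * A + 4 * B + 2 := by nlinarith
  have b2 : B * (2 * ϖ) + 1 ≤ 4 * A + 4 * B + 2 := by nlinarith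
  have P : ∀ δ, A * (2 * ϖ) ≤ δ → P1 (4 * A + 4 * B + 2) δ
      fun y => gbL T g T0 (L i) (Sum.inr w) (x + (‖x‖ / 8) • y) := fun δ hδ =>
    ⟨le_trans (by positivity) hδ, r1, q1, fun p q => (db_of_dv ob2 (d1 p q)).mono b1,
      fun p q r => by rw [TR.pd_dv]; exact (db_pd ob2 (d1 p q) r).mono hδ⟩
  have Q : (∀ p q, DB B2 4 ((4 * A + 4 * B + 2) * (η * κ)) fun y =>
      T.nrm (L i) (G i) (Sum.inr w) (x + (‖x‖ / 8) • y) p q -
        gbL T g T0 (L i) (Sum.inr w) (x + (‖x‖ / 8) • y) p q) → P2 (4 * A + 4 * B + 2)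
      ((4 * A + 4 * B + 2) * (η * κ)) (fun y => gbL T g T0 (L i) (Sum.inr w) (x + (‖x‖ / 8) • y))
      fun y => T.nrm (L i) (G i) (Sum.inr w) (x + (‖x‖ / 8) • y) := fun hd =>
    ⟨by positivity, r1, r2, q1, fun y hy =>
      (pos_of_small (metric_symm r2 hy) fun p q => hs w p q _ (n1 y hy)).mono hK,
      fun p q => ((db_of_dv ob2 (d1 p q)).mono b1).of_le (by norm_num),
      fun p q => (db_of_dv ob2 (d2 p q)).mono b2, hd⟩
  have lo : Real.exp (-T0) ^ (γ / 5) ≤ κ →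
      η * Real.exp (-T0) ^ (γ / 5) ≤ (4 * A + 4 * B + 2) * (η * κ) := fun hh => by
    have := mul_le_mul_of_nonneg_left hh hη.le
    nlinarith [mul_nonneg (add_nonneg p1 p2) k0]
  have ex := Real.exp_pos T0
  have ex' := Real.exp_pos (-T0)
  by_cases z1 : ‖x‖ < Real.exp T0 / 2
  · have a1 : ∀ y ∈ B2, gbL T g T0 (L i) (Sum.inr w) (x + (‖x‖ / 8) • y) =
        g w (Sum.inr w) (x + (‖x‖ / 8) • y) := fun y hy =>
      gbL_out h (glob_ne (n1 y hy)) ((Real.log_le_iff_le_exp (norm_pos_iff.2 (glob_ne (n1 y hy)))).2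
        (by linarith [(n2 y hy).2])) hl
    refine ⟨P _ (by nlinarith), Q fun p q => (db_congr ob2 (ho p q x (‖x‖ / 8) (by positivity)
      (by linarith) fun y hy => ⟨mem_closedBall_zero_iff.2 (by linarith [(n2 y hy).2]), fun h2 => by
        linarith [mem_ball_zero_iff.1 h2, (n2 y hy).1, hx.1]⟩) fun y hy => by rw [a1 y hy]).mono
      (lo ?_), Or.inl fun y hy p q => ?_⟩
    · rw [hκ, wt_eq]
      refine le_add_of_le_of_nonneg (Real.rpow_le_rpow ex'.le ?_ (by positivity))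
        (by split_ifs <;> positivity)
      rw [Real.exp_neg]; exact inv_anti₀ x0 (by linarith)
    · rw [(AI.ricci_congr (eventuallyEq_of_mem (ob2.mem_nhds hy) a1)).eq_of_nhds, ricci_aff,
        hL.ric _ _ _ (glob_out (n1 y hy)), mul_zero]
  by_cases z2 : w ≠ T.root ∧ 2 * Real.exp (-T0) < Real.exp (-L i w) * ‖x‖
  · obtain ⟨hw, z2⟩ := z2
    have el := Real.exp_pos (-L i w)
    have g1 := gK_le hx hw
    have a0 : ∀ y : E4, Real.exp (-L i w) • (x + (‖x‖ / 8) • y) =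
        Real.exp (-L i w) • x + (Real.exp (-L i w) * (‖x‖ / 8)) • y := fun y => by
      rw [smul_add, smul_smul]
    have a2 : ∀ y ∈ B2, Real.exp (-T0) ≤ ‖Real.exp (-L i w) • (x + (‖x‖ / 8) • y)‖ ∧
        ‖Real.exp (-L i w) • (x + (‖x‖ / 8) • y)‖ ≤ 7 / 8 * T.r := fun y hy => by
      rw [norm_smul, Real.norm_of_nonneg el.le]
      constructor <;> nlinarith [mul_le_mul_of_nonneg_left (n2 y hy).1 el.le,
        mul_le_mul_of_nonneg_left (n2 y hy).2 el.le]
    have a1 : ∀ y ∈ B2, gbL T g T0 (L i) (Sum.inr w) (x + (‖x‖ / 8) • y) = g (T.par w) (Sum.inr w)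
        (Real.exp (-L i w) • x + (Real.exp (-L i w) * (‖x‖ / 8)) • y) := fun y hy => by
      rw [← a0]
      refine gbL_inn h hw (glob_ne (n1 y hy)) ?_ (hl hw)
      have := Real.log_le_log ex' (a2 y hy).1
      rw [Real.log_exp, log_smul _ (glob_ne (n1 y hy))] at this
      linarith
    refine ⟨P _ (by nlinarith), Q fun p q => (db_congr ob2 (hi hw p q (Real.exp (-L i w) • x)
      (Real.exp (-L i w) * (‖x‖ / 8)) (by positivity) (by linarith [h.r_lt]) fun y hy => by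
        rw [← a0]
        exact ⟨mem_closedBall_zero_iff.2 (a2 y hy).2, fun h2 =>
          absurd (mem_ball_zero_iff.1 h2) (not_lt.2 (a2 y hy).1)⟩) fun y hy => ?_).mono
      (lo ?_), Or.inl fun y hy p q => ?_⟩
    · rw [a1 y hy, ← a0, smul_smul, ← Real.exp_add, add_neg_cancel, Real.exp_zero, one_smul]
    · rw [hκ, wt_eq, if_neg hw]
      exact le_add_of_nonneg_of_le (by positivity)
        (Real.rpow_le_rpow ex'.le (by linarith) (by positivity))
    · rw [(AI.ricci_congr (eventuallyEq_of_mem (ob2.mem_nhds hy) a1)).eq_of_nhds, ricci_aff,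
        hL.ric _ _ _ (a0 y ▸ glob_inn h hw (n1 y hy)), mul_zero]
  have a1 : ϖ ≤ 2 * η * κ := by
    refine wt_le (rp_mid (inv_pos.2 x0) ?_ h0 h1) fun hw =>
      rp_mid (by positivity) (not_lt.1 fun h2 => z2 ⟨hw, h2⟩) h0 h1
    rw [Real.exp_neg, ← div_eq_mul_inv, inv_le_comm₀ x0 (by positivity), inv_div]
    exact not_lt.1 z1
  have a2 := mul_le_mul_of_nonneg_left a1 p1
  have a3 := mul_le_mul_of_nonneg_left a1 p2
  have a4 := mul_nonneg p2 k0
  exact ⟨P _ (by nlinarith), Q fun p q => (db_congr ob2 (db_sub ob2 (d2 p q)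
    ((d1 p q).of_le (by norm_num))) fun y _ => by simp [TD.dv]).mono (by linarith),
    Or.inr (P _ (by linarith))⟩

/-- **DATA** -/
theorem data (h : T.Ok) (hL : T.Lim g γ) (hS : T.Seq g γ l L G) (h0 : 0 < γ) (h1 : γ ≤ 1) :
    DATA T g γ l L G := by
  have key : ∀ s : T.S, ∃ K, 0 < K ∧ ∀ T0, 0 ≤ T0 → ∀ᶠ i in l, ∀ x ∈ T.gK (L i) s,
      Pre K (Real.exp (-(4 / 5 * γ * T0))) (kap T (γ / 5) (L i) s x)
        (clM T (gbL T g T0 (L i)) s x) (clM T (T.nrm (L i) (G i)) s x) := fun s => by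
    cases s with
    | inl a =>
      obtain ⟨K, hK, h2⟩ := pre_ball hL hS a
      exact ⟨K, hK, fun T0 hT => (h2 _ (Real.exp_pos _) (Real.exp_le_one_iff.2
        (neg_nonpos.2 (by positivity)))).mono fun i hi x hx => hi x (TD.mem_gK_inl.1 hx)⟩
    | inr w => exact pre_neck h hL hS h0 h1 w
  choose K hK hP using key
  have hs : 0 ≤ ∑ s, K s := Finset.sum_nonneg fun s _ => (hK s).le
  obtain ⟨K', h2, h3⟩ := cell (K := ∑ s, K s + 1) (by positivity)
  refine ⟨K', K', 0, h2, h2, fun T0 hT => ?_⟩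
  filter_upwards [eventually_all.2 fun s => hP s T0 hT] with i hi s x hx
  have h4 : 0 ≤ kap T (γ / 5) (L i) s x ∧ kap T (γ / 5) (L i) s x ≤ 2 := by
    cases s with
    | inl a => exact ⟨zero_le_one, one_le_two⟩
    | inr w => exact ⟨wt_nonneg, wt_two h (by positivity) hx⟩
  exact h3 _ _ _ _ (Real.exp_pos _).le h4.1 h4.2 ((hi s x hx).mono (hK s) (by
    linarith [Finset.single_le_sum (fun s _ => (hK s).le) (Finset.mem_univ s)])
    (Real.exp_pos _).le h4.1)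

end Crest.Agent.N207.Ga

end
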