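import Crest.Agent.N207.CB.Defs
import Crest.Agent.N207.Sk.Sta
import Crest.Agent.N207.K.Nem
import Crest.Agent.N207.K.Hd4

-- ▼ part N207/N/Defs
section

/-!
# Row 207, blocks M/N (helper3): design free definitions

Reused: `CB.gb`, `CB.gbL` (reference metrics, vertex units), `CB.scl`, `CB.rad`, `Sk.rw` (the scale
`ρ` in root units), `Sk.EE`, `Sk.SS`, `Sk.Fast`, `TD.nrm` (root units → vertex units).
-/

set_option autoImplicit false

open scoped ContDiff ENNReal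
open Metric Set Filter Topology MeasureTheory
open Crest.GeometryTopology.CoordMetric
open Crest.Agent.N207.I Crest.Agent.N207.CB Crest.Agent.N207.Sk

noncomputable section

namespace Crest.Agent.N207.N

variable {M : Type*} (T : TD M) {k : ℕ}

/-- vertex units → root units (inverse of `T.nrm L`) -/
def rt (L : T.V → ℝ) (G : Fam T) : Fam T := fun s x => T.eps L (T.un s) ^ 2 • G s x

/-- the reference metric on `glob L` in root units -/
def gR (g : T.V → Fam T) (T0 : ℝ) (L : T.V → ℝ) : Fam T := rt T L (gbL T g T0 L)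

/-- energy density `|∇k|² + |k|² / ρ²` for the background `b` (root units) -/
def enD (L : T.V → ℝ) (b : Fam T) (h : T.S → Tn 4 k) (s : T.S) (x : E4) : ℝ :=
  nsq (b s) (cov (b s) (h s)) x + nsq (b s) (h s) x / rw T L s x ^ 2

/-- the energy (lower integral) -/
def En (L : T.V → ℝ) (b : Fam T) (h : T.S → Tn 4 k) : ℝ≥0∞ :=
  (T.glob L).lint T.χ b fun s x => ENNReal.ofReal (enD T L b h s x)

/-- the dual norm `∫ ρ² |F|²` (`EE T L G = ee T L G (Ric G)`) -/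
def ee (L : T.V → ℝ) (b : Fam T) (F : T.S → Tn 4 k) : ℝ≥0∞ :=
  (T.glob L).lint T.χ b fun s x => ENNReal.ofReal (rw T L s x ^ 2 * nsq (b s) (F s) x)




/-- decay `|x|^{-p}` at the root end beyond the radius `R` -/
def Dec (R p : ℝ) (m : ℕ) (C : ℝ) (h : Fam T) : Prop :=
  ∀ x : E4, R ≤ ‖x‖ → ∀ j ≤ m, ∀ a b,
    ‖x‖ ^ j * ‖iteratedFDeriv ℝ j (fun y => h (Sum.inr T.root) y a b) x‖ ≤ C * (R / ‖x‖) ^ p

theorem nrm_rt (L : T.V → ℝ) (G : Fam T) : T.nrm L (rt T L G) = G := by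
  funext s y
  have : T.eps L (T.un s) ^ 2 ≠ 0 := pow_ne_zero _ (Real.exp_pos _).ne'
  simp only [TD.nrm, rt, smul_smul, inv_mul_cancel₀ this, one_smul]

theorem rt_nrm (L : T.V → ℝ) (G : Fam T) : rt T L (T.nrm L G) = G := by
  funext s y
  have : T.eps L (T.un s) ^ 2 ≠ 0 := pow_ne_zero _ (Real.exp_pos _).ne'
  simp only [TD.nrm, rt, smul_smul, mul_inv_cancel₀ this, one_smul]

theorem rw_eq (L : T.V → ℝ) (s : T.S) (x : E4) : rw T L s x = T.eps L (T.un s) * scl T s x := by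
  cases s <;> rfl


end Crest.Agent.N207.N

end
end

-- ▼ part N207/Ga/Defs

/-!
# Row 207, GAUGE (helper3): definitions and the leaves

Unknown: a compatible 1-form `om` on `glob L` (root units), `V = gb⁻¹ om`, `u s x = E s (x, V x)`,
`b = u^* gb`, equation `ten G b = div_G b - d tr_G b / 2 = 0` (`⇔ gauT b G = 0`).
All estimates are on the cells `y ↦ x0 + rad • y`, `y ∈ B1`, `x0 ∈ gK L s`.
-/

set_option autoImplicit false

open scoped ContDiff ENNReal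
open Metric Set Filter Topology MeasureTheory
open Crest.GeometryTopology.CoordMetric
open Crest.Agent.NLib.Ell Crest.Agent.N207.I Crest.Agent.N207.CB Crest.Agent.N207.N
  Crest.Agent.N207.K Crest.Agent.N207.Lg

noncomputable section

namespace Crest.Agent.N207.Ga

/-- restriction of an atlas -/
def res {X : Type*} {α : Type} (A : Atl X α) (U' : α → Set E4) : Atl X α := ⟨A.c, U', A.Γ⟩

/-- pull-back of a metric -/
def pbG (u : E4 → E4) (g : MetricField 4) : MetricField 4 := fun y =>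
  Matrix.of fun i j => pullT u (matT g) y ![i, j]

/-- `div_G b - d tr_G b / 2 = b_{jk} G^{ab} (Γ(b) - Γ(G))^k_{ab}` -/
def ten (G b : MetricField 4) : Tn 4 1 :=
  divT G (matT b) - (1 / 2 : ℝ) • conT G (matT G) (cov G (matT b))

/-- the vector field of a 1-form -/
def shp (g : MetricField 4) (om : Tn 4 1) (y : E4) : E4 :=
  WithLp.toLp 2 fun k => ∑ j, (g y)⁻¹ k j * om y ![j]

/-- enlarged unit ball -/
abbrev B2 : Set E4 := ball 0 (5 / 4)

/-- the `X`-norm on one cell -/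
def X1 (κ M : ℝ) (o : Tn 4 1) : Prop :=
  ∀ j, CKA (1 / 2) B1 1 M (fun y => o y ![j]) ∧
    ∀ p q, CKA (1 / 2) B1 2 (M * κ) (pderiv p (pderiv q fun y => o y ![j]))

/-- the `Y`-norm on one cell -/
def Y1 (κ N : ℝ) (F : Tn 4 1) : Prop := ∀ j, CKA (1 / 2) B1 2 (N * κ) fun y => F y ![j]

/-- the metric data of one cell (`gh` reference metric, `Gh` the given metric) -/
structure CellG (K η κ : ℝ) (gh Gh : MetricField 4) : Prop where
  riem : IsRiemannianOn gh B2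
  riemG : IsRiemannianOn Gh B2
  gb : ∀ a b, DB B2 5 K fun y => gh y a b
  gi : ∀ a b, CKA (1 / 2) B1 4 K fun y => (gh y)⁻¹ a b
  dgi : ∀ a b c, CKA (1 / 2) B1 3 (K * κ) (pderiv c fun y => (gh y)⁻¹ a b)
  chr : ∀ k a b, DB B2 5 (K * κ) fun y => christoffel gh y k a b
  ric : ∀ a b, CKA (1 / 2) B1 2 (η * κ) fun y => ricci gh y a b
  Gi : ∀ a b, CKA (1 / 2) B1 2 η fun y => (Gh y)⁻¹ a b - (gh y)⁻¹ a b
  chrG : ∀ k a b, CKA (1 / 2) B1 2 (η * κ) fun y => christoffel Gh y k a b - christoffel gh y k a b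

/-- the deviation `e (y, v) = E (y, v) - y - v` of the local addition on one cell -/
structure CellE (K r0 : ℝ) (e : E4 × E4 → E4) : Prop where
  db : DB (B2 ×ˢ ball 0 r0) 7 K e
  zero : ∀ y ∈ B2, e (y, 0) = 0
  dzero : ∀ y ∈ B2, ∀ v, fderiv ℝ e (y, 0) (0, v) = 0

variable {M : Type*} (T : TD M)

/-- the union of the cells of radius `t * rad` -/
def gU (L : T.V → ℝ) (t : ℝ) : T.S → Set E4 :=
  Sum.elim (fun _ => ball 0 (3 / 2 + t / 8)) fun w =>
    {x | 3 / 2 * (1 - t / 8) < ‖x‖ ∧ (w ≠ T.root → ‖x‖ < 3 / 4 * T.r * Real.exp (L w) * (1 + t / 8))}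

/-- the shrunk atlas -/
def sh (L : T.V → ℝ) (t : ℝ) : Atl T.Car T.S := res (T.glob L) (gU T L t)

/-- the weight of the cell -/
def kap (γ : ℝ) (L : T.V → ℝ) : T.S → E4 → ℝ := Sum.elim (fun _ _ => 1) fun w x => T.wt γ L w x

/-- the point `y` of the cell with centre `x0` -/
def pt (s : T.S) (x0 y : E4) : E4 := x0 + rad T s x0 • y

/-- a matrix field read in a cell -/
def clM (G : Fam T) (s : T.S) (x0 : E4) : MetricField 4 := fun y => G s (pt T s x0 y)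

/-- an unknown (root units) read in a cell -/
def clX (L : T.V → ℝ) (om : T.S → Tn 4 1) (s : T.S) (x0 : E4) : Tn 4 1 := fun y =>
  (T.eps L (T.un s) ^ 2 * rad T s x0)⁻¹ • om s (pt T s x0 y)

/-- a source read in a cell -/
def clY (F : T.S → Tn 4 1) (s : T.S) (x0 : E4) : Tn 4 1 := fun y => rad T s x0 • F s (pt T s x0 y)

/-- the deviation of a local addition read in a cell -/
def clE (E : T.S → E4 × E4 → E4) (s : T.S) (x0 : E4) : E4 × E4 → E4 := fun p =>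
  (rad T s x0)⁻¹ • (E s (pt T s x0 p.1, rad T s x0 • p.2) - x0) - p.1 - p.2

/-- norm of the unknowns -/
def XN (γ : ℝ) (L : T.V → ℝ) (M : ℝ) (om : T.S → Tn 4 1) : Prop :=
  ∀ s, ∀ x0 ∈ T.gK L s, X1 (kap T γ L s x0) M (clX T L om s x0)

/-- norm of the sources -/
def YN (γ : ℝ) (L : T.V → ℝ) (N : ℝ) (F : T.S → Tn 4 1) : Prop :=
  ∀ s, ∀ x0 ∈ T.gK L s, Y1 (kap T γ L s x0) N (clY T F s x0)

/-- all inner necks are at least `l0` long -/
def Lg (l0 : ℝ) (L : T.V → ℝ) : Prop := T.Long L ∧ ∀ w, w ≠ T.root → l0 ≤ L w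

/-- **MET**: the reference metric is a metric on `glob L` -/
def MET (g : T.V → Fam T) : Prop :=
  ∃ T1 : ℝ, ∀ T0, T1 ≤ T0 → ∃ l0 : ℝ, ∀ L, Lg T l0 L → (T.glob L).IsMet (gR T g T0 L)

/-- **X3** (helper50): the uniform weighted estimate for the vector Laplacian -/
def X3 (g : T.V → Fam T) (γ' : ℝ) : Prop :=
  ∃ C T1 : ℝ, 0 < C ∧ ∀ T0, T1 ≤ T0 → ∃ l0 : ℝ, ∀ L, Lg T l0 L →
    ∀ (F : T.S → Tn 4 1) (N R' : ℝ), 0 ≤ N → (T.glob L).Sec F → YN T γ' L N F →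
      (∀ x : E4, R' ≤ ‖x‖ → F (Sum.inr T.root) x = 0) →
      ∃ om : T.S → Tn 4 1, (T.glob L).Sec om ∧
        (∀ s, ∀ x ∈ (T.glob L).U s, lapT (gR T g T0 L s) (om s) x = F s x) ∧
        XN T γ' L (C * N) om ∧ Tendsto (om (Sum.inr T.root)) (cocompact E4) (𝓝 0)

/-- a compatible local addition on `glob L` -/
structure Ex (K r0 R1 : ℝ) (L : T.V → ℝ) (E : T.S → E4 × E4 → E4) : Prop where
  cell : ∀ s, ∀ x0 ∈ T.gK L s, CellE K r0 (clE T E s x0)
  flat : ∀ w, ∀ x v : E4, R1 ≤ ‖x‖ → (w ≠ T.root → R1 * ‖x‖ ≤ Real.exp (L w)) →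
    E (Sum.inr w) (x, v) = x + v
  compat : ∀ s s' x F v, (T.glob L).Tr s s' x F → x ∈ gU T L 1 s → F x ∈ gU T L 1 s' →
    ‖v‖ ≤ r0 * scl T s x → ‖fderiv ℝ F x v‖ ≤ r0 * scl T s' (F x) →
    (T.glob L).c s' (E s' (F x, fderiv ℝ F x v)) = (T.glob L).c s (E s (x, v))

/-- **EXP** (helper52) -/
def EXP : Prop :=
  ∃ K r0 R1 l0 : ℝ, 0 < K ∧ 0 < r0 ∧ 0 < R1 ∧ ∀ L, Lg T l0 L → ∃ E, Ex T K r0 R1 L E

/-- **DATA**: the cells of the reference metric and of the sequence -/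
def DATA {ι : Type} (g : T.V → Fam T) (γ : ℝ) (l : Filter ι) (L : ι → T.V → ℝ) (G : ι → Fam T) :
    Prop :=
  ∃ K C T1 : ℝ, 0 < K ∧ 0 < C ∧ ∀ T0, T1 ≤ T0 → ∀ᶠ i in l, ∀ s, ∀ x0 ∈ T.gK (L i) s,
    CellG K (C * Real.exp (-(4 / 5 * γ * T0))) (kap T (γ / 5) (L i) s x0)
      (clM T (gbL T g T0 (L i)) s x0) (clM T (T.nrm (L i) (G i)) s x0)

/-- **GLUE**: sections of a restricted atlas extend -/
def GLUE (X : Type*) : Prop :=
  ∀ (α : Type) [Fintype α] (A : Atl X α) (χ : α → X → ℝ) (K U' : α → Set E4) (k : ℕ)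
    (S : α → Tn 4 k), A.Ok → A.PoU χ K → (res A U').Ok → (∀ a, K a ⊆ U' a) → (∀ a, U' a ⊆ A.U a) →
    (res A U').Sec S → ∃ S' : α → Tn 4 k, A.Sec S' ∧ ∀ a, ∀ x ∈ U' a, S' a x = S a x

/-- **LIE**: the trace of the Lie derivative of the connection, `v = shp g o` -/
def LIE : Prop :=
  ∀ (g : MetricField 4) (U : Set E4) (o : Tn 4 1), IsRiemannianOn g U → SmT o U → ∀ y ∈ U, ∀ j,
    ∑ k, g y j k * ∑ a, ∑ b, (g y)⁻¹ a b *
      (pderiv a (pderiv b fun z => shp g o z k) y +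
        ∑ l, (pderiv l (fun z => christoffel g z k a b) y * shp g o y l +
          christoffel g y k l b * pderiv a (fun z => shp g o z l) y +
          christoffel g y k a l * pderiv b (fun z => shp g o z l) y -
          christoffel g y l a b * pderiv l (fun z => shp g o z k) y)) =
      lapT g o y ![j] + ∑ l, ricci g y j l * shp g o y l

/-- near identity families -/
structure NearId (L : T.V → ℝ) (ε : ℝ) (u : T.S → E4 → E4) : Prop where
  sm : ∀ s, ContDiffOn ℝ ∞ (u s) (gU T L 1 s)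
  maps : ∀ s, ∀ x ∈ gU T L 1 s, u s x ∈ (T.glob L).U s
  jet : ∀ s, ∀ x ∈ gU T L 1 s, ∀ j ≤ 4,
    scl T s x ^ j * ‖iteratedFDeriv ℝ j (fun y => u s y - y) x‖ ≤ ε * scl T s x
  compat : ∀ s s', ∀ x ∈ gU T L 1 s, ∀ x' ∈ gU T L 1 s', (T.glob L).c s x = (T.glob L).c s' x' →
    (T.glob L).c s (u s x) = (T.glob L).c s' (u s' x')
  dec : ∃ R' C : ℝ, ∀ x : E4, R' ≤ ‖x‖ → ∀ j ≤ 4,
    ‖x‖ ^ j * ‖iteratedFDeriv ℝ j (fun y => u (Sum.inr T.root) y - y) x‖ ≤ C / ‖x‖ ^ 2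

/-- **GAUGE** -/
def GAUGE {ι : Type} (g : T.V → Fam T) (γ : ℝ) (l : Filter ι) (L : ι → T.V → ℝ) (G : ι → Fam T) :
    Prop :=
  ∃ C T1 : ℝ, 0 < C ∧ ∀ T0, T1 ≤ T0 → ∀ᶠ i in l, ∃ u : T.S → E4 → E4,
    NearId T (L i) (C * Real.exp (-(4 / 5 * γ * T0))) u ∧ ∀ s, ∀ x ∈ gU T (L i) 1 s,
      gauT (pbG (u s) (gbL T g T0 (L i) s)) (T.nrm (L i) (G i) s) x = 0

end Crest.Agent.N207.Ga

end
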