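import Crest.Agent.N207.Ga.St3
import Crest.Agent.N207.I.NkRot
import Crest.Agent.N207.A.Tg3
import Crest.Agent.N207.Ga.Defs
import Crest.Agent.N207.Ga.St2
import Crest.Agent.NLib.Ell.SchAll
import Crest.Agent.N207.I.Car3
import Crest.Agent.Lib.ODEFlow
import Crest.Agent.N207.Ga.Met2

-- ▼ part N207/Ga/Sec
section

/-!
# Row 207, GAUGE (helper78): the leaf `SEC`
-/

set_option autoImplicit false

open scoped ContDiff Matrix
open Metric Set Filter Topology
open Crest.GeometryTopology.CoordMetric Crest.Agent.R202.Tens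
open Crest.Agent.NLib.Ell Crest.Agent.N207.I Crest.Agent.N207.CB Crest.Agent.N207.N
  Crest.Agent.N207.Lg

noncomputable section

namespace Crest.Agent.N207.Ga

namespace Sc

/-- the transformation law of the vector field of a 1-form -/
theorem shp_tr {g g' : MetricField 4} {o o' : Tn 4 1} {F : E4 → E4} {x : E4}
    (hg : matT g x = pullT F (matT g') x) (ho : o x = pullT F o' x) (hd : (g x).det ≠ 0) :
    fderiv ℝ F x (shp g o x) = shp g' o' (F x) := by
  let J : Matrix (Fin 4) (Fin 4) ℝ :=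
    Matrix.of fun a i => fderiv ℝ F x (EuclideanSpace.single i 1) a
  have h1 : g x = Jᵀ * g' (F x) * J := by
    ext i j
    have := congrFun hg ![i, j]
    rw [← matT_pbG] at this
    refine Eq.trans this ((pbG_apply F g' x i j).trans ?_)
    simp only [Matrix.mul_apply, Matrix.transpose_apply, Finset.sum_mul, J, Matrix.of_apply]
    rw [Finset.sum_comm]
    exact Finset.sum_congr rfl fun _ _ => Finset.sum_congr rfl fun _ _ => by ring
  have h2 : (fun j => o x ![j]) = Jᵀ *ᵥ fun j => o' (F x) ![j] := by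
    funext j
    rw [ho]
    simp only [pullT, evT, Matrix.mulVec, dotProduct, Matrix.transpose_apply, J, Matrix.of_apply]
    rw [← (Equiv.funUnique (Fin 1) (Fin 4)).symm.sum_comp]
    refine Finset.sum_congr rfl fun a _ => ?_
    have : (Equiv.funUnique (Fin 1) (Fin 4)).symm a = ![a] := by
      funext s; fin_cases s; rfl
    simp [this]
  have hJ : IsUnit J.det := by
    rw [h1, Matrix.det_mul, Matrix.det_mul] at hd
    exact (right_ne_zero_of_mul hd).isUnit
  have h3 : J * (g x)⁻¹ * Jᵀ = (g' (F x))⁻¹ := by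
    rw [h1, Matrix.mul_inv_rev, Matrix.mul_inv_rev, ← Matrix.mul_assoc, Matrix.mul_nonsing_inv _ hJ,
      Matrix.one_mul, Matrix.mul_assoc, Matrix.nonsing_inv_mul _ (by rwa [Matrix.det_transpose]),
      Matrix.mul_one]
  ext k
  rw [vec_sum]
  have h4 := congrFun (show J *ᵥ ((g x)⁻¹ *ᵥ fun j => o x ![j]) =
    (g' (F x))⁻¹ *ᵥ fun j => o' (F x) ![j] by
      rw [h2, Matrix.mulVec_mulVec, Matrix.mulVec_mulVec, h3]) k
  exact h4

variable {M : Type*} {T : TD M} {L : T.V → ℝ} {gb G : Fam T} {E : T.S → E4 × E4 → E4}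
  {om : T.S → Tn 4 1} {s : T.S} {x0 : E4}

theorem rad_pos (hx : x0 ∈ T.gK L s) : 0 < rad T s x0 := by
  cases s with
  | inl a => simp [rad]
  | inr w =>
    have := (TD.mem_gK_inr.1 hx).1
    simp only [rad, Sum.elim_inr]; linarith

theorem shp_cell (hx : x0 ∈ T.gK L s) (y : E4) : rad T s x0 • shp (clM T gb s x0) (clX T L om s x0) y =
    shp (rt T L gb s) (om s) (pt T s x0 y) := by
  have h1 := (rad_pos hx).ne'
  have h2 : T.eps L (T.un s) ^ 2 ≠ 0 := (pow_pos (TD.eps_pos L _) 2).ne'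
  ext k
  simp only [PiLp.smul_apply, shp_apply, rt, minv_smul h2, clM, clX, Pi.smul_apply, smul_eq_mul,
    Matrix.smul_apply, Finset.mul_sum]
  exact Finset.sum_congr rfl fun j _ => by field_simp

theorem uu_cell (hx : x0 ∈ T.gK L s) : uu (clM T gb s x0) (clE T E s x0) (clX T L om s x0) =
    fun y => (rad T s x0)⁻¹ • (uG T (rt T L gb) E om s (x0 + rad T s x0 • y) - x0) := by
  funext y
  simp only [uu, dsp, clE, shp_cell hx, uG, pt]
  abel

theorem exists_cell (hL : T.Long L) {x : E4} (hx : x ∈ gU T L 1 s) :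
    ∃ x0 ∈ T.gK L s, ∃ y ∈ B1, x = x0 + rad T s x0 • y ∧ rad T s x0 ≤ scl T s x := by
  obtain ⟨x0, h0, h1⟩ := gU_cell hL one_pos (by norm_num) s hx
  have hr := rad_pos h0
  rw [one_mul, mem_ball, dist_eq_norm] at h1
  refine ⟨x0, h0, (rad T s x0)⁻¹ • (x - x0), ?_, ?_, ?_⟩
  · rw [mem_ball_zero_iff, norm_smul, norm_inv, Real.norm_of_nonneg hr.le,
      inv_mul_lt_iff₀ hr]; linarith
  · rw [smul_inv_smul₀ hr.ne']; abel
  · cases s with
    | inl a => simp only [rad, scl, Sum.elim_inl]; norm_num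
    | inr w =>
      simp only [rad, scl, Sum.elim_inr] at h1 ⊢
      have := norm_sub_norm_le x0 x
      rw [norm_sub_rev] at this
      linarith [norm_nonneg x0]

theorem pt_mem (hx : x0 ∈ T.gK L s) {t : ℝ} (h0 : 0 ≤ t) (ht : t ≤ 8) {y : E4} (hy : ‖y‖ < t) :
    x0 + rad T s x0 • y ∈ gU T L t s := by
  have hr := rad_pos hx
  refine cell_gU h0 s hx ?_ ht
  rw [mem_ball, dist_eq_norm, add_sub_cancel_left, norm_smul, Real.norm_of_nonneg hr.le, mul_comm]
  exact mul_lt_mul_of_pos_right hy hr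

theorem smT_clX (h : T.Ok) (ho : (T.glob L).Sec om) (hx : x0 ∈ T.gK L s) :
    SmT (clX T L om s x0) B1 := fun I =>
  contDiffOn_const.mul ((ho.sm s I).comp (by unfold pt; fun_prop) fun y hy =>
    gU_sub h le_rfl s (pt_mem hx zero_le_one (by norm_num) (mem_ball_zero_iff.1 hy)))

theorem mor {γ K η r0 R0 δ : ℝ} (S : St T γ K η r0 R0 L gb G E) (hs : Sm K r0 δ)
    (ho : (T.glob L).Sec om) (hX : XN T γ L δ om) :
    Atl.Mor (sh T L 1) (T.glob L) id (uG T (rt T L gb) E om) := by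
  have hA := S.ok.glob_ok S.long
  have d1 := fun s x0 (hx : x0 ∈ T.gK L s) => (dsp_one (S.cg s x0 hx) (S.ce s x0 hx) S.K0
    (S.k0 s x0 hx).1 (S.k0 s x0 hx).2 hs (hX s x0 hx) (smT_clX S.ok ho hx)).1
  have nb : ∀ s, ∀ x ∈ gU T L 1 s, ‖shp (rt T L gb s) (om s) x‖ ≤ r0 * scl T s x := by
    intro s x hx
    obtain ⟨x0, h0, y, hy, rfl, h2⟩ := exists_cell S.long hx
    have h3 := (shp_cka (S.cg s x0 h0) (hX s x0 h0) (smT_clX S.ok ho h0) (S.k0 s x0 h0).2).bdd hy
    have h4 := (h3.trans (hs.a S.K0)).trans hs.s2.le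
    have hr := rad_pos h0
    refine (congrArg norm (shp_cell h0 y)).symm.le.trans ?_
    rw [norm_smul, Real.norm_of_nonneg hr.le, mul_comm]
    exact mul_le_mul h4 h2 hr.le ((norm_nonneg _).trans h4)
  refine ⟨fun s x hx => ?_, fun s x hx => ?_, fun s x hx => ?_, fun s s' x hx x' hx' e => ?_⟩
  · obtain ⟨x0, h0, y, hy, rfl, -⟩ := exists_cell S.long hx
    have h1 : uu _ _ _ y ∈ B2 := mem_of_small (d1 s x0 h0) hs.s1 hy
    have h2 := pt_mem h0 (by norm_num) (by norm_num) (mem_ball_zero_iff.1 h1)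
    rw [uu_cell h0, smul_inv_smul₀ (rad_pos h0).ne', add_sub_cancel] at h2
    exact gU_sub' S.ok (by norm_num) s h2
  · obtain ⟨x0, h0, y, hy, rfl, -⟩ := exists_cell S.long hx
    have hr := (rad_pos h0).ne'
    have h1 := (uu_sm (S.cg s x0 h0) (S.ce s x0 h0) S.K0 (S.k0 s x0 h0).2 hs (hX s x0 h0)
      (smT_clX S.ok ho h0)).contDiffAt (isOpen_ball.mem_nhds hy)
    have e : uG T (rt T L gb) E om s = fun z => x0 + rad T s x0 •
        uu (clM T gb s x0) (clE T E s x0) (clX T L om s x0) ((rad T s x0)⁻¹ • (z - x0)) := by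
      funext z
      simp only [uu_cell h0, smul_inv_smul₀ hr, add_sub_cancel]
    rw [e]
    have h2 : ContDiffAt ℝ ∞ (fun z : E4 => (rad T s x0)⁻¹ • (z - x0)) (x0 + rad T s x0 • y) := by
      fun_prop
    have h3 := ContDiffAt.comp _ (by rwa [add_sub_cancel_left, inv_smul_smul₀ hr]) h2
    exact (contDiffAt_const.add (h3.const_smul _)).contDiffWithinAt
  · obtain ⟨x0, h0, y, hy, rfl, -⟩ := exists_cell S.long hx
    have h1 : Function.Injective (fderiv ℝ (uu _ _ _) y) := inj_of_small (d1 s x0 h0) hs.s1 hy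
    rwa [uu_cell h0, fderiv_cell (rad_pos h0).ne'] at h1
  · obtain ⟨F, t, rfl⟩ := hA.loc s s' x (gU_sub S.ok le_rfl s hx) x' (gU_sub S.ok le_rfl s' hx') e
    have h1 := shp_tr (S.mb.compat s s' x F t) (ho.compat s s' x F t)
      ((S.mb.riem s).posDef x t.mem).det_pos.ne'
    have h2 := S.compat s s' x F _ t hx hx' (nb s x hx) (h1 ▸ nb s' _ hx')
    rw [h1] at h2
    exact h2.symm

end Sc

/-- **leaf SEC** -/
theorem sec {M : Type*} (T : TD M) : SEC T := by
  intro γ K η r0 R0 δ L gb G E om S hs ho hX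
  have m := Sc.mor S hs ho hX
  refine ⟨m, ?_⟩
  have hA := S.ok.glob_ok S.long
  obtain ⟨h1, -, h3, h4, -⟩ := sh_ok S.ok S.long one_pos le_rfl
  have hb : (sh T L 1).IsMet fun s => pbG (uG T (rt T L gb) E om s) (rt T L gb s) :=
    m.isMet h1 hA S.mb fun s x _ => by rw [matT_pbG]; rfl
  have hG : (sh T L 1).IsMet G :=
    ⟨fun s => riemOn_mono (S.mG.riem s) (h1.isOpen s) (h4 s), res_compat h4 S.mG.compat⟩
  have hS : (sh T L 1).Sec (opG T (rt T L gb) G E om) :=
    ((Atl.Sec.met hb).divT h1 hG).sub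
      (((Atl.Sec.met hG).conT h1 hG ((Atl.Sec.met hb).cov h1 hG)).smul (1 / 2))
  exact glue _ _ _ _ _ _ _ hA (S.ok.glob_pou S.long) h1 h3 h4 hS

end Crest.Agent.N207.Ga

end
end

-- ▼ part N207/Ga/Lie
section

/-!
# Row 207, GAUGE (helper33): the trace of the Lie derivative of the connection
-/

set_option autoImplicit false

open scoped ContDiff
open Finset Crest.GeometryTopology.CoordMetric

noncomputable section

namespace Crest.Agent.N207.A

variable {n : ℕ} {S : Type*} [CommRing S] [Algebra ℝ S]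

/-- the vector of a 1-form -/
def upv (H : Matrix (Fin n) (Fin n) S) (X : Ten n S 1) (k : Fin n) : S := ∑ j, H k j * X (v1 j)

lemma D_upv {δ : Derivation ℝ S S} {w H : Matrix (Fin n) (Fin n) S} (h : Compat δ w H)
    (X : Ten n S 1) (k : Fin n) :
    δ (upv H X k) = upv H (cd δ w X) k - ∑ m, w m k * upv H X m := by
  have e1 : ∑ j, (∑ m, w m k * H m j) * X (v1 j) = ∑ m, w m k * ∑ j, H m j * X (v1 j) := by
    simp only [sum_mul, mul_sum, mul_assoc]; exact sum_comm
  have e2 : ∑ j, (∑ m, H k m * w m j) * X (v1 j) = ∑ j, H k j * ∑ m, w j m * X (v1 m) := by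
    simp only [sum_mul, mul_sum, mul_assoc]; exact sum_comm
  simp only [upv, map_sum, D_mul, h k, cd_v1, sub_mul, neg_mul, mul_sub, sum_add_distrib,
    sum_sub_distrib, sum_neg_distrib, e1, e2]
  ring

lemma Co.lie0 (C : Co n S) (o : Ten n S 1) (k a b : Fin n) :
    C.d a (C.d b (upv C.gi o k)) + ∑ l, (C.d l (C.Gam k a b) * upv C.gi o l
      + C.Gam k l b * C.d a (upv C.gi o l) + C.Gam k a l * C.d b (upv C.gi o l)
      - C.Gam l a b * C.d l (upv C.gi o k))
    = upv C.gi (sl (sl (C.cov (C.cov o)) a) b) k + ∑ l, C.riem k b l a * upv C.gi o l := by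
  have h1 : ∀ X a k, C.d a (upv C.gi X k) = upv C.gi (cd (C.d a) (C.Gm a) X) k
      - ∑ m, C.Gam k a m * upv C.gi X m := fun X a k => D_upv (C.compat a) X k
  have h2 : ∀ b k, upv C.gi (sl (C.cov o) b) k
      = C.d b (upv C.gi o k) + ∑ m, C.Gam k b m * upv C.gi o m := fun b k => by
    rw [h1, sub_add_cancel]; rfl
  have h3 : upv C.gi (sl (sl (C.cov (C.cov o)) a) b) k = upv C.gi (cd (C.d a) (C.Gm a)
      (sl (C.cov o) b)) k - ∑ m, C.Gam m a b * upv C.gi (sl (C.cov o) m) k := by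
    rw [C.sl_cov (C.cov o), sl_cd]
    simp only [upv, Pi.sub_apply, Finset.sum_apply, Pi.smul_apply, smul_eq_mul, mul_sub,
      sum_sub_distrib, mul_sum]
    rw [sum_comm (f := fun j m => C.gi k j * (C.Gm a b m * sl (C.cov o) m (v1 j)))]
    exact congrArg _ (sum_congr rfl fun _ _ => sum_congr rfl fun _ _ => mul_left_comm ..)
  have h4 := h1 (sl (C.cov o) b) a k
  have e1 : ∑ m, C.Gam k a m * ∑ l, C.Gam m b l * upv C.gi o l
      = ∑ l, (∑ m, C.Gam k a m * C.Gam m l b) * upv C.gi o l := by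
    simp only [sum_mul, mul_sum, mul_assoc, C.Gam_symm _ b]; exact sum_comm
  have e2 : ∑ m, C.Gam m a b * ∑ l, C.Gam k m l * upv C.gi o l
      = ∑ l, (∑ m, C.Gam k l m * C.Gam m a b) * upv C.gi o l := by
    simp only [sum_mul, mul_sum]
    rw [sum_comm]
    exact sum_congr rfl fun l _ => sum_congr rfl fun m _ => by rw [C.Gam_symm k m l]; ring
  simp only [h2, map_add, map_sum, D_mul, mul_add, sum_add_distrib, e1, C.Gam_symm k b] at h4
  simp only [h3, h2, Co.riem, mul_add, add_mul, sub_mul, sum_add_distrib, sum_sub_distrib, e2]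
  linear_combination h4

lemma Co.lie (C : Co n S) (o : Ten n S 1) (j : Fin n) :
    ∑ k, C.g j k * ∑ a, ∑ b, C.gi a b * (C.d a (C.d b (upv C.gi o k))
      + ∑ l, (C.d l (C.Gam k a b) * upv C.gi o l
      + C.Gam k l b * C.d a (upv C.gi o l) + C.Gam k a l * C.d b (upv C.gi o l)
      - C.Gam l a b * C.d l (upv C.gi o k)))
    = C.lapT o (v1 j) + ∑ l, C.ricc j l * upv C.gi o l := by
  have e0 : ∀ X : Fin n → Fin n → Fin n → S, ∑ k, C.g j k * ∑ a, ∑ b, C.gi a b * X k a b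
      = ∑ a, ∑ b, C.gi a b * ∑ k, C.g j k * X k a b := fun X => by
    simp only [mul_sum]
    rw [sum_comm]
    refine sum_congr rfl fun a _ => ?_
    rw [sum_comm]
    exact sum_congr rfl fun _ _ => sum_congr rfl fun _ _ => mul_left_comm ..
  have e1 : ∀ X : Ten n S 1, ∑ k, C.g j k * upv C.gi X k = X (v1 j) := fun X => by
    simp only [upv, mul_sum, ← mul_assoc]
    rw [sum_comm]
    simp only [← sum_mul, C.sum_g_gi, ite_mul, one_mul, zero_mul, sum_ite_eq, mem_univ, if_true]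
  have e2 : ∀ a b, ∑ k, C.g j k * ∑ l, C.riem k b l a * upv C.gi o l
      = ∑ l, C.rl b j a l * upv C.gi o l := fun a b => by
    simp only [mul_sum, ← mul_assoc]
    rw [sum_comm]
    refine sum_congr rfl fun l _ => ?_
    rw [← sum_mul, C.rl_anti12, C.rl_anti34, neg_neg]; rfl
  simp only [C.lie0, e0, mul_add, sum_add_distrib, e1, e2]
  congr 1
  simp only [C.ricc_eq, mul_sum, sum_mul, mul_assoc]
  rw [sum_comm, sum_congr rfl fun a _ => sum_comm, sum_comm]
  exact sum_congr rfl fun _ _ => sum_congr rfl fun _ _ => sum_congr rfl fun _ _ => by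
    rw [C.gi_symm]

end Crest.Agent.N207.A

namespace Crest.Agent.N207.Ga

open Crest.Agent.N207.A

theorem lie : LIE := by
  intro g U o hg ho y hy j
  have c := cfam_const hg Set.univ
  have k := okU hg
  have hv : ∀ a, Rep (upv (co c k).gi (sT ho) a) fun _ z => shp g o z a := fun a =>
    Rep.sum _ fun b => (rep_gi c k a b).mul (rep_sT ho (v1 b))
  have h1 := Rep.sum univ fun a => (rep_g c k j a).mul <| Rep.sum univ fun p => Rep.sum univ fun q =>
    (rep_gi c k p q).mul <| (rep_d c k (rep_d c k (hv a) q) p).add <| Rep.sum univ fun l =>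
      ((((rep_d c k (rep_Gam c k a p q) l).mul (hv l)).add
        ((rep_Gam c k a l q).mul (rep_d c k (hv l) p))).add
        ((rep_Gam c k a p l).mul (rep_d c k (hv l) q))).sub
        ((rep_Gam c k l p q).mul (rep_d c k (hv a) l))
  have h2 := ((rep_sT ho).lapT c k (v1 j)).add
    (Rep.sum univ fun l => (rep_ricc c k j l).mul (hv l))
  rw [(co c k).lie] at h1
  exact h1.unique h2 (Set.mem_univ 0) hy

end Crest.Agent.N207.Ga

end
end

-- ▼ part N207/Ga/Hdec
section

/-!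
# Row 207, GAUGE (helper43): decay of the jets of a decaying harmonic map
-/

set_option autoImplicit false

open scoped ContDiff
open Metric Set Filter Topology
open Crest.GeometryTopology.CoordMetric

noncomputable section

namespace Crest.Agent.N207.Ga

open Crest.Agent.NLib.Ell
open Crest.Agent.R273.SchB_152 (P2)
open Crest.Agent.R238 (Ell)

theorem hd_iter {F : Type} [NormedAddCommGroup F] [NormedSpace ℝ F] (f : E4 → F) {r : ℝ}
    (hr : r ≠ 0) (j : ℕ) (x y : E4) :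
    iteratedFDeriv ℝ j (fun z => f (x + r • z)) y = r ^ j • iteratedFDeriv ℝ j f (x + r • y) := by
  let g : E4 ≃L[ℝ] E4 := ContinuousLinearEquiv.smulLeft (Units.mk0 r hr)
  have h := g.iteratedFDerivWithin_comp_right (fun z => f (x + z)) uniqueDiffOn_univ
    (mem_univ (g y)) j
  rw [preimage_univ, iteratedFDerivWithin_univ, iteratedFDerivWithin_univ,
    iteratedFDeriv_comp_add_left] at h
  refine h.trans ?_
  ext m
  have e2 : (fun i => (g : E4 →L[ℝ] E4) (m i)) = fun i => r • m i := rfl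
  rw [ContinuousMultilinearMap.compContinuousLinearMap_apply, e2,
    ContinuousMultilinearMap.map_smul_univ]
  simp
  rfl

theorem hd_P2 {u : E4 → ℝ} {x : E4} (hu : ContDiffAt ℝ 2 u x) :
    P2 (fun _ => 1) u x = ∑ a, pderiv a (pderiv a u) x := by
  have hd : DifferentiableAt ℝ (fderiv ℝ u) x :=
    (hu.fderiv_right (m := 1) (by norm_num)).differentiableAt (by norm_num)
  refine Finset.sum_congr rfl fun i _ => ?_
  have h := ((ContinuousLinearMap.apply ℝ ℝ (ei i : E4)).hasFDerivAt.comp x hd.hasFDerivAt).fderiv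
  have e : (fun y => fderiv ℝ u y (EuclideanSpace.single i 1)) =
      (ContinuousLinearMap.apply ℝ ℝ (ei i : E4)) ∘ fderiv ℝ u := rfl
  rw [Finset.sum_eq_single i (fun j _ k => by simp [Matrix.one_apply_ne k.symm]) (by simp)]
  dsimp only
  rw [Matrix.one_apply_eq, one_mul]
  unfold pderiv
  rw [e, h]
  rfl

theorem hd_ell : Ell (n := 4) 1 1 1 := by
  refine ⟨fun i j => by simp [Matrix.one_apply, eq_comm], fun z => ?_⟩
  have : ∑ i, ∑ j, (1 : Matrix (Fin 4) (Fin 4) ℝ) i j * z i * z j = 1 * ∑ i, z i ^ 2 := by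
    simp [Matrix.one_apply, sq]
  exact ⟨this.ge, this.le⟩

theorem hdec : HDEC := by
  intro w R m hR hw hl hm
  obtain ⟨C, hC, H⟩ := schAll 4 2 (1 / 2) 1 1 1 1 (by norm_num) (by norm_num) one_pos le_rfl one_pos
    le_rfl
  have oU : IsOpen {x : E4 | R < ‖x‖} := isOpen_lt continuous_const continuous_norm
  refine ⟨16 ^ 4 * (4 * (C * (2 * |m|))), fun x hx j hj => ?_⟩
  have x0 : 0 < ‖x‖ := by linarith
  set r := ‖x‖ / 4 with er
  have r0 : 0 < r := by positivity
  have nn : ∀ y ∈ closedBall (0 : E4) 1, 3 / 4 * ‖x‖ ≤ ‖x + r • y‖ := fun y k => by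
    have a := norm_sub_le (x + r • y) (r • y)
    have := mem_closedBall_zero_iff.1 k
    rw [add_sub_cancel_right, norm_smul, Real.norm_of_nonneg r0.le] at a
    nlinarith
  have nR : ∀ y ∈ closedBall (0 : E4) 1, R < ‖x + r • y‖ := fun y k => by linarith [nn y k]
  have sm : ∀ n, ContDiffOn ℝ ∞ (fun y => w y n) {x : E4 | R < ‖x‖} := fun n =>
    (EuclideanSpace.proj (𝕜 := ℝ) n : E4 →L[ℝ] ℝ).contDiff.comp_contDiffOn hw
  have af : ContDiff ℝ ∞ fun y : E4 => x + r • y := contDiff_const.add (contDiff_id.const_smul _)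
  have k : ∀ n, CKA (1 / 2) (ball (0 : E4) (1 / 2)) 4 (C * (0 + 2 * |m| / ‖x‖ ^ 2))
      fun y => w (x + r • y) n := fun n => by
    refine H 0 (fun _ => 1) (fun _ _ => 0) (fun _ => 0) _ (fun _ => 0) 0 _ (fun _ _ => hd_ell)
      (fun i j => (CKA.const _).mono ?_) (fun _ => CKA.zero.mono zero_le_one)
      (CKA.zero.mono zero_le_one) CKA.zero
      (K.exists_cka (oU.preimage af.continuous) ((sm n).comp af.contDiffOn fun _ k => k) nR
        (by norm_num) (by norm_num) 2) (fun y k => ?_) fun y k => ?_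
    · rw [Matrix.one_apply]; split_ifs <;> simp
    · have a := nn y (ball_subset_closedBall k)
      have b := nR y (ball_subset_closedBall k)
      refine (hm _ b n).trans ((div_le_div_of_nonneg_right (le_abs_self m) (by positivity)).trans ?_)
      rw [div_le_div_iff₀ (pow_pos (hR.trans b) 2) (by positivity)]
      have : ‖x‖ ^ 2 ≤ 2 * ‖x + r • y‖ ^ 2 := by nlinarith
      nlinarith [abs_nonneg m]
    · have b := nR y (ball_subset_closedBall k)
      have := K.P2_aff (τ := fun _ => 1) (fun y => w y n) x r y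
      rw [hd_P2 (((sm n).contDiffAt (oU.mem_nhds b)).of_le (WithTop.coe_le_coe.2 le_top)), hl _ b n]
        at this
      simpa using this
  have k' := (CKA.sum_le isOpen_ball fun n => (k n).clm1 isOpen_ball
    (ContinuousLinearMap.toSpanSingleton ℝ (ei n : E4)) (by simp [ei])).congr isOpen_ball
    (g := fun y => w (x + r • y)) fun y _ => by
      ext i; simp [ei, Finset.sum_apply, Pi.single_apply]
  have b := ((k'.of_le hj).ho_iter isOpen_ball).bdd 0 (mem_ball_self (by norm_num))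
  rw [hd_iter w r0.ne', smul_zero, add_zero, norm_smul, Real.norm_of_nonneg (by positivity)] at b
  have e : ‖x‖ ^ j = 4 ^ j * r ^ j := by rw [← mul_pow, er]; congr 1; ring
  have p : (16 : ℝ) ^ j ≤ 16 ^ 4 := pow_le_pow_right₀ (by norm_num) hj
  have e2 : (16 : ℝ) ^ j = 4 ^ j * 4 ^ j := by rw [← mul_pow]; norm_num
  rw [e, mul_assoc]
  refine (mul_le_mul_of_nonneg_left b (by positivity)).trans ?_
  simp only [Fintype.card_fin, Nat.cast_ofNat, zero_add]
  rw [← mul_assoc, ← e2, mul_div_assoc (16 ^ 4 : ℝ)]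
  refine mul_le_mul p (le_of_eq (by ring)) (by positivity) (by positivity)

end Crest.Agent.N207.Ga

end
end

-- ▼ part N207/Ga/Boot
section

/-!
# Row 207, GAUGE (helper56): `C³` harmonic maps are smooth (Schauder bootstrap)
-/

set_option autoImplicit false

open scoped ContDiff
open Metric Set Filter Topology
open Crest.GeometryTopology.CoordMetric Crest.Agent.R202.Tens
open Crest.Agent.NLib.Ell Crest.Agent.N207.K
open Crest.Agent.R238 (Ell)

noncomputable section

namespace Crest.Agent.N207.Ga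

/-- uniform ellipticity on a compact set -/
theorem bt_ell {K : Set E4} (hK : IsCompact K) {A : E4 → Matrix (Fin 4) (Fin 4) ℝ}
    (hA : ∀ i j, ContinuousOn (fun y => A y i j) K) (hp : ∀ y ∈ K, (A y).PosDef) :
    ∃ lo hi : ℝ, 0 < lo ∧ lo ≤ hi ∧ ∀ y ∈ K, Ell lo hi (A y) := by
  have hS : IsCompact (K ×ˢ sphere (0 : E4) 1) := hK.prod (isCompact_sphere _ _)
  have hc : ContinuousOn (fun z : E4 × E4 => ∑ i, ∑ j, A z.1 i j * z.2 i * z.2 j)
      (K ×ˢ sphere (0 : E4) 1) :=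
    continuousOn_finsetSum _ fun i _ => continuousOn_finsetSum _ fun j _ =>
      (((hA i j).comp continuousOn_fst fun _ h => h.1).mul (by fun_prop)).mul (by fun_prop)
  obtain ⟨lo, hlo, H1⟩ := hS.exists_forall_le' hc (a := 0) fun z hz => by
    have h0 : (z.2.ofLp : Fin 4 → ℝ) ≠ 0 := fun h => by
      have h1 : z.2 = 0 := by ext i; exact congrFun h i
      have h2 := hz.2
      rw [h1] at h2; simp at h2
    have := (hp z.1 hz.1).dotProduct_mulVec_pos h0
    simp only [dotProduct, Matrix.mulVec, star_trivial, Finset.mul_sum] at this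
    refine this.trans_eq (Finset.sum_congr rfl fun i _ => Finset.sum_congr rfl fun j _ => by ring)
  obtain ⟨hi, H2⟩ := hS.exists_bound_of_continuousOn hc
  refine ⟨lo, max lo hi, hlo, le_max_left _ _, fun y hy => ⟨fun i j => ?_, fun z => ?_⟩⟩
  · simpa using ((hp y hy).isHermitian.apply j i)
  · by_cases hz : z = 0
    · simp [hz]
    have hN : 0 < ‖(WithLp.toLp 2 z : E4)‖ := norm_pos_iff.2 fun h => hz (by simpa using h)
    have hm : (y, ‖(WithLp.toLp 2 z : E4)‖⁻¹ • (WithLp.toLp 2 z : E4)) ∈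
        K ×ˢ sphere (0 : E4) 1 := ⟨hy, by simp [norm_smul, hN.ne']⟩
    have hsq : ‖(WithLp.toLp 2 z : E4)‖ ^ 2 = ∑ i, z i ^ 2 := by
      simp [EuclideanSpace.real_norm_sq_eq]
    have e : ∑ i, ∑ j, A y i j * z i * z j = (∑ i, ∑ j, A y i j
        * (‖(WithLp.toLp 2 z : E4)‖⁻¹ • (WithLp.toLp 2 z : E4)) i
        * (‖(WithLp.toLp 2 z : E4)‖⁻¹ • (WithLp.toLp 2 z : E4)) j) * ∑ i, z i ^ 2 := by
      rw [← hsq]
      simp only [Finset.sum_mul, PiLp.smul_apply, smul_eq_mul]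
      refine Finset.sum_congr rfl fun i _ => Finset.sum_congr rfl fun j _ => ?_
      field_simp
    have hpos : 0 ≤ ∑ i, z i ^ 2 := by positivity
    rw [e]
    exact ⟨mul_le_mul_of_nonneg_right (H1 _ hm) hpos,
      mul_le_mul_of_nonneg_right (((le_abs_self _).trans (H2 _ hm)).trans (le_max_right _ _)) hpos⟩

/-- of class `C^{k,1/2}` on `S` -/
def EC {F : Type} [NormedAddCommGroup F] [NormedSpace ℝ F] (S : Set E4) (k : ℕ) (f : E4 → F) :
    Prop := ∃ V, CKA (1 / 2) S k V f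

variable {S : Set E4} {k : ℕ}

theorem EC.mul {f g : E4 → ℝ} (hS : IsOpen S) (hf : EC S k f) (hg : EC S k g) :
    EC S k fun x => f x * g x := ⟨_, hf.choose_spec.mul hS hg.choose_spec⟩

theorem EC.sub {f g : E4 → ℝ} (hS : IsOpen S) (hf : EC S k f) (hg : EC S k g) :
    EC S k fun x => f x - g x := ⟨_, hf.choose_spec.sub hS hg.choose_spec⟩

theorem EC.sum {F : Type} [NormedAddCommGroup F] [NormedSpace ℝ F] {f : Fin 4 → E4 → F}
    (hS : IsOpen S) (h : ∀ i, EC S k (f i)) : EC S k fun x => ∑ i, f i x := by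
  simp only [Fin.sum_univ_four]
  exact ⟨_, (((h 0).choose_spec.add hS (h 1).choose_spec).add hS (h 2).choose_spec).add hS
    (h 3).choose_spec⟩

theorem EC.cmp {u : E4 → E4} (hS : IsOpen S) (h : EC S k u) (n : Fin 4) :
    EC S k fun x => u x n :=
  ⟨_, h.choose_spec.clm hS (EuclideanSpace.proj n : E4 →L[ℝ] ℝ) le_rfl⟩

theorem EC.of_cmp {u : E4 → E4} (hS : IsOpen S) (h : ∀ n, EC S k fun x => u x n) : EC S k u := by
  obtain ⟨V, hV⟩ := EC.sum (f := fun n x => u x n • (EuclideanSpace.single n 1 : E4)) hS fun n =>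
    ⟨_, (h n).choose_spec.smulF hS (CKA.const _)⟩
  exact ⟨V, hV.congr hS fun x _ => eq_sum_single (u x)⟩

theorem EC.pd {w : E4 → ℝ} (h : EC S (k + 1) w) (i : Fin 4) : EC S k (pderiv i w) :=
  ⟨_, h.choose_spec.pd i⟩

theorem D2_pd {w : E4 → ℝ} {x : E4} (hu : ContDiffAt ℝ 2 w x) (i j : Fin 4) :
    fderiv ℝ (fderiv ℝ w) x (ei i) (ei j) = pderiv i (pderiv j w) x := by
  have hd : DifferentiableAt ℝ (fderiv ℝ w) x :=
    (hu.fderiv_right (m := 1) (by norm_num)).differentiableAt (by norm_num)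
  exact (congrArg (fun L : E4 →L[ℝ] ℝ => L (ei i))
    ((ContinuousLinearMap.apply ℝ ℝ (ei j : E4)).hasFDerivAt.comp x hd.hasFDerivAt).fderiv).symm

theorem boot : BOOT := by
  intro G g U W u hG hg hu hm ht
  have hU := hG.isOpen
  refine contDiffOn_infty.2 fun m y hy => ContDiffAt.contDiffWithinAt ?_
  obtain ⟨ρ, hρ, hρW⟩ := Metric.nhds_basis_closedBall.mem_iff.1 (hg.isOpen.mem_nhds (hm y hy))
  obtain ⟨r0, hr0, h0⟩ := Metric.nhds_basis_closedBall.mem_iff.1 (inter_mem (hU.mem_nhds hy)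
    ((hu.continuousOn.continuousAt (hU.mem_nhds hy)).preimage_mem_nhds (ball_mem_nhds _ hρ)))
  obtain ⟨r, hr, hr1, hrr⟩ : ∃ r : ℝ, 0 < r ∧ r ≤ 1 ∧ r ≤ r0 :=
    ⟨min 1 r0, lt_min one_pos hr0, min_le_left _ _, min_le_right _ _⟩
  have hB : ∀ {s : ℝ}, s ≤ r → closedBall y s ⊆ U := fun hs x hx =>
    (h0 (closedBall_subset_closedBall (hs.trans hrr) hx)).1
  have hi : ∀ i j, ContDiffOn ℝ ∞ (fun x => (G x)⁻¹ i j) U := contDiffOn_inv_entry hG
  obtain ⟨lo, hi', hlo, hlh, hE⟩ := bt_ell (isCompact_closedBall y r) (A := fun x => (G x)⁻¹)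
    (fun i j => (hi i j).continuousOn.mono (hB le_rfl)) fun x hx => (hG.posDef x (hB le_rfl hx)).inv
  have step : ∀ (k : ℕ) (s : ℝ), 0 < s → s ≤ r → EC (ball y s) (k + 2) u →
      EC (ball y (s / 2)) (k + 3) u := fun k s hs hsr h => by
    have o : IsOpen (ball y s) := isOpen_ball
    have sm : ∀ {F : Type} [NormedAddCommGroup F] [NormedSpace ℝ F] {f : E4 → F},
        ContDiffOn ℝ ∞ f U → EC (ball y s) (k + 1) f := fun hf =>
      exists_cka hU hf (hB hsr) (by norm_num) (by norm_num) _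
    obtain ⟨M, hM⟩ := sm (f := fun x i j => (G x)⁻¹ i j)
      (contDiffOn_pi.2 fun i => contDiffOn_pi.2 fun j => hi i j)
    have hM0 : 0 ≤ M := hM.nonneg (mem_ball_self hs)
    obtain ⟨C, -, hC⟩ := schAll 4 (k + 1) (1 / 2) lo hi' M s (by norm_num) (by norm_num) hlo hlh hs
      (hsr.trans hr1)
    have hΓ : ∀ n p q, EC (ball y s) (k + 1) fun x => christoffel g (u x) n p q := fun n p q => by
      obtain ⟨K, -, hK⟩ := exists_db hg.isOpen (contDiffOn_christoffel hg n p q)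
        (isCompact_closedBall _ ρ) hρW ball_subset_closedBall (k + 1 + 1)
      exact ⟨_, hK.comp o isOpen_ball (convex_ball _ _) (fun x hx =>
        (h0 (closedBall_subset_closedBall (hsr.trans hrr) (ball_subset_closedBall hx))).2)
        h.choose_spec.pred⟩
    refine EC.of_cmp isOpen_ball fun n => ?_
    obtain ⟨N, hN⟩ : EC (ball y s) (k + 1) fun x => ∑ a, ∑ d, (G x)⁻¹ a d *
        (∑ l, pderiv l (fun z => u z n) x * christoffel G x l a d - ∑ p, ∑ q,
          christoffel g (u x) n p q * (pderiv a (fun z => u z p) x * pderiv d (fun z => u z q) x)) :=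
      EC.sum o fun a => EC.sum o fun d => (sm (hi a d)).mul o
        ((EC.sum o fun l => ((h.cmp o n).pd l).mul o (sm (contDiffOn_christoffel hG l a d))).sub o
          (EC.sum o fun p => EC.sum o fun q =>
            (hΓ n p q).mul o (((h.cmp o p).pd a).mul o ((h.cmp o q).pd d))))
    obtain ⟨V, hV⟩ := h.cmp o n
    refine ⟨_, hC y (fun x => (G x)⁻¹) (fun _ _ => 0) (fun _ => 0) _ _ N V
      (fun x hx => hE x (closedBall_subset_closedBall hsr (ball_subset_closedBall hx)))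
      (fun i j => (hM.apply o i).apply o j) (fun _ => CKA.zero.mono hM0) (CKA.zero.mono hM0) hN
      ⟨V, hV.of_le (by omega)⟩ (fun x hx => hV.bdd hx) fun x hx => ?_⟩
    have h2 : ContDiffAt ℝ 2 (fun z => u z n) x :=
      ((hV.of_le (j := 2) (by omega)).contDiffOn o (by norm_num)).contDiffAt (o.mem_nhds hx)
    have e := ht x (hB hsr (ball_subset_closedBall hx)) n
    simp only [tau, add_sub_assoc, mul_add, mul_sub, Finset.sum_add_distrib,
      Finset.sum_sub_distrib, ← D2_pd h2] at e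
    simp only [zero_mul, Finset.sum_const_zero, add_zero, R273.SchB_152.P2, R238.Sch.D2, mul_sub,
      Finset.sum_sub_distrib]
    exact eq_sub_of_add_eq (by rw [← sub_eq_zero, ← e]; exact (add_sub_assoc _ _ _))
  have H : ∀ k : ℕ, EC (ball y (r / 2 ^ k)) (k + 2) u := fun k => by
    induction k with
    | zero =>
      have hb : ∀ j : Fin 4, ∃ B, ∀ x ∈ closedBall y r, ‖iteratedFDeriv ℝ j u x‖ ≤ B := fun j =>
        (isCompact_closedBall y r).exists_bound_of_continuousOn fun x hx =>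
          ((hu.contDiffAt (hU.mem_nhds (hB le_rfl hx))).continuousAt_iteratedFDeriv
            (by exact_mod_cast Nat.lt_succ_iff.1 j.2)).continuousWithinAt
      choose B hB' using hb
      rw [pow_zero, div_one]
      refine ⟨_, CKA.of_bounds (M := ∑ j, |B j|) isOpen_ball (convex_ball _ _) (by norm_num)
        (by norm_num) (hu.mono (ball_subset_closedBall.trans (hB le_rfl))) fun j hj x hx => ?_⟩
      exact ((hB' ⟨j, by omega⟩ x (ball_subset_closedBall hx)).trans (le_abs_self _)).trans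
        (Finset.single_le_sum (f := fun j => |B j|) (fun _ _ => abs_nonneg _) (Finset.mem_univ _))
    | succ k ih =>
      have := step k _ (by positivity) (div_le_self hr.le (one_le_pow₀ one_le_two)) ih
      rwa [div_div, ← pow_succ] at this
  obtain ⟨V, hV⟩ := H m
  exact ((hV.of_le (j := m) (by omega)).contDiffOn isOpen_ball (by norm_num)).contDiffAt
    (ball_mem_nhds y (by positivity))

end Crest.Agent.N207.Ga

end
end

-- ▼ part N207/M/Ex1
section

/-!
# Row 207, block M (helper52): transitions of an atlas and the averaged flat connection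

* `tr_uniq`, `tr_inv`: transitions are unique up to the deck group and have invertible derivative;
* `acc A χ s y v`: the acceleration of the connection `∑ χ a • (flat connection of the chart a)`;
* `acc_sm`, `acc_nat`: smoothness and naturality.
-/

set_option autoImplicit false

open scoped ContDiff Topology
open Set Filter Metric

noncomputable section

namespace Crest.Agent.N207.M

open Crest.Agent.N207.I

variable {X : Type*} {α : Type} {A : Atl X α}

/-- two nearby points of a chart with the same image are equal -/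
theorem near_eq (h : A.Ok) {a : α} {x : E4} (hx : x ∈ A.U a) :
    ∀ᶠ p : E4 × E4 in 𝓝 (x, x), A.c a p.1 = A.c a p.2 → p.1 = p.2 := by
  have := h.fin a
  have h1 : ∀ γ : A.Γ a, ∀ᶠ p : E4 × E4 in 𝓝 (x, x), γ.1 p.1 = p.2 → p.1 = p.2 := by
    intro γ
    by_cases e : γ.1 x = x
    · have : γ.1 = 1 := h.free a γ.1 γ.2 x hx e
      exact Eventually.of_forall fun p hp => by rw [this] at hp; exact hp
    · have hc : Continuous fun p : E4 × E4 => γ.1 p.1 - p.2 :=
        (γ.1.continuous.comp continuous_fst).sub continuous_snd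
      have : ∀ᶠ p : E4 × E4 in 𝓝 (x, x), γ.1 p.1 - p.2 ≠ 0 :=
        hc.continuousAt.eventually_ne (sub_ne_zero.2 e)
      filter_upwards [this] with p hp e'
      exact absurd (sub_eq_zero.2 e') hp
  have h2 : ∀ᶠ p : E4 × E4 in 𝓝 (x, x), p.1 ∈ A.U a ∧ p.2 ∈ A.U a :=
    (continuous_fst.continuousAt.eventually ((h.isOpen a).mem_nhds hx)).and
      (continuous_snd.continuousAt.eventually ((h.isOpen a).mem_nhds hx))
  filter_upwards [eventually_all.2 h1, h2] with p hp hU e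
  obtain ⟨γ, hγ, e'⟩ := (h.fib a _ hU.1 _ hU.2).1 e
  exact hp ⟨γ, hγ⟩ e'

/-- two continuous lifts which agree at a point agree near it -/
theorem lift_eq (h : A.Ok) {Y : Type*} {l : Filter Y} {a : α} {x : E4} (hx : x ∈ A.U a)
    {p q : Y → E4} (hp : Tendsto p l (𝓝 x)) (hq : Tendsto q l (𝓝 x)) :
    ∀ᶠ y in l, A.c a (p y) = A.c a (q y) → p y = q y :=
  (hp.prodMk_nhds hq).eventually (near_eq h hx)

theorem tr_cont {a b : α} {x : E4} {F : E4 → E4} (t : A.Tr a b x F) : ContinuousAt F x :=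
  t.sm.self_of_nhds.continuousAt

theorem tr_ev (h : A.Ok) {a b : α} {x : E4} {F : E4 → E4} (t : A.Tr a b x F) :
    ∀ᶠ z in 𝓝 x, A.Tr a b z F := by
  filter_upwards [(h.isOpen a).mem_nhds t.mem, (tr_cont t).eventually ((h.isOpen b).mem_nhds t.mem'),
    t.sm.eventually_nhds, t.eq.eventually_nhds] with z h1 h2 h3 h4
  exact ⟨h1, h2, h3, h4⟩

theorem tr_id {a : α} {x : E4} (hx : x ∈ A.U a) : A.Tr a a x id :=
  ⟨hx, hx, Eventually.of_forall fun _ => contDiffAt_id, Eventually.of_forall fun _ => rfl⟩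

theorem tr_comp {a b c : α} {x : E4} {F G : E4 → E4} (t : A.Tr a b x F) (t' : A.Tr b c (F x) G) :
    A.Tr a c x (G ∘ F) := by
  refine ⟨t.mem, t'.mem', ?_, ?_⟩
  · filter_upwards [t.sm, (tr_cont t).eventually t'.sm] with z h1 h2
    exact h2.comp z h1
  · filter_upwards [t.eq, (tr_cont t).eventually t'.eq] with z h1 h2
    exact h2.trans h1

/-- transitions with the same value have the same germ -/
theorem tr_eq (h : A.Ok) {a b : α} {x : E4} {F G : E4 → E4} (t : A.Tr a b x F) (t' : A.Tr a b x G)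
    (e : F x = G x) : F =ᶠ[𝓝 x] G := by
  filter_upwards [lift_eq h t.mem' (tr_cont t) (e ▸ tr_cont t' : Tendsto G (𝓝 x) (𝓝 (F x))),
    t.eq, t'.eq] with z h1 h2 h3
  exact h1 (h2.trans h3.symm)

theorem tr_uniq (h : A.Ok) {a b : α} {x : E4} {F G : E4 → E4} (t : A.Tr a b x F)
    (t' : A.Tr a b x G) : ∃ γ ∈ A.Γ b, G =ᶠ[𝓝 x] γ ∘ F := by
  obtain ⟨γ, hγ, e⟩ := (h.fib b _ t.mem' _ t'.mem').1
    (t.eq.self_of_nhds.trans t'.eq.self_of_nhds.symm)
  exact ⟨γ, hγ, tr_eq h t' (tr_comp t (h.tr_iso hγ t.mem')) e.symm⟩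

theorem tr_symm (h : A.Ok) {a b : α} {x : E4} {F : E4 → E4} (t : A.Tr a b x F) :
    ∃ G, A.Tr b a (F x) G ∧ G (F x) = x ∧ (G ∘ F) =ᶠ[𝓝 x] id ∧ (F ∘ G) =ᶠ[𝓝 (F x)] id := by
  obtain ⟨G, t', e⟩ := h.loc b a _ t.mem' _ t.mem t.eq.self_of_nhds
  refine ⟨G, t', e, tr_eq h (tr_comp t t') (tr_id t.mem) e,
    tr_eq h (tr_comp t' (e.symm ▸ t)) (tr_id t.mem') ?_⟩
  simp [e]

theorem tr_diff {a b : α} {x : E4} {F : E4 → E4} (t : A.Tr a b x F) : DifferentiableAt ℝ F x :=
  t.sm.self_of_nhds.differentiableAt (by simp)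

theorem tr_inv (h : A.Ok) {a b : α} {x : E4} {F : E4 → E4} (t : A.Tr a b x F) :
    (fderiv ℝ F x).IsInvertible := by
  obtain ⟨G, t', e, h1, h2⟩ := tr_symm h t
  have e1 : (fderiv ℝ G (F x)).comp (fderiv ℝ F x) = ContinuousLinearMap.id ℝ E4 := by
    rw [← fderiv_comp x (tr_diff t') (tr_diff t), h1.fderiv_eq, fderiv_id]
  have e2 : (fderiv ℝ F x).comp (fderiv ℝ G (F x)) = ContinuousLinearMap.id ℝ E4 := by
    have := fderiv_comp (F x) (e.symm ▸ tr_diff t : DifferentiableAt ℝ F (G (F x))) (tr_diff t')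
    rw [e] at this
    rw [← this, h2.fderiv_eq, fderiv_id]
  exact ContinuousLinearMap.IsInvertible.of_inverse e2 e1

/-- second derivative in the direction `v` -/
def d2 (F : E4 → E4) (y v : E4) : E4 := fderiv ℝ (fderiv ℝ F) y v v

/-- the Christoffel term of the pull-back of the flat connection -/
def cnF (F : E4 → E4) (y v : E4) : E4 := (fderiv ℝ F y).inverse (d2 F y v)

theorem d2_congr {F G : E4 → E4} {y : E4} (e : F =ᶠ[𝓝 y] G) (v : E4) : d2 F y v = d2 G y v := by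
  unfold d2
  rw [e.fderiv.fderiv_eq]

theorem cnF_congr {F G : E4 → E4} {y : E4} (e : F =ᶠ[𝓝 y] G) (v : E4) :
    cnF F y v = cnF G y v := by
  unfold cnF
  rw [d2_congr e, e.fderiv_eq]

theorem d2_comp {F G : E4 → E4} {y : E4} (hF : ContDiffAt ℝ ∞ F y) (hG : ContDiffAt ℝ ∞ G (F y))
    (v : E4) : d2 (G ∘ F) y v = d2 G (F y) (fderiv ℝ F y v) + fderiv ℝ G (F y) (d2 F y v) := by
  have hF2 : ContDiffAt ℝ 2 F y := hF.of_le (by norm_cast)
  have hG2 : ContDiffAt ℝ 2 G (F y) := hG.of_le (by norm_cast)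
  have dF : DifferentiableAt ℝ F y := hF2.differentiableAt (by norm_num)
  have dF' : DifferentiableAt ℝ (fderiv ℝ F) y :=
    (hF2.fderiv_right (m := 1) (by norm_num)).differentiableAt (by norm_num)
  have dG' : DifferentiableAt ℝ (fderiv ℝ G) (F y) :=
    (hG2.fderiv_right (m := 1) (by norm_num)).differentiableAt (by norm_num)
  have e : fderiv ℝ (G ∘ F) =ᶠ[𝓝 y] fun z => (fderiv ℝ G (F z)).comp (fderiv ℝ F z) := by
    filter_upwards [hF2.eventually (by simp),
      hF2.continuousAt.eventually (hG2.eventually (by simp))] with z h1 h2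
    exact fderiv_comp z (h2.differentiableAt (by norm_num)) (h1.differentiableAt (by norm_num))
  unfold d2
  have e2 := ((dG'.hasFDerivAt.comp y dF.hasFDerivAt).clm_comp dF'.hasFDerivAt).fderiv
  simp only [Function.comp_apply] at e2
  rw [e.fderiv_eq, e2]
  simp [add_comm]

theorem d2_clm (L : E4 →L[ℝ] E4) (y v : E4) : d2 L y v = 0 := by
  have : fderiv ℝ L = fun _ => L := funext fun _ => L.fderiv
  simp [d2, this]

theorem cnF_nat {F G : E4 → E4} {y : E4} (hF : ContDiffAt ℝ ∞ F y) (hG : ContDiffAt ℝ ∞ G (F y))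
    (iF : (fderiv ℝ F y).IsInvertible) (iG : (fderiv ℝ G (F y)).IsInvertible) (v : E4) :
    fderiv ℝ F y (cnF (G ∘ F) y v) = cnF G (F y) (fderiv ℝ F y v) + d2 F y v := by
  have e := fderiv_comp y (hG.differentiableAt (by simp)) (hF.differentiableAt (by simp))
  apply iG.injective
  have i2 : (fderiv ℝ (G ∘ F) y).IsInvertible := e ▸ iG.comp iF
  have e1 : fderiv ℝ (G ∘ F) y (cnF (G ∘ F) y v) = d2 (G ∘ F) y v := by
    unfold cnF
    exact i2.self_apply_inverse _
  rw [d2_comp hF hG, e] at e1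
  rw [map_add]
  unfold cnF at *
  rw [iG.self_apply_inverse]
  simpa [e] using e1

theorem cnF_tr (h : A.Ok) {a b : α} {x : E4} {F G : E4 → E4} (t : A.Tr a b x F)
    (t' : A.Tr a b x G) (v : E4) : cnF G x v = cnF F x v := by
  obtain ⟨γ, hγ, e⟩ := tr_uniq h t t'
  have t2 := h.tr_iso hγ t.mem'
  rw [cnF_congr e]
  apply (tr_inv h t).injective
  rw [cnF_nat t.sm.self_of_nhds t2.sm.self_of_nhds (tr_inv h t) (tr_inv h t2)]
  have : cnF γ (F x) (fderiv ℝ F x v) = 0 := by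
    have := d2_clm (γ.toContinuousLinearEquiv : E4 →L[ℝ] E4) (F x) (fderiv ℝ F x v)
    unfold cnF
    rw [show d2 γ (F x) (fderiv ℝ F x v) = 0 from this, map_zero]
  rw [this, zero_add]
  unfold cnF
  exact ((tr_inv h t).self_apply_inverse _).symm

theorem cnF_sm {F : E4 → E4} {y : E4} (hF : ContDiffAt ℝ ∞ F y)
    (iF : (fderiv ℝ F y).IsInvertible) (v : E4) :
    ContDiffAt ℝ ∞ (fun p : E4 × E4 => cnF F p.1 p.2) (y, v) := by
  have h1 : ContDiffAt ℝ ∞ (fderiv ℝ F) y := hF.fderiv_right (by simp)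
  have h2 : ContDiffAt ℝ ∞ (fderiv ℝ (fderiv ℝ F)) y := h1.fderiv_right (by simp)
  have h3 : ContDiffAt ℝ ∞ (fun z => (fderiv ℝ F z).inverse) y :=
    (iF.contDiffAt_map_inverse (n := ∞)).comp y h1
  exact (h3.comp (y, v) contDiffAt_fst).clm_apply
    (((h2.comp (y, v) contDiffAt_fst).clm_apply contDiffAt_snd).clm_apply contDiffAt_snd)

theorem cnF_smul (F : E4 → E4) (y v : E4) (t : ℝ) : cnF F y (t • v) = t ^ 2 • cnF F y v := by
  simp [cnF, d2, smul_smul, sq]

open Classical in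
/-- the Christoffel term of the flat connection of the chart `a`, read in the chart `s` -/
def cn (A : Atl X α) (s a : α) (y v : E4) : E4 :=
  if h : ∃ F, A.Tr s a y F then cnF h.choose y v else 0

theorem cn_eq (h : A.Ok) {s a : α} {y : E4} {F : E4 → E4} (t : A.Tr s a y F) (v : E4) :
    cn A s a y v = cnF F y v := by
  have h1 : ∃ F, A.Tr s a y F := ⟨F, t⟩
  rw [cn, dif_pos h1, cnF_tr h t h1.choose_spec]

theorem cn_smul (s a : α) (y v : E4) (t : ℝ) : cn A s a y (t • v) = t ^ 2 • cn A s a y v := by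
  unfold cn
  split_ifs
  · exact cnF_smul _ _ _ _
  · simp

variable [Fintype α] {χ : α → X → ℝ} {K : α → Set E4}

/-- the acceleration of the geodesics -/
def acc (A : Atl X α) (χ : α → X → ℝ) (s : α) (y v : E4) : E4 :=
  -∑ a, χ a (A.c s y) • cn A s a y v

theorem acc_smul (s : α) (y v : E4) (t : ℝ) : acc A χ s y (t • v) = t ^ 2 • acc A χ s y v := by
  simp only [acc, cn_smul, smul_neg, Finset.smul_sum, smul_comm (t ^ 2)]


theorem acc_sm (h : A.Ok) (hp : A.PoU χ K) {s : α} {y : E4} (hy : y ∈ A.U s) (v : E4) :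
    ContDiffAt ℝ ∞ (fun p : E4 × E4 => acc A χ s p.1 p.2) (y, v) := by
  refine ContDiffAt.neg (ContDiffAt.sum fun a _ => ?_)
  by_cases e : A.c s y ∈ A.c a '' K a
  · obtain ⟨x, hx, e⟩ := e
    obtain ⟨F, t, -⟩ := h.loc s a y hy x (hp.sub a hx) e.symm
    refine ContDiffAt.smul ((((hp.sm a) s).contDiffAt ((h.isOpen s).mem_nhds hy)).comp (y, v)
      contDiffAt_fst) ((cnF_sm t.sm.self_of_nhds (tr_inv h t) v).congr_of_eventuallyEq ?_)
    filter_upwards [(continuous_fst.continuousAt (x := (y, v))).eventually (tr_ev h t)] with p hp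
    exact cn_eq h hp _
  · refine (contDiffAt_const (c := 0)).congr_of_eventuallyEq ?_
    filter_upwards [(continuous_fst.continuousAt (x := (y, v))).eventually
      ((hp.cl a s y hy e).and ((h.isOpen s).mem_nhds hy))] with p hq
    have : χ a (A.c s p.1) = 0 := by
      by_contra h0
      exact hq.1 (hp.supp a s _ hq.2 h0)
    simp [this]

theorem acc_nat (h : A.Ok) (hp : A.PoU χ K) {s b : α} {y : E4} {H : E4 → E4} (t : A.Tr s b y H)
    (v : E4) : acc A χ b (H y) (fderiv ℝ H y v) = fderiv ℝ H y (acc A χ s y v) + d2 H y v := by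
  have e0 : A.c b (H y) = A.c s y := t.eq.self_of_nhds
  have e1 : ∀ a, χ a (A.c s y) • fderiv ℝ H y (cn A s a y v) =
      χ a (A.c s y) • (cn A b a (H y) (fderiv ℝ H y v) + d2 H y v) := by
    intro a
    by_cases h0 : χ a (A.c s y) = 0
    · simp [h0]
    obtain ⟨x, hx, e⟩ := hp.supp a s y t.mem h0
    obtain ⟨F, t', -⟩ := h.loc b a (H y) t.mem' x (hp.sub a hx) (e0.trans e.symm)
    rw [cn_eq h (tr_comp t t'), cn_eq h t',
      cnF_nat t.sm.self_of_nhds t'.sm.self_of_nhds (tr_inv h t) (tr_inv h t')]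
  simp only [acc, map_neg, map_sum, map_smul, e1, smul_add, Finset.sum_add_distrib,
    ← Finset.sum_smul, hp.sum s y t.mem, one_smul, e0]
  abel

/-- where `χ s = 1` the connection vanishes in the chart `s` -/
theorem acc_flat [DecidableEq α] (h : A.Ok) {s : α} {y : E4} (hy : y ∈ A.U s)
    (h1 : ∀ a, χ a (A.c s y) = if a = s then 1 else 0) (v : E4) : acc A χ s y v = 0 := by
  have : cn A s s y v = 0 := by
    rw [cn_eq h (tr_id hy)]
    have := d2_clm (ContinuousLinearMap.id ℝ E4) y v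
    unfold cnF
    rw [show d2 id y v = 0 from this, map_zero]
  simp [acc, h1, this]

end Crest.Agent.N207.M

end
end

-- ▼ part N207/M/Ex2
section

/-!
# Row 207, block M (helper52): the local addition `ex` of an atlas

`ex A χ s (y, v)` is the time one point of the geodesic of the averaged flat connection, defined on
the open set `exD A χ s`.
-/

set_option autoImplicit false
set_option linter.unusedSectionVars false

open scoped ContDiff Topology
open Set Filter Metric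

noncomputable section

namespace Crest.Agent.N207.M

open Crest.Agent.N207.I Crest.Agent.Lib.ODEFlow

variable {X : Type*} {α : Type} {A : Atl X α} [Fintype α] {χ : α → X → ℝ} {K : α → Set E4}

/-- the spray -/
def spr (A : Atl X α) (χ : α → X → ℝ) (s : α) (p : E4 × E4) : E4 × E4 := (p.2, acc A χ s p.1 p.2)

/-- its domain -/
def sU (A : Atl X α) (s : α) : Set (E4 × E4) := A.U s ×ˢ univ

/-- the geodesic flow -/
def geo (A : Atl X α) (χ : α → X → ℝ) (s : α) (p : E4 × E4) (t : ℝ) : E4 × E4 :=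
  flow (spr A χ s) (sU A s) (p, t)

/-- its domain -/
def geD (A : Atl X α) (χ : α → X → ℝ) (s : α) : Set ((E4 × E4) × ℝ) := dom (spr A χ s) (sU A s)

/-- the domain of the local addition -/
def exD (A : Atl X α) (χ : α → X → ℝ) (s : α) : Set (E4 × E4) := {p | (p, (1 : ℝ)) ∈ geD A χ s}

/-- the local addition -/
def ex (A : Atl X α) (χ : α → X → ℝ) (s : α) (p : E4 × E4) : E4 := (geo A χ s p 1).1

theorem hd_fst {c : ℝ → E4 × E4} {p : E4 × E4} {t : ℝ} (h : HasDerivAt c p t) :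
    HasDerivAt (fun r => (c r).1) p.1 t :=
  (ContinuousLinearMap.fst ℝ E4 E4).hasFDerivAt.comp_hasDerivAt t h

theorem hd_snd {c : ℝ → E4 × E4} {p : E4 × E4} {t : ℝ} (h : HasDerivAt c p t) :
    HasDerivAt (fun r => (c r).2) p.2 t :=
  (ContinuousLinearMap.snd ℝ E4 E4).hasFDerivAt.comp_hasDerivAt t h

theorem sU_open (h : A.Ok) (s : α) : IsOpen (sU A s) := (h.isOpen s).prod isOpen_univ

theorem spr_sm (h : A.Ok) (hp : A.PoU χ K) (s : α) : ContDiffOn ℝ ∞ (spr A χ s) (sU A s) :=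
  fun p hp' => (contDiffAt_snd.prodMk (acc_sm h hp hp'.1 p.2)).contDiffWithinAt

theorem spr_sm1 (h : A.Ok) (hp : A.PoU χ K) (s : α) : ContDiffOn ℝ 1 (spr A χ s) (sU A s) :=
  (spr_sm h hp s).of_le (by simp)

theorem geD_open (h : A.Ok) (hp : A.PoU χ K) (s : α) : IsOpen (geD A χ s) :=
  isOpen_dom (sU_open h s) (spr_sm1 h hp s)

theorem exD_open (h : A.Ok) (hp : A.PoU χ K) (s : α) : IsOpen (exD A χ s) :=
  (geD_open h hp s).preimage (by fun_prop)

theorem exD_mem {s : α} {p : E4 × E4} (hp : p ∈ exD A χ s) : p.1 ∈ A.U s :=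
  (mem_of_mem_dom hp).1

theorem ex_sm (h : A.Ok) (hp : A.PoU χ K) (s : α) : ContDiffOn ℝ ∞ (ex A χ s) (exD A χ s) := by
  have h1 := contDiffOn_flow (n := ⊤) le_top (sU_open h s) (spr_sm h hp s)
  exact contDiffOn_fst.comp (t := univ) (h1.comp (f := fun p : E4 × E4 => (p, (1 : ℝ)))
    (by fun_prop) fun p hp => hp) fun _ _ => mem_univ _

theorem ex_cda (h : A.Ok) (hp : A.PoU χ K) {s : α} {p : E4 × E4} (hq : p ∈ exD A χ s) :
    ContDiffAt ℝ ∞ (ex A χ s) p := (ex_sm h hp s).contDiffAt ((exD_open h hp s).mem_nhds hq)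

theorem geo_mem (h : A.Ok) (hp : A.PoU χ K) {s : α} {p : E4 × E4} {t : ℝ}
    (hq : (p, t) ∈ geD A χ s) : (geo A χ s p t).1 ∈ A.U s :=
  (flow_mem (sU_open h s) (spr_sm1 h hp s) hq).1


theorem geo_der (h : A.Ok) (hp : A.PoU χ K) {s : α} {p : E4 × E4} {t : ℝ}
    (hq : (p, t) ∈ geD A χ s) : HasDerivAt (geo A χ s p) (spr A χ s (geo A χ s p t)) t :=
  hasDerivAt_flow (sU_open h s) (spr_sm1 h hp s) hq

theorem geo_zero (h : A.Ok) (hp : A.PoU χ K) {s : α} {p : E4 × E4} (hq : p.1 ∈ A.U s) :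
    geo A χ s p 0 = p := flow_zero (sU_open h s) (spr_sm1 h hp s) ⟨hq, mem_univ _⟩

/-- a curve solving the geodesic equation on `[0, 1]` computes `ex` -/
theorem ex_of_curve (h : A.Ok) (hp : A.PoU χ K) {s : α} {c : ℝ → E4 × E4}
    (hc : ∀ t ∈ Icc (0 : ℝ) 1, (c t).1 ∈ A.U s)
    (hd : ∀ t ∈ Icc (0 : ℝ) 1, HasDerivAt c (spr A χ s (c t)) t) :
    c 0 ∈ exD A χ s ∧ ex A χ s (c 0) = (c 1).1 := by
  have := flow_of_integralCurve' (sU_open h s) (spr_sm1 h hp s) (c := c) (l := 1) rfl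
    (fun t ht => ⟨hc t (by simpa using ht), mem_univ _⟩) fun t ht => hd t (by simpa using ht)
  exact ⟨this.1, congrArg Prod.fst this.2⟩

theorem ex_smul (h : A.Ok) (hp : A.PoU χ K) {s : α} {y v : E4} {θ : ℝ}
    (hq : ((y, v), θ) ∈ geD A χ s) :
    (y, θ • v) ∈ exD A χ s ∧ ex A χ s (y, θ • v) = (geo A χ s (y, v) θ).1 := by
  have hy : y ∈ A.U s := (mem_of_mem_dom hq).1
  have hm : ∀ t ∈ Icc (0 : ℝ) 1, ((y, v), t * θ) ∈ geD A χ s := fun t ht => mul_mem_dom hq ht
  have := ex_of_curve h hp (s := s)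
    (c := fun t => ((geo A χ s (y, v) (t * θ)).1, θ • (geo A χ s (y, v) (t * θ)).2))
    (fun t ht => geo_mem h hp (hm t ht)) fun t ht => by
      have h1 : HasDerivAt (fun r => geo A χ s (y, v) (r * θ)) _ t :=
        HasDerivAt.scomp (g₁ := geo A χ s (y, v)) (h := fun r => r * θ) t (geo_der h hp (hm t ht))
          ((hasDerivAt_id t).mul_const θ)
      refine ((hd_fst h1).prodMk ((hd_snd h1).const_smul θ)).congr_deriv ?_
      simp [spr, acc_smul, smul_smul, sq]
  simpa [geo_zero h hp (p := (y, v)) hy] using this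

theorem zero_mem_exD (h : A.Ok) (hp : A.PoU χ K) {s : α} {y : E4} (hy : y ∈ A.U s) :
    (y, (0 : E4)) ∈ exD A χ s ∧ ex A χ s (y, 0) = y := by
  have := ex_smul h hp (s := s) (y := y) (v := 0) (θ := 0) (mem_dom_zero ⟨hy, mem_univ _⟩)
  rw [geo_zero h hp (p := (y, 0)) hy] at this
  simpa using this

theorem ex_zero (h : A.Ok) (hp : A.PoU χ K) {s : α} {y : E4} (hy : y ∈ A.U s) :
    ex A χ s (y, 0) = y := (zero_mem_exD h hp hy).2


theorem ex_fderiv (h : A.Ok) (hp : A.PoU χ K) {s : α} {y : E4} (hy : y ∈ A.U s) (w v : E4) :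
    fderiv ℝ (ex A χ s) (y, 0) (w, v) = w + v := by
  have hd : HasFDerivAt (ex A χ s) (fderiv ℝ (ex A χ s) (y, 0)) (y, 0) :=
    ((ex_cda h hp (zero_mem_exD h hp hy).1).differentiableAt (by simp)).hasFDerivAt
  have e1 : fderiv ℝ (ex A χ s) (y, 0) (w, 0) = w := by
    have h1 : HasFDerivAt (fun z : E4 => ex A χ s (z, 0)) _ y :=
      HasFDerivAt.comp (g := ex A χ s) (f := fun z : E4 => (z, (0 : E4))) y hd
        (hasFDerivAt_prodMk_left y (0 : E4))
    have h2 : HasFDerivAt (fun z : E4 => ex A χ s (z, 0)) (ContinuousLinearMap.id ℝ E4) y :=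
      (hasFDerivAt_id y).congr_of_eventuallyEq (by
        filter_upwards [(h.isOpen s).mem_nhds hy] with z hz
        exact ex_zero h hp hz)
    simpa using congrArg (fun L => L w) (h1.unique h2)
  have e2 : fderiv ℝ (ex A χ s) (y, 0) (0, v) = v := by
    have h0 : ((y, v), (0 : ℝ)) ∈ geD A χ s := mem_dom_zero ⟨hy, mem_univ _⟩
    have h3 : HasDerivAt (fun t : ℝ => ((y, t • v) : E4 × E4)) (0, v) 0 := by
      simpa using (hasDerivAt_const (0 : ℝ) y).prodMk ((hasDerivAt_id (0 : ℝ)).smul_const v)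
    have h1 : HasDerivAt (fun t : ℝ => ex A χ s (y, t • v))
        (fderiv ℝ (ex A χ s) (y, 0) (0, v)) 0 :=
      HasFDerivAt.comp_hasDerivAt_of_eq (l := ex A χ s) (hl := hd) (hf := h3) (hy := by simp)
    have h2 : HasDerivAt (fun t : ℝ => ex A χ s (y, t • v)) v 0 := by
      have h4 := hd_fst (geo_der h hp h0)
      rw [geo_zero h hp (p := (y, v)) hy] at h4
      refine h4.congr_of_eventuallyEq ?_
      have hc : Continuous fun t : ℝ => (((y, v), t) : (E4 × E4) × ℝ) := by fun_prop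
      filter_upwards [hc.continuousAt.eventually ((geD_open h hp s).mem_nhds h0)] with t ht
      exact (ex_smul h hp ht).2
    exact h1.unique h2
  rw [show ((w, v) : E4 × E4) = (w, 0) + (0, v) by simp, map_add, e1, e2]

/-- straight segments where the connection vanishes -/
theorem ex_flat (h : A.Ok) (hp : A.PoU χ K) {s : α} {y v : E4}
    (hU : ∀ t ∈ Icc (0 : ℝ) 1, y + t • v ∈ A.U s)
    (h0 : ∀ t ∈ Icc (0 : ℝ) 1, acc A χ s (y + t • v) v = 0) :
    (y, v) ∈ exD A χ s ∧ ex A χ s (y, v) = y + v := by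
  have := ex_of_curve h hp (s := s) (c := fun t => (y + t • v, v)) hU fun t ht => by
    have := (((hasDerivAt_id t).smul_const v).const_add y).prodMk (hasDerivAt_const t v)
    simpa [spr, h0 t ht] using this
  simpa using this

/-- the image of a geodesic under a transition -/
theorem tr_der (h : A.Ok) (hp : A.PoU χ K) {s b : α} {c : ℝ → E4 × E4} {t : ℝ} {F : E4 → E4}
    (tF : A.Tr s b (c t).1 F) (hc : HasDerivAt c (spr A χ s (c t)) t) :
    HasDerivAt (fun r => (F (c r).1, fderiv ℝ F (c r).1 (c r).2))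
      (spr A χ b (F (c t).1, fderiv ℝ F (c t).1 (c t).2)) t := by
  have h1 : HasFDerivAt (fderiv ℝ F) (fderiv ℝ (fderiv ℝ F) (c t).1) (c t).1 :=
    ((tF.sm.self_of_nhds.fderiv_right (m := 1) (by norm_cast)).differentiableAt
      one_ne_zero).hasFDerivAt
  have h2 : HasDerivAt (fun r => F (c r).1) (fderiv ℝ F (c t).1 (c t).2) t :=
    HasFDerivAt.comp_hasDerivAt (l := F) t (tr_diff tF).hasFDerivAt (hd_fst hc)
  have h3 : HasDerivAt (fun r => fderiv ℝ F (c r).1) (fderiv ℝ (fderiv ℝ F) (c t).1 (c t).2) t :=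
    HasFDerivAt.comp_hasDerivAt (l := fderiv ℝ F) t h1 (hd_fst hc)
  have h4 : HasDerivAt (fun r => fderiv ℝ F (c r).1 (c r).2)
      (acc A χ b (F (c t).1) (fderiv ℝ F (c t).1 (c t).2)) t := by
    rw [acc_nat h hp tF, add_comm]
    exact h3.clm_apply (hd_snd hc)
  exact h2.prodMk h4

/-- geodesics read in two charts agree -/
theorem geo_compat (h : A.Ok) (hp : A.PoU χ K) {s b : α} {y v : E4} {H : E4 → E4}
    (tH : A.Tr s b y H) {l : ℝ} (hl : 0 ≤ l) (h1 : ((y, v), l) ∈ geD A χ s)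
    (h2 : ((H y, fderiv ℝ H y v), l) ∈ geD A χ b) :
    ∃ F, A.Tr s b (geo A χ s (y, v) l).1 F ∧ geo A χ b (H y, fderiv ℝ H y v) l =
      (F (geo A χ s (y, v) l).1,
        fderiv ℝ F (geo A χ s (y, v) l).1 (geo A χ s (y, v) l).2) := by
  set c := geo A χ s (y, v) with hc
  set c' := geo A χ b (H y, fderiv ℝ H y v) with hc'
  have m1 : ∀ t ∈ Icc 0 l, ((y, v), t) ∈ geD A χ s := fun t ht =>
    mem_dom_of_uIcc h1 (by rwa [uIcc_of_le hl])
  have m2 : ∀ t ∈ Icc 0 l, ((H y, fderiv ℝ H y v), t) ∈ geD A χ b := fun t ht =>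
    mem_dom_of_uIcc h2 (by rwa [uIcc_of_le hl])
  let S : Set ℝ := {t | ∃ F, A.Tr s b (c t).1 F ∧ c' t = (F (c t).1, fderiv ℝ F (c t).1 (c t).2)}
  have hcl : IsClosed (S ∩ Icc 0 l) := by
    rw [← closure_subset_iff_isClosed]
    intro t ht
    have htI : t ∈ Icc 0 l := closure_minimal inter_subset_right isClosed_Icc ht
    refine ⟨?_, htI⟩
    have fr : ∃ᶠ r in 𝓝 t, r ∈ S := (mem_closure_iff_frequently.1 ht).mono fun r hr => hr.1
    have c1 := (geo_der h hp (m1 t htI)).continuousAt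
    have c2 := (geo_der h hp (m2 t htI)).continuousAt
    have e : A.c s (c t).1 = A.c b (c' t).1 := by
      by_contra e
      have := (c1.fst.prodMk c2.fst).eventually
        (h.t2 s b _ (geo_mem h hp (m1 t htI)) _ (geo_mem h hp (m2 t htI)) e)
      obtain ⟨r, ⟨F, tF, eF⟩, hr⟩ := (fr.and_eventually this).exists
      exact hr (by rw [← hc, ← hc', eF]; exact tF.eq.self_of_nhds.symm)
    obtain ⟨F, tF, eF⟩ := h.loc s b _ (geo_mem h hp (m1 t htI)) _ (geo_mem h hp (m2 t htI)) e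
    refine ⟨F, tF, ?_⟩
    have c3 := (tr_der h hp tF (geo_der h hp (m1 t htI))).continuousAt
    refine tendsto_nhds_unique_of_frequently_eq c2 c3 ?_
    have c4 : Tendsto (fun r => (c' r).1) (𝓝 t) (𝓝 (F (c t).1)) := by
      rw [eF]; exact c2.fst
    have l1 := lift_eq h tF.mem' c3.fst c4
    refine (fr.and_eventually (l1.and (c1.fst.eventually (tr_ev h tF)))).mono ?_
    rintro r ⟨⟨G, tG, eG⟩, h3, h4⟩
    have e3 : F (c r).1 = G (c r).1 := by
      have := h3 (by
        change A.c b (F (c r).1) = A.c b (c' r).1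
        rw [eG]; exact h4.eq.self_of_nhds.trans tG.eq.self_of_nhds.symm)
      change F (c r).1 = (c' r).1 at this
      rw [this, eG]
    change c' r = _
    rw [eG, e3, (tr_eq h h4 tG e3).fderiv_eq]
  have h0 : (0 : ℝ) ∈ S := by
    refine ⟨H, ?_⟩
    rw [hc, hc', geo_zero h hp (p := (y, v)) tH.mem, geo_zero h hp (p := (H y, _)) tH.mem']
    exact ⟨tH, rfl⟩
  refine hcl.Icc_subset_of_forall_mem_nhdsWithin h0 ?_ ⟨hl, le_rfl⟩
  rintro t ⟨⟨F, tF, eF⟩, ht⟩
  have htI : t ∈ Icc 0 l := ⟨ht.1, ht.2.le⟩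
  refine mem_nhdsWithin_of_mem_nhds ?_
  have c1 := (geo_der h hp (m1 t htI)).continuousAt
  have o1 : ∀ᶠ r in 𝓝 t, ((y, v), r) ∈ geD A χ s :=
    (by fun_prop : Continuous fun r : ℝ => (((y, v), r) : (E4 × E4) × ℝ)).continuousAt.eventually
      ((geD_open h hp s).mem_nhds (m1 t htI))
  have o2 : ∀ᶠ r in 𝓝 t, ((H y, fderiv ℝ H y v), r) ∈ geD A χ b :=
    (by fun_prop : Continuous fun r : ℝ =>
      (((H y, fderiv ℝ H y v), r) : (E4 × E4) × ℝ)).continuousAt.eventually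
      ((geD_open h hp b).mem_nhds (m2 t htI))
  have o3 := c1.fst.eventually (tr_ev h tF)
  have hs : ContDiffAt ℝ 1 (spr A χ b) (c' t) :=
    (spr_sm1 h hp b).contDiffAt ((sU_open h b).mem_nhds ⟨geo_mem h hp (m2 t htI), mem_univ _⟩)
  obtain ⟨Kl, W, hW, hK⟩ := hs.exists_lipschitzOnWith
  have c2 := (geo_der h hp (m2 t htI)).continuousAt
  have c3 := (tr_der h hp tF (geo_der h hp (m1 t htI))).continuousAt
  have hW' : W ∈ 𝓝 (F (c t).1, fderiv ℝ F (c t).1 (c t).2) := eF ▸ hW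
  have u := ODE_solution_unique_of_eventually (v := fun _ => spr A χ b) (s := fun _ => W)
    (f := c') (g := fun r => (F (c r).1, fderiv ℝ F (c r).1 (c r).2)) (t₀ := t)
    (Eventually.of_forall fun _ => hK)
    ((o2.and (c2.eventually hW)).mono fun r hr => ⟨geo_der h hp hr.1, hr.2⟩)
    (((o1.and o3).and (c3.eventually hW')).mono fun r hr =>
      ⟨tr_der h hp hr.1.2 (geo_der h hp hr.1.1), hr.2⟩) eF
  filter_upwards [u, o3] with r h3 h4
  exact ⟨F, h4, h3⟩

/-- compatibility of the local addition -/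
theorem ex_compat (h : A.Ok) (hp : A.PoU χ K) {s b : α} {y v : E4} {H : E4 → E4}
    (tH : A.Tr s b y H) (h1 : (y, v) ∈ exD A χ s) (h2 : (H y, fderiv ℝ H y v) ∈ exD A χ b) :
    A.c b (ex A χ b (H y, fderiv ℝ H y v)) = A.c s (ex A χ s (y, v)) := by
  obtain ⟨F, tF, e⟩ := geo_compat h hp tH zero_le_one h1 h2
  unfold ex
  rw [e]
  exact tF.eq.self_of_nhds


end Crest.Agent.N207.M

end
end

-- ▼ part N207/M/Ex3
section

/-!
# Row 207, block M (helper52): the spray of a stretched atlas, transfer of geodesics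
-/

set_option autoImplicit false
set_option linter.unusedSectionVars false

open scoped ContDiff Topology
open Set Filter Metric

noncomputable section

namespace Crest.Agent.N207.M

open Crest.Agent.N207.I Crest.Agent.Lib.ODEFlow

theorem d2_smul (c : ℝ) (y v : E4) : d2 (fun z : E4 => c • z) y v = 0 :=
  d2_clm (c • ContinuousLinearMap.id ℝ E4) y v

theorem fderiv_smul' (c : ℝ) (y : E4) :
    fderiv ℝ (fun z : E4 => c • z) y = c • ContinuousLinearMap.id ℝ E4 :=
  (c • ContinuousLinearMap.id ℝ E4).fderiv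

theorem inv_smul' {c : ℝ} (hc : c ≠ 0) (y : E4) :
    (fderiv ℝ (fun z : E4 => c • z) y).IsInvertible := by
  rw [fderiv_smul']
  exact ContinuousLinearMap.IsInvertible.of_inverse (g := c⁻¹ • ContinuousLinearMap.id ℝ E4)
    (by ext1 v; simp [smul_smul, hc]) (by ext1 v; simp [smul_smul, hc])

theorem cnF_scale {F : E4 → E4} {a b : ℝ} (ha : a ≠ 0) (hb : b ≠ 0) {y : E4}
    (hF : ContDiffAt ℝ ∞ F (a • y)) (iF : (fderiv ℝ F (a • y)).IsInvertible) (v : E4) :
    cnF (fun z => b • F (a • z)) y v = a⁻¹ • cnF F (a • y) (a • v) := by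
  have s1 : ∀ (c : ℝ) (z : E4), ContDiffAt ℝ ∞ (fun z : E4 => c • z) z := fun c z =>
    (contDiff_const_smul c).contDiffAt
  have e1 : ∀ u, cnF ((fun z : E4 => b • z) ∘ F) (a • y) u = cnF F (a • y) u := fun u => by
    apply iF.injective
    rw [cnF_nat hF (s1 b _) iF (inv_smul' hb _), cnF, d2_smul, map_zero, zero_add, cnF,
      iF.self_apply_inverse]
  have i2 : (fderiv ℝ ((fun z : E4 => b • z) ∘ F) (a • y)).IsInvertible := by
    rw [fderiv_comp _ ((s1 b _).differentiableAt (by simp)) (hF.differentiableAt (by simp))]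
    exact (inv_smul' hb _).comp iF
  have := cnF_nat (F := fun z : E4 => a • z) (G := (fun z : E4 => b • z) ∘ F) (y := y) (s1 a y)
    ((s1 b _).comp _ hF) (inv_smul' ha y) i2 v
  rw [d2_smul, add_zero, e1, fderiv_smul'] at this
  simp only [smul_apply, ContinuousLinearMap.id_apply] at this
  rw [← this, inv_smul_smul₀ ha]
  rfl

section Gen

theorem norm_scale {F G : Type*} [NormedAddCommGroup F] [NormedSpace ℝ F] [NormedAddCommGroup G]
    [NormedSpace ℝ G] (Ψ : F → G) (q0 : F) {ρ c : ℝ} (hρ : 0 < ρ) (hc : 0 < c) (j : ℕ) (p : F) :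
    ‖iteratedFDeriv ℝ j (fun p => c • Ψ (q0 + ρ • p)) p‖ ≤
      c * (ρ ^ j * ‖iteratedFDeriv ℝ j Ψ (q0 + ρ • p)‖) := by
  let e1 : F ≃L[ℝ] F := ContinuousLinearEquiv.equivOfInverse (ρ • ContinuousLinearMap.id ℝ F)
    (ρ⁻¹ • ContinuousLinearMap.id ℝ F) (fun v => by simp [smul_smul, hρ.ne'])
    fun v => by simp [smul_smul, hρ.ne']
  let e2 : G ≃L[ℝ] G := ContinuousLinearEquiv.equivOfInverse (c • ContinuousLinearMap.id ℝ G)
    (c⁻¹ • ContinuousLinearMap.id ℝ G) (fun v => by simp [smul_smul, hc.ne'])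
    fun v => by simp [smul_smul, hc.ne']
  have n1 : ‖(e1 : F →L[ℝ] F)‖ ≤ ρ := ContinuousLinearMap.opNorm_le_bound _ hρ.le fun v => by
    simp [e1, norm_smul, abs_of_pos hρ]
  have n2 : ‖(e2 : G →L[ℝ] G)‖ ≤ c := ContinuousLinearMap.opNorm_le_bound _ hc.le fun v => by
    simp [e2, norm_smul, abs_of_pos hc]
  have h1 := e1.iteratedFDerivWithin_comp_right (fun z => Ψ (q0 + z)) uniqueDiffOn_univ
    (x := p) (mem_univ _) j
  rw [preimage_univ, iteratedFDerivWithin_univ, iteratedFDerivWithin_univ,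
    iteratedFDeriv_comp_add_left] at h1
  have h2 := e2.iteratedFDeriv_comp_left (f := (fun z => Ψ (q0 + z)) ∘ e1) (x := p) (i := j)
  have h3 : (fun p => c • Ψ (q0 + ρ • p)) = e2 ∘ (fun z => Ψ (q0 + z)) ∘ e1 := rfl
  rw [h3, h2, h1]
  refine (ContinuousLinearMap.norm_compContinuousMultilinearMap_le _ _).trans
    (mul_le_mul n2 ((ContinuousMultilinearMap.norm_compContinuousLinearMap_le _ _).trans ?_)
      (norm_nonneg _) hc.le)
  rw [mul_comm, Finset.prod_const, Finset.card_univ, Fintype.card_fin]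
  exact mul_le_mul_of_nonneg_right (pow_le_pow_left₀ (norm_nonneg _) n1 j) (norm_nonneg _)

variable {X X' : Type*} {α α' : Type} {A : Atl X α} [Fintype α] {χ : α → X → ℝ} {K : α → Set E4}
  {A' : Atl X' α'} [Fintype α'] {χ' : α' → X' → ℝ} {K' : α' → Set E4}

/-- the deviation from the flat addition -/
def dev (A : Atl X α) (χ : α → X → ℝ) (s : α) (q : E4 × E4) : E4 := ex A χ s q - q.1 - q.2

theorem dev_cda (h : A.Ok) (hp : A.PoU χ K) {s : α} {p : E4 × E4} (hq : p ∈ exD A χ s) :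
    ContDiffAt ℝ ∞ (dev A χ s) p := ((ex_cda h hp hq).sub contDiffAt_fst).sub contDiffAt_snd

theorem dev_zero (h : A.Ok) (hp : A.PoU χ K) {s : α} {y : E4} (hy : y ∈ A.U s) :
    dev A χ s (y, 0) = 0 := by simp [dev, ex_zero h hp hy]

theorem dev_der (h : A.Ok) (hp : A.PoU χ K) {s : α} {y : E4} (hy : y ∈ A.U s) :
    HasFDerivAt (dev A χ s) (0 : E4 × E4 →L[ℝ] E4) (y, 0) := by
  have hd : HasFDerivAt (ex A χ s) (fderiv ℝ (ex A χ s) (y, 0)) (y, 0) :=
    ((ex_cda h hp (zero_mem_exD h hp hy).1).differentiableAt (by simp)).hasFDerivAt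
  refine ((hd.sub hasFDerivAt_fst).sub hasFDerivAt_snd).congr_fderiv ?_
  refine ContinuousLinearMap.ext fun p => ?_
  simp [ex_fderiv h hp hy p.1 p.2]

/-- initial data whose geodesic stays in `W` up to time one -/
def stay (A : Atl X α) (χ : α → X → ℝ) (s : α) (W : Set E4) : Set (E4 × E4) :=
  {q | ∀ t ∈ Icc (0 : ℝ) 1, (q, t) ∈ geD A χ s ∧ (geo A χ s q t).1 ∈ W}

theorem stay_sub {s : α} {W : Set E4} : stay A χ s W ⊆ exD A χ s := fun _ hq =>
  (hq 1 ⟨zero_le_one, le_rfl⟩).1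

theorem stay_open (h : A.Ok) (hp : A.PoU χ K) (s : α) {W : Set E4} (hW : IsOpen W) :
    IsOpen (stay A χ s W) := by
  refine isOpen_iff_mem_nhds.2 fun q hq => ?_
  refine isCompact_Icc.eventually_forall_of_forall_eventually
    (P := fun q t => (q, t) ∈ geD A χ s ∧ (geo A χ s q t).1 ∈ W) fun t ht => ?_
  have h1 := (geD_open h hp s).mem_nhds (hq t ht).1
  have h2 : ContinuousAt (flow (spr A χ s) (sU A s)) (q, t) :=
    (contDiffOn_flow (n := 1) le_rfl (sU_open h s) (spr_sm1 h hp s)).continuousOn.continuousAt h1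
  filter_upwards [h1, h2.fst.eventually (hW.mem_nhds (hq t ht).2)] with z h3 h4
  exact ⟨h3, h4⟩

theorem stay_zero (h : A.Ok) (hp : A.PoU χ K) {s : α} {W : Set E4} {y : E4} (hy : y ∈ A.U s)
    (hW : y ∈ W) : (y, (0 : E4)) ∈ stay A χ s W := fun t ht => by
  have h1 : ((y, (0 : E4)), t) ∈ geD A χ s := mul_one t ▸ mul_mem_dom (zero_mem_exD h hp hy).1 ht
  have h2 := (ex_smul h hp h1).2
  rw [smul_zero, ex_zero h hp hy] at h2
  exact ⟨h1, h2 ▸ hW⟩

/-- uniform radius and jets over a compact set -/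
theorem exists_mod (h : A.Ok) (hp : A.PoU χ K) (s : α) {W C : Set E4} (hW : IsOpen W)
    (hC : IsCompact C) (hU : C ⊆ A.U s) (hCW : C ⊆ W) (m : ℕ) :
    ∀ᶠ z in 𝓝[>] (0 : ℝ), ∀ y ∈ C, ∀ v : E4, ‖v‖ ≤ z → (y, v) ∈ stay A χ s W ∧
      ∀ j ≤ m, ‖iteratedFDeriv ℝ j (dev A χ s) (y, v)‖ ≤ z⁻¹ := by
  have h1 : ∀ᶠ v in 𝓝 (0 : E4), ∀ y ∈ C, (y, v) ∈ stay A χ s W :=
    hC.eventually_forall_of_forall_eventually (P := fun v y => (y, v) ∈ stay A χ s W) fun y hy =>
      (continuous_swap.tendsto ((0 : E4), y)).eventually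
        ((stay_open h hp s hW).mem_nhds (stay_zero h hp (hU hy) (hCW hy)))
  obtain ⟨ρ, hρ, h2⟩ := Metric.eventually_nhds_iff_ball.1 h1
  have h3 : ∀ q ∈ C ×ˢ closedBall (0 : E4) (ρ / 2), q ∈ stay A χ s W := fun q hq =>
    h2 q.2 (closedBall_subset_ball (by linarith) hq.2) q.1 hq.1
  have h4 : ∀ j : ℕ, ∃ B, ∀ q ∈ C ×ˢ closedBall (0 : E4) (ρ / 2),
      ‖iteratedFDeriv ℝ j (dev A χ s) q‖ ≤ B := fun j =>
    (hC.prod (isCompact_closedBall _ _)).exists_bound_of_continuousOn fun q hq =>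
      ((dev_cda h hp (stay_sub (h3 q hq))).continuousAt_iteratedFDeriv
        (by exact_mod_cast le_top)).continuousWithinAt
  choose B hB using h4
  have h5 : ∀ᶠ z in 𝓝[>] (0 : ℝ), ∀ j ∈ Finset.range (m + 1), B j ≤ z⁻¹ :=
    (Finset.eventually_all _).2 fun j _ => tendsto_inv_nhdsGT_zero.eventually_ge_atTop _
  filter_upwards [h5, nhdsWithin_le_nhds (Iic_mem_nhds (half_pos hρ))] with z h6 h7 y hy v hv
  have h8 : (y, v) ∈ C ×ˢ closedBall (0 : E4) (ρ / 2) :=
    ⟨hy, mem_closedBall_zero_iff.2 (hv.trans h7)⟩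
  exact ⟨h3 _ h8, fun j hj => (hB j _ h8).trans (h6 j (Finset.mem_range.2 (by omega)))⟩

theorem ex_transfer (h : A.Ok) (hp : A.PoU χ K) (h' : A'.Ok) (hp' : A'.PoU χ' K') {s : α} {s' : α'}
    {W : Set E4} {c : ℝ} (hc : c ≠ 0) (hW : ∀ x, c • x ∈ W → x ∈ A.U s ∧
      ∀ u, acc A χ s x u = c⁻¹ • acc A' χ' s' (c • x) (c • u)) {q : E4 × E4}
    (hq : c • q ∈ stay A' χ' s' W) : q ∈ exD A χ s ∧ dev A χ s q = c⁻¹ • dev A' χ' s' (c • q) := by
  have e : ∀ y : E4, c • c⁻¹ • y = y := fun y => smul_inv_smul₀ hc y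
  have := ex_of_curve h hp (s := s) (c := fun t => c⁻¹ • geo A' χ' s' (c • q) t)
    (fun t ht => (hW _ (by rw [Prod.smul_fst, e]; exact (hq t ht).2)).1) fun t ht => by
      refine ((geo_der h' hp' (hq t ht).1).const_smul c⁻¹).congr_deriv ?_
      simp only [spr, Prod.smul_fst, Prod.smul_snd, Prod.smul_mk]
      rw [(hW _ (by rw [e]; exact (hq t ht).2)).2, e, e]
  rw [geo_zero h' hp' (exD_mem (stay_sub hq)), inv_smul_smul₀ hc] at this
  refine ⟨this.1, ?_⟩
  rw [dev, dev, this.2]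
  simp [smul_sub, ex, smul_smul, hc]

theorem jet_transfer (h : A.Ok) (hp : A.PoU χ K) (h' : A'.Ok) (hp' : A'.PoU χ' K') {s : α}
    {s' : α'} {W : Set E4} (hWo : IsOpen W) {c : ℝ} (hc : 0 < c) (hW : ∀ x, c • x ∈ W → x ∈ A.U s ∧
      ∀ u, acc A χ s x u = c⁻¹ • acc A' χ' s' (c • x) (c • u)) {q : E4 × E4}
    (hq : c • q ∈ stay A' χ' s' W) (j : ℕ) : ‖iteratedFDeriv ℝ j (dev A χ s) q‖ ≤
      c⁻¹ * (c ^ j * ‖iteratedFDeriv ℝ j (dev A' χ' s') (c • q)‖) := by
  have h1 : dev A χ s =ᶠ[𝓝 q] fun p => c⁻¹ • dev A' χ' s' (0 + c • p) := by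
    filter_upwards [(continuous_const_smul c).continuousAt.eventually
      ((stay_open h' hp' s' hWo).mem_nhds hq)] with p hp1
    rw [zero_add]
    exact (ex_transfer h hp h' hp' hc.ne' hW hp1).2
  rw [(h1.iteratedFDeriv ℝ j).eq_of_nhds]
  simpa using norm_scale (dev A' χ' s') 0 hc (inv_pos.2 hc) j q

end Gen

variable {M : Type*} {T : TD M} {A : Atl T.Car T.S} {act : T.V → Prop} {lam : T.V → T.V → ℝ}

open TD in
theorem str_tr (hA : T.Str A act lam) (h : T.Ok) {a b : T.S} {v : T.V} (hv : act v) {x : E4}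
    {F : E4 → E4} (hF : (T.base v).Tr a b (sc lam a v • x) F) :
    A.Tr a b x fun z => (sc lam b v)⁻¹ • F (sc lam a v • z) := by
  have hb := (hA.sc_pos b v).ne'
  have hc : Continuous fun z : E4 => sc lam a v • z := continuous_const_smul _
  have h0 : sc lam b v • (sc lam b v)⁻¹ • F (sc lam a v • x) ∈ (T.base v).U b := by
    rw [smul_inv_smul₀ hb]; exact hF.mem'
  refine ⟨(hA.conv' hv hF.mem).1, (hA.conv' hv h0).1, ?_, ?_⟩
  · filter_upwards [hc.continuousAt.eventually hF.sm] with z hz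
    exact (hz.comp z (contDiff_const_smul _).contDiffAt).const_smul _
  · have h3 := (hF.sm.self_of_nhds.continuousAt.comp (f := fun z : E4 => sc lam a v • z)
      hc.continuousAt).eventually (((h.base v).isOpen b).mem_nhds hF.mem')
    filter_upwards [hc.continuousAt.eventually hF.eq, h3, hA.conv_ev h hv hF.mem] with z h4 h5 h6
    have h7 : sc lam b v • (sc lam b v)⁻¹ • F (sc lam a v • z) ∈ (T.base v).U b := by
      rw [smul_inv_smul₀ hb]; exact h5
    rw [(hA.conv' hv h7).2, smul_inv_smul₀ hb, h4, h6.2]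

open TD in
theorem acc_str (hA : T.Str A act lam) (h : T.Ok) {s : T.S} {v : T.V} (hv : act v) {x : E4}
    (hx : sc lam s v • x ∈ (T.base v).U s) (u : E4) :
    acc A T.χ s x u = (sc lam s v)⁻¹ • acc (T.base v) (fun a p => T.χ a (Sum.inl (v, p))) s
      (sc lam s v • x) (sc lam s v • u) := by
  unfold acc
  rw [(hA.conv' hv hx).2, smul_neg, Finset.smul_sum]
  congr 1
  refine Finset.sum_congr rfl fun a _ => ?_
  by_cases e : T.χ a (Sum.inl (v, (T.base v).c s (sc lam s v • x))) = 0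
  · simp [e]
  · obtain ⟨y, hy, e'⟩ := h.th_ne (v := v) (s := a) (p := (T.base v).c s (sc lam s v • x))
      fun e1 => e (by rw [χ_inl, e1, zero_div])
    obtain ⟨F, hF, -⟩ := (h.base v).loc s a _ hx y (bK_sub v a hy) e'.symm
    rw [cn_eq (hA.ok h) (str_tr hA h hv hF), cn_eq (h.base v) hF,
      cnF_scale (hA.sc_pos s v).ne' (inv_ne_zero (hA.sc_pos a v).ne') hF.sm.self_of_nhds
        (tr_inv (h.base v) hF), smul_comm]

variable {L : T.V → ℝ}

open TD in
/-- ball charts -/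
theorem acc_ball (h : T.Ok) (hL : T.Long L) {a : T.B} {x : E4} (hx : ‖x‖ < 2) (u : E4) :
    acc (T.glob L) T.χ (Sum.inl a) x u = acc (T.core (T.vx a)) T.χ (Sum.inl a) x u := by
  have h1 : x ∈ (T.base (T.vx a)).U (Sum.inl a) := mem_base_inl.2 ⟨rfl, hx⟩
  rw [acc_str (h.str_glob hL) h (v := T.vx a) trivial (by simpa [sc] using h1),
    acc_str (h.str_core (T.vx a)) h (v := T.vx a) rfl (by simpa [sc] using h1)]
  simp [sc]

open TD in
/-- the middle of the necks -/
theorem acc_mid (h : T.Ok) (hL : T.Long L) {w : T.V} {x : E4} (hx : 3 ≤ ‖x‖)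
    (hx' : w ≠ T.root → ‖x‖ ≤ T.r / 3 * Real.exp (L w)) (u : E4) :
    acc (T.glob L) T.χ (Sum.inr w) x u = 0 := by
  have he := mul_pos h.r_pos (Real.exp_pos (L w))
  exact acc_flat (h.glob_ok hL) (mem_glob_inr.2 ⟨by linarith, fun hw => by linarith [hx' hw]⟩)
    (h.glob_χ_mid hL hx hx') u

open TD in
/-- the outer half of the necks -/
theorem acc_out (h : T.Ok) (hL : T.Long L) {w : T.V} {x : E4} (hx : 1 < ‖x‖)
    (hx' : w ≠ T.root → ‖x‖ ≤ T.r / 3 * Real.exp (L w)) (u : E4) :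
    acc (T.glob L) T.χ (Sum.inr w) x u = acc (T.core w) T.χ (Sum.inr w) x u := by
  by_cases h4 : ‖x‖ < 4
  · have h1 : x ∈ (T.base w).U (Sum.inr w) := mem_base_out.2 ⟨hx, h4⟩
    rw [acc_str (h.str_glob hL) h (v := w) trivial (by simpa [sc, lm] using h1),
      acc_str (h.str_core w) h (v := w) rfl (by simpa [sc] using h1)]
    simp [sc, lm]
  · rw [acc_mid h hL (by linarith) hx',
      acc_flat (h.core_ok w) (mem_core_out.2 hx) (h.core_χ_out w (by linarith))]

open TD in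
/-- the inner half of the necks -/
theorem acc_inn (h : T.Ok) (hL : T.Long L) {w : T.V} (hw : w ≠ T.root) {x : E4} (hx : 3 ≤ ‖x‖)
    (hx' : ‖x‖ < T.r * Real.exp (L w)) (u : E4) :
    acc (T.glob L) T.χ (Sum.inr w) x u = (Real.exp (-L w))⁻¹ •
      acc (T.core (T.par w)) T.χ (Sum.inr w) (Real.exp (-L w) • x) (Real.exp (-L w) • u) := by
  have hne := h.par_ne hw
  have hk : T.kid (T.par w) w := ⟨hw, rfl⟩
  have hr := h.r_pos
  have he := Real.exp_pos (L w)
  by_cases h4 : T.r / 4 < ‖Real.exp (-L w) • x‖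
  · have h1 : Real.exp (-L w) • x ∈ (T.base (T.par w)).U (Sum.inr w) :=
      (mem_base_inn hne).2 ⟨hk, h4, nrm_exp_lt.2 hx'⟩
    rw [acc_str (h.str_glob hL) h (v := T.par w) trivial (by simpa [sc, lm, hne] using h1),
      acc_str (h.str_core (T.par w)) h (v := T.par w) rfl (by simpa [sc] using h1)]
    simp [sc, lm, hne]
  · have h5 := not_lt.1 h4
    have h0 : 0 < ‖Real.exp (-L w) • x‖ := lt_nrm_exp.2 (by linarith)
    have h6 := nrm_exp_le.1 h5
    rw [acc_mid h hL hx fun _ => by nlinarith, acc_flat (h.core_ok _)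
      ((mem_core_inn hne).2 ⟨hk, h0, by linarith⟩) (h.core_χ_inn hk h0 (by linarith)), smul_zero]

end Crest.Agent.N207.M

end
end

-- ▼ part N207/Ga/Exp
section

/-!
# Row 207, GAUGE (helper52): the leaf `EXP`
-/

set_option autoImplicit false
set_option linter.unusedSectionVars false

open scoped ContDiff Topology
open Set Filter Metric
open Crest.Agent.N207.I Crest.Agent.N207.CB Crest.Agent.N207.K Crest.Agent.N207.M

noncomputable section

namespace Crest.Agent.N207.Ga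

variable {M : Type*} {T : TD M} {L : T.V → ℝ}

/-- the closed region where the local addition is controlled -/
def gV (T : TD M) (L : T.V → ℝ) : T.S → Set E4 :=
  Sum.elim (fun _ => closedBall 0 (7 / 4)) fun w =>
    {x | 5 / 4 ≤ ‖x‖ ∧ (w ≠ T.root → ‖x‖ ≤ 7 / 8 * T.r * Real.exp (L w))}

theorem gU_gV (h : T.Ok) (s : T.S) : gU T L 1 s ⊆ gV T L s := by
  cases s with
  | inl a => exact ball_subset_closedBall.trans (closedBall_subset_closedBall (by norm_num))
  | inr w =>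
    have := mul_pos h.r_pos (Real.exp_pos (L w))
    exact fun x hx => ⟨by linarith [hx.1], fun hw => by nlinarith [hx.2 hw]⟩

theorem gV_U (h : T.Ok) (s : T.S) : gV T L s ⊆ (T.glob L).U s := by
  cases s with
  | inl a => exact closedBall_subset_ball (by norm_num)
  | inr w =>
    have := mul_pos h.r_pos (Real.exp_pos (L w))
    exact fun x hx => ⟨by linarith [hx.1], fun hw => by nlinarith [hx.2 hw]⟩

theorem ex_mid (h : T.Ok) (hL : T.Long L) {w : T.V} {q : E4 × E4} (h1 : 8 < ‖q.1‖)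
    (h2 : w ≠ T.root → ‖q.1‖ < T.r / 8 * Real.exp (L w)) (h3 : ‖q.2‖ < ‖q.1‖ / 2) :
    q ∈ exD (T.glob L) T.χ (Sum.inr w) ∧ ex (T.glob L) T.χ (Sum.inr w) q = q.1 + q.2 := by
  have he := mul_pos h.r_pos (Real.exp_pos (L w))
  have key : ∀ t ∈ Icc (0 : ℝ) 1, 3 ≤ ‖q.1 + t • q.2‖ ∧
      (w ≠ T.root → ‖q.1 + t • q.2‖ ≤ T.r / 3 * Real.exp (L w)) := fun t ht => by
    have a1 : ‖t • q.2‖ ≤ ‖q.2‖ := by
      rw [norm_smul, Real.norm_of_nonneg ht.1]; exact mul_le_of_le_one_left (norm_nonneg _) ht.2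
    have a2 := norm_add_le q.1 (t • q.2)
    have a3 := norm_sub_le (q.1 + t • q.2) (t • q.2)
    rw [add_sub_cancel_right] at a3
    exact ⟨by linarith, fun hw => by linarith [h2 hw]⟩
  exact ex_flat (h.glob_ok hL) (h.glob_pou hL) (fun t ht => TD.mem_glob_inr.2
    ⟨by linarith [(key t ht).1], fun hw => by linarith [(key t ht).2 hw]⟩)
    fun t ht => acc_mid h hL (key t ht).1 (key t ht).2 _

theorem jet_arith {r c σ z D D' : ℝ} (hr : 0 < r) (hc : 0 < c) (hσ : 0 < σ) (hz : 0 < z)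
    (h1 : r / 8 ≤ c * σ) (h2 : c * σ ≤ 8) {j : ℕ} (hj : j ≤ 7) (hD : D ≤ c⁻¹ * (c ^ j * D'))
    (hD' : D' ≤ z⁻¹) : σ ^ j * D ≤ 8 ^ 8 / (r * z) * σ := by
  have a1 : (c * σ) ^ j ≤ 8 ^ 7 :=
    (pow_le_pow_left₀ (by positivity) h2 j).trans (pow_le_pow_right₀ (by norm_num) hj)
  have a2 : c⁻¹ ≤ 8 / r * σ := by
    rw [inv_le_iff_one_le_mul₀ hc, div_mul_eq_mul_div, div_mul_eq_mul_div, one_le_div hr]
    linarith
  calc σ ^ j * D ≤ σ ^ j * (c⁻¹ * (c ^ j * z⁻¹)) := by
        refine mul_le_mul_of_nonneg_left (hD.trans ?_) (by positivity)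
        gcongr
    _ = c⁻¹ * ((c * σ) ^ j * z⁻¹) := by rw [mul_pow]; ring
    _ ≤ 8 / r * σ * (8 ^ 7 * z⁻¹) := by gcongr
    _ = 8 ^ 8 / (r * z) * σ := by field_simp

theorem scl_pos {s : T.S} {x : E4} (hx : x ∈ gV T L s) : 0 < scl T s x := by
  cases s with
  | inl a => exact one_pos
  | inr w => exact lt_of_lt_of_le (by norm_num) hx.1

/-- the uniform radius and the uniform jets of the local addition of `glob L` -/
theorem exp_pt (h : T.Ok) : ∃ K r0 l0 : ℝ, 0 < K ∧ 0 < r0 ∧ r0 ≤ 1 / 4 ∧ ∀ L, Lg T l0 L →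
    ∀ s, ∀ x ∈ gV T L s, ∀ v : E4, ‖v‖ ≤ r0 * scl T s x → (x, v) ∈ exD (T.glob L) T.χ s ∧
      ∀ j ≤ 7, scl T s x ^ j * ‖iteratedFDeriv ℝ j (dev (T.glob L) T.χ s) (x, v)‖ ≤
        K * scl T s x := by
  have hr := h.r_pos
  have hr1 := h.r_lt
  have cp : ∀ a b : ℝ, IsCompact {x : E4 | a ≤ ‖x‖ ∧ ‖x‖ ≤ b} := fun a b =>
    (isCompact_closedBall (0 : E4) b).of_isClosed_subset
      ((isClosed_le continuous_const continuous_norm).inter
        (isClosed_le continuous_norm continuous_const)) fun x hx => mem_closedBall_zero_iff.2 hx.2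
  have op : ∀ a b : ℝ, IsOpen {x : E4 | a < ‖x‖ ∧ ‖x‖ < b} := fun a b =>
    (isOpen_lt continuous_const continuous_norm).inter (isOpen_lt continuous_norm continuous_const)
  have m1 := eventually_all.2 fun a : T.B => exists_mod (h.core_ok (T.vx a)) (h.core_pou _)
    (Sum.inl a) (isOpen_ball (x := (0 : E4)) (ε := 2)) (isCompact_closedBall 0 (7 / 4))
    (fun x hx => TD.mem_core_inl.2 ⟨rfl, by linarith [mem_closedBall_zero_iff.1 hx]⟩)
    (closedBall_subset_ball (by norm_num)) 7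
  have m2 := eventually_all.2 fun w : T.V => exists_mod (h.core_ok w) (h.core_pou _)
    (Sum.inr w) (op 1 9) (cp (5 / 4) 8) (fun x hx => TD.mem_core_out.2 (by linarith [hx.1]))
    (fun x hx => ⟨by linarith [hx.1], by linarith [hx.2]⟩) 7
  have m3 := eventually_all.2 fun w : {w : T.V // w ≠ T.root} => exists_mod (h.core_ok (T.par w))
    (h.core_pou _) (Sum.inr w.1) (op (T.r / 16) T.r) (cp (T.r / 8) (7 / 8 * T.r))
    (fun x hx => (TD.mem_core_inn (h.par_ne w.2)).2
      ⟨⟨w.2, rfl⟩, by linarith [hx.1], by linarith [hx.2]⟩)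
    (fun x hx => ⟨by linarith [hx.1], by linarith [hx.2]⟩) 7
  obtain ⟨z, ⟨h1, h2, h3⟩, hz, hz1⟩ := ((m1.and (m2.and m3)).and
    (Ioo_mem_nhdsGT (zero_lt_one' ℝ))).exists
  refine ⟨8 ^ 8 / (T.r * z), z / 8, Real.log (48 / T.r), by positivity, by positivity, by linarith,
    fun L hL s x hx v hv => ?_⟩
  have hA := h.glob_ok hL.1
  have hP := h.glob_pou hL.1
  have hl : ∀ w, w ≠ T.root → 48 ≤ T.r * Real.exp (L w) := fun w hw => by
    have := Real.exp_le_exp.2 (hL.2 w hw)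
    rw [Real.exp_log (by positivity), div_le_iff₀ hr] at this
    linarith
  have hs := scl_pos hx
  -- the transfer from a model
  have key : ∀ (v' : T.V) (W : Set E4) (c : ℝ), IsOpen W → 0 < c → (∀ x, c • x ∈ W →
      x ∈ (T.glob L).U s ∧ ∀ u, acc (T.glob L) T.χ s x u =
        c⁻¹ • acc (T.core v') T.χ s (c • x) (c • u)) → T.r / 8 ≤ c * scl T s x →
      c * scl T s x ≤ 8 → (∀ u : E4, ‖u‖ ≤ z → (c • x, u) ∈ stay (T.core v') T.χ s W ∧
        ∀ j ≤ 7, ‖iteratedFDeriv ℝ j (dev (T.core v') T.χ s) (c • x, u)‖ ≤ z⁻¹) →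
      (x, v) ∈ exD (T.glob L) T.χ s ∧
      ∀ j ≤ 7, scl T s x ^ j * ‖iteratedFDeriv ℝ j (dev (T.glob L) T.χ s) (x, v)‖ ≤
        8 ^ 8 / (T.r * z) * scl T s x := fun v' W c hW hc ha b1 b2 hm => by
    have b3 : ‖c • v‖ ≤ z := by
      rw [norm_smul, Real.norm_of_nonneg hc.le]
      nlinarith [mul_le_mul_of_nonneg_left hv hc.le]
    obtain ⟨b4, b5⟩ := hm _ b3
    exact ⟨(ex_transfer hA hP (h.core_ok v') (h.core_pou v') hc.ne' ha (q := (x, v)) b4).1,
      fun j hj => jet_arith hr hc hs hz b1 b2 hj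
        (jet_transfer hA hP (h.core_ok v') (h.core_pou v') hW hc ha (q := (x, v)) b4 j) (b5 j hj)⟩
  cases s with
  | inl a =>
    refine key (T.vx a) (ball 0 2) 1 isOpen_ball one_pos (fun y hy => ?_)
      (by simp only [scl, Sum.elim_inl]; linarith) (by simp [scl]) ?_
    · rw [one_smul] at hy
      exact ⟨hy, fun u => by simpa using acc_ball h hL.1 (mem_ball_zero_iff.1 hy) u⟩
    · rw [one_smul]; exact h1 a x hx
  | inr w =>
    have hs' : scl T (Sum.inr w) x = ‖x‖ := rfl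
    by_cases c1 : ‖x‖ ≤ 8
    · refine key w _ 1 (op 1 9) one_pos (fun y hy => ?_) (by rw [hs']; linarith [hx.1])
        (by rw [hs']; linarith) ?_
      · rw [one_smul] at hy
        exact ⟨⟨hy.1, fun hw => by linarith [hy.2, hl w hw]⟩, fun u => by
          simpa using acc_out h hL.1 hy.1 (fun hw => by linarith [hy.2, hl w hw]) u⟩
      · rw [one_smul]; exact h2 w x ⟨hx.1, c1⟩
    by_cases c2 : w ≠ T.root → ‖x‖ < T.r / 8 * Real.exp (L w)
    · have o1 : ∀ᶠ q : E4 × E4 in 𝓝 (x, v), 8 < ‖q.1‖ ∧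
          (w ≠ T.root → ‖q.1‖ < T.r / 8 * Real.exp (L w)) ∧ ‖q.2‖ < ‖q.1‖ / 2 := by
        refine Eventually.and ((isOpen_lt (g := fun q : E4 × E4 => ‖q.1‖) continuous_const
          (by fun_prop)).mem_nhds (not_le.1 c1)) (Eventually.and ?_ ?_)
        · by_cases hw : w = T.root
          · exact Eventually.of_forall fun _ h' => absurd hw h'
          · filter_upwards [(isOpen_lt (f := fun q : E4 × E4 => ‖q.1‖) (by fun_prop)
              continuous_const).mem_nhds (c2 hw)] with q hq _ using hq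
        · refine (isOpen_lt (f := fun q : E4 × E4 => ‖q.2‖) (g := fun q : E4 × E4 => ‖q.1‖ / 2)
            (by fun_prop) (by fun_prop)).mem_nhds ?_
          change ‖v‖ < ‖x‖ / 2
          rw [hs'] at hv hs
          nlinarith
      have o2 := o1.mono fun q hq => ex_mid h hL.1 hq.1 hq.2.1 hq.2.2
      refine ⟨o2.self_of_nhds.1, fun j hj => ?_⟩
      have o3 : dev (T.glob L) T.χ (Sum.inr w) =ᶠ[𝓝 (x, v)] fun _ => 0 :=
        o2.mono fun q hq => by rw [dev, hq.2, add_sub_cancel_left, sub_self]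
      rw [(o3.iteratedFDeriv ℝ j).eq_of_nhds, iteratedFDeriv_fun_zero]
      simp only [Pi.zero_apply, norm_zero, mul_zero]
      positivity
    · push Not at c2
      obtain ⟨hw, c2⟩ := c2
      have he := Real.exp_pos (-L w)
      have n1 : Real.exp (-L w) * ‖x‖ = ‖Real.exp (-L w) • x‖ := by
        rw [norm_smul, Real.norm_of_nonneg he.le]
      have n2 : T.r / 8 ≤ ‖Real.exp (-L w) • x‖ := not_lt.1 fun h' => by
        linarith [TD.nrm_exp_lt.1 h']
      have n3 : ‖Real.exp (-L w) • x‖ ≤ 7 / 8 * T.r := TD.nrm_exp_le.2 (hx.2 hw)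
      refine key (T.par w) _ _ (op (T.r / 16) T.r) he (fun y hy => ?_) (by rw [hs', n1]; exact n2)
        (by rw [hs', n1]; linarith) (h3 ⟨w, hw⟩ _ ⟨n2, n3⟩)
      have b1 := TD.lt_nrm_exp.1 hy.1
      have b2 := TD.nrm_exp_lt.1 hy.2
      have b3 := hl w hw
      exact ⟨⟨by linarith, fun _ => b2⟩, acc_inn h hL.1 hw (by linarith) b2⟩

theorem cell_pt (h : T.Ok) {s : T.S} {x0 y : E4} (hx : x0 ∈ T.gK L s) (hy : y ∈ B2) :
    0 < rad T s x0 ∧ pt T s x0 y ∈ gV T L s ∧ rad T s x0 ≤ scl T s (pt T s x0 y) ∧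
      scl T s (pt T s x0 y) ≤ 10 * rad T s x0 := by
  have hy' := mem_ball_zero_iff.1 hy
  have a0 : ∀ ρ : ℝ, 0 ≤ ρ → ‖x0 + ρ • y‖ ≤ ‖x0‖ + 5 / 4 * ρ ∧ ‖x0‖ - 5 / 4 * ρ ≤ ‖x0 + ρ • y‖ :=
    fun ρ hρ => by
      have a1 : ‖ρ • y‖ ≤ 5 / 4 * ρ := by
        rw [norm_smul, Real.norm_of_nonneg hρ]; nlinarith
      have a2 := norm_add_le x0 (ρ • y)
      have a3 := norm_sub_le (x0 + ρ • y) (ρ • y)
      rw [add_sub_cancel_right] at a3
      exact ⟨by linarith, by linarith⟩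
  cases s with
  | inl a =>
    have := TD.mem_gK_inl.1 hx
    have b := (a0 (1 / 8) (by norm_num)).1
    exact ⟨by simp [rad], mem_closedBall_zero_iff.2 (b.trans (by linarith)),
      by simp only [rad, scl, Sum.elim_inl]; norm_num, by simp only [rad, scl, Sum.elim_inl]; norm_num⟩
  | inr w =>
    obtain ⟨b1, b2⟩ := TD.mem_gK_inr.1 hx
    obtain ⟨b3, b4⟩ := a0 (‖x0‖ / 8) (by positivity)
    have := mul_pos h.r_pos (Real.exp_pos (L w))
    simp only [pt, rad, scl, Sum.elim_inr]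
    exact ⟨by linarith, ⟨by linarith, fun hw => by linarith [b2 hw]⟩, by linarith, by linarith⟩

open Classical in
/-- **EXP** -/
theorem exp (h : T.Ok) : EXP T := by
  obtain ⟨K, r0, l0, hK, hr0, hr1, H⟩ := exp_pt h
  have hr := h.r_pos
  refine ⟨10 * K, r0, 16 / T.r, l0, by positivity, hr0, by positivity, fun L hL =>
    ⟨fun s q => if ‖q.2‖ ≤ r0 * scl T s q.1 then ex (T.glob L) T.χ s q else q.1 + q.2,
      fun s x0 hx0 => ?_, fun w x v h1 h2 => ?_, fun s s' x F v tF h1 h2 h3 h4 => ?_⟩⟩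
  · have hA := h.glob_ok hL.1
    have hP := h.glob_pou hL.1
    set ρ := rad T s x0 with hρ
    have hO : IsOpen (B2 ×ˢ ball (0 : E4) r0) := isOpen_ball.prod isOpen_ball
    have b1 : ∀ p ∈ B2 ×ˢ ball (0 : E4) r0, ‖ρ • p.2‖ ≤ r0 * scl T s (pt T s x0 p.1) :=
      fun p hp => by
        obtain ⟨c1, -, c2, -⟩ := cell_pt h hx0 hp.1
        rw [norm_smul, Real.norm_of_nonneg c1.le, mul_comm]
        exact mul_le_mul (mem_ball_zero_iff.1 hp.2).le c2 c1.le hr0.le
    have b0 : ∀ p : E4 × E4, ((x0, 0) : E4 × E4) + ρ • p = (pt T s x0 p.1, ρ • p.2) := fun p => by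
      simp [pt, hρ, Prod.ext_iff]
    have hρ0 : 0 < ρ := (cell_pt h hx0 (mem_ball_self (by norm_num))).1
    have b2 : ∀ p ∈ B2 ×ˢ ball (0 : E4) r0, clE T (fun s q => if ‖q.2‖ ≤ r0 * scl T s q.1 then
        ex (T.glob L) T.χ s q else q.1 + q.2) s x0 =ᶠ[𝓝 p]
        fun p => ρ⁻¹ • dev (T.glob L) T.χ s ((x0, 0) + ρ • p) := fun p hp => by
      filter_upwards [hO.mem_nhds hp] with p hp
      rw [b0, clE, ← hρ, if_pos (b1 p hp), dev]
      simp only [pt, ← hρ, smul_sub, smul_add, inv_smul_smul₀ hρ0.ne']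
      abel
    have b3 := fun p (hp : p ∈ B2 ×ˢ ball (0 : E4) r0) =>
      H L hL s _ (cell_pt h hx0 hp.1).2.1 _ (b1 p hp)
    have b4 : ∀ y ∈ B2, ((y, 0) : E4 × E4) ∈ B2 ×ˢ ball (0 : E4) r0 := fun y hy =>
      ⟨hy, mem_ball_self hr0⟩
    have b5 : ∀ y ∈ B2, pt T s x0 y ∈ (T.glob L).U s := fun y hy =>
      gV_U h s (cell_pt h hx0 hy).2.1
    refine ⟨⟨fun p hp => ?_, fun j hj p hp => ?_⟩, fun y hy => ?_, fun y hy v => ?_⟩
    · refine (ContDiffAt.congr_of_eventuallyEq ?_ (b2 p hp)).contDiffWithinAt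
      have := dev_cda hA hP (b3 p hp).1
      rw [← b0] at this
      exact (this.comp p (f := fun p : E4 × E4 => ((x0, 0) : E4 × E4) + ρ • p)
        (by fun_prop)).const_smul _
    · rw [((b2 p hp).iteratedFDeriv ℝ j).eq_of_nhds]
      refine (norm_scale _ _ hρ0 (inv_pos.2 hρ0) j p).trans ?_
      obtain ⟨-, -, c2, c3⟩ := cell_pt h hx0 hp.1
      rw [b0, inv_mul_le_iff₀ hρ0]
      refine (mul_le_mul_of_nonneg_right (pow_le_pow_left₀ hρ0.le c2 j) (norm_nonneg _)).trans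
        (((b3 p hp).2 j hj).trans ?_)
      nlinarith
    · rw [(b2 _ (b4 y hy)).eq_of_nhds, b0, smul_zero, dev_zero hA hP (b5 y hy), smul_zero]
    · have c1 := dev_der hA hP (b5 y hy)
      have c2 : HasFDerivAt (fun p : E4 × E4 => ((x0, 0) : E4 × E4) + ρ • p)
          (ρ • ContinuousLinearMap.id ℝ (E4 × E4)) (y, 0) :=
        ((hasFDerivAt_id _).const_smul ρ).const_add _
      rw [show ((pt T s x0 y, 0) : E4 × E4) = (x0, 0) + ρ • ((y, 0) : E4 × E4) by
        rw [b0, smul_zero]] at c1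
      have c3 : HasFDerivAt (fun p => ρ⁻¹ • dev (T.glob L) T.χ s ((x0, 0) + ρ • p)) _ (y, 0) :=
        (HasFDerivAt.comp (g := dev (T.glob L) T.χ s)
          (f := fun p : E4 × E4 => ((x0, 0) : E4 × E4) + ρ • p) (y, 0) c1 c2).const_smul ρ⁻¹
      rw [(b2 _ (b4 y hy)).fderiv_eq, c3.fderiv]
      simp
  · split_ifs with h3
    · have c1 : 16 < 16 / T.r := by rw [lt_div_iff₀ hr]; linarith [h.r_lt]
      refine (ex_mid h hL.1 (q := (x, v)) (by change 8 < ‖x‖; linarith) (fun hw => ?_) ?_).2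
      · have := h2 hw
        rw [div_mul_eq_mul_div, div_le_iff₀ hr] at this
        change ‖x‖ < _
        linarith
      · change ‖v‖ ≤ r0 * ‖x‖ at h3
        change ‖v‖ < ‖x‖ / 2
        nlinarith
    · rfl
  · rw [if_pos h3, if_pos h4]
    exact ex_compat (h.glob_ok hL.1) (h.glob_pou hL.1) tF (H L hL s x (gU_gV h s h1) v h3).1
      (H L hL s' _ (gU_gV h s' h2) _ h4).1

end Crest.Agent.N207.Ga

end
end

-- ▼ part N207/Ga/Set
section

/-!
# Row 207, GAUGE (helper76): the global setting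
-/

set_option autoImplicit false

open scoped ContDiff
open Metric Set Filter Topology
open Crest.GeometryTopology.CoordMetric
open Crest.Agent.NLib.Ell Crest.Agent.N207.I Crest.Agent.N207.CB Crest.Agent.N207.N
  Crest.Agent.N207.Lg Crest.Agent.N207.K

noncomputable section

namespace Crest.Agent.N207.Ga

variable {M : Type*} {T : TD M}

theorem CellG.monoK {K K' η κ : ℝ} {gh Gh : MetricField 4} (c : CellG K η κ gh Gh) (h : K ≤ K')
    (hκ : 0 ≤ κ) : CellG K' η κ gh Gh :=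
  have h' := mul_le_mul_of_nonneg_right h hκ
  ⟨c.riem, c.riemG, fun a b => (c.gb a b).mono h, fun a b => (c.gi a b).mono h,
    fun a b d => (c.dgi a b d).mono h', fun k a b => (c.chr k a b).mono h', c.ric, c.Gi, c.chrG⟩

theorem kap_bd (h : T.Ok) {γ : ℝ} (hγ : 0 ≤ γ) {L : T.V → ℝ} {s : T.S} {x0 : E4}
    (hx : x0 ∈ T.gK L s) : 0 ≤ kap T γ L s x0 ∧ kap T γ L s x0 ≤ 2 := by
  cases s with
  | inl a => simp [kap]
  | inr w =>
    refine ⟨wt_nonneg, ?_⟩
    have h1 : ‖x0‖ ^ (-γ) ≤ 1 :=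
      Real.rpow_le_one_of_one_le_of_nonpos (by linarith [hx.1]) (by linarith)
    simp only [kap, Sum.elim_inr, TD.wt]
    split_ifs with hw
    · linarith
    · have h2 : Real.exp (-L w) * ‖x0‖ ≤ 1 := by
        have h3 := hx.2 hw
        rw [Real.exp_neg, inv_mul_le_iff₀ (Real.exp_pos _)]
        nlinarith [h.r_lt, h.r_pos, Real.exp_pos (L w)]
      linarith [Real.rpow_le_one (by positivity) h2 hγ]

theorem ex_cell {K r0 R1 γ : ℝ} (hγ : 0 ≤ γ) (hK : 0 ≤ K) (hR : 0 < R1) {L : T.V → ℝ}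
    {E : T.S → E4 × E4 → E4} (hE : Ex T K r0 R1 L E) {s : T.S} {x0 : E4} (hx : x0 ∈ T.gK L s)
    {K' : ℝ} (hK' : K / min 1 ((2 * R1) ^ (-γ)) ≤ K') :
    CellE (K' * kap T γ L s x0) r0 (clE T E s x0) := by
  have c := hE.cell s x0 hx
  have c0 : 0 < min 1 ((2 * R1) ^ (-γ)) := lt_min one_pos (by positivity)
  have K0 : 0 ≤ K' := (div_nonneg hK c0.le).trans hK'
  have up : min 1 ((2 * R1) ^ (-γ)) ≤ kap T γ L s x0 →
      CellE (K' * kap T γ L s x0) r0 (clE T E s x0) := fun h => by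
    refine ⟨c.db.mono ?_, c.zero, c.dzero⟩
    rw [div_le_iff₀ c0] at hK'
    exact hK'.trans (mul_le_mul_of_nonneg_left h K0)
  cases s with
  | inl a => exact up (min_le_left _ _)
  | inr w =>
    have x0p : 0 < ‖x0‖ := by linarith [hx.1]
    by_cases h1 : 2 * R1 ≤ ‖x0‖
    swap
    · refine up ((min_le_right _ _).trans ?_)
      have := Real.rpow_le_rpow_of_nonpos x0p (not_le.1 h1).le (neg_nonpos.2 hγ)
      simp only [kap, Sum.elim_inr, TD.wt]
      split_ifs
      · linarith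
      · linarith [Real.rpow_nonneg (mul_pos (Real.exp_pos (-L w)) x0p).le γ]
    by_cases h2 : w ≠ T.root → 2 * R1 * ‖x0‖ ≤ Real.exp (L w)
    swap
    · rw [Classical.not_imp, not_le] at h2
      refine up ((min_le_right _ _).trans ?_)
      have h3 : (2 * R1)⁻¹ ≤ Real.exp (-L w) * ‖x0‖ := by
        rw [Real.exp_neg, le_inv_mul_iff₀ (Real.exp_pos _), mul_inv_le_iff₀ (by positivity)]
        linarith [h2.2]
      have h4 := Real.rpow_le_rpow (by positivity) h3 hγ
      rw [Real.inv_rpow (by positivity), ← Real.rpow_neg (by positivity)] at h4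
      simp only [kap, Sum.elim_inr, TD.wt, if_neg h2.1]
      linarith [Real.rpow_nonneg x0p.le (-γ)]
    have z : ∀ q ∈ B2 ×ˢ (univ : Set E4), clE T E (Sum.inr w) x0 q = 0 := by
      rintro ⟨y, v⟩ ⟨hy, -⟩
      have hy : ‖y‖ < 5 / 4 := mem_ball_zero_iff.1 hy
      have n1 : ‖(‖x0‖ / 8) • y‖ ≤ ‖x0‖ / 2 := by
        rw [norm_smul, Real.norm_eq_abs, abs_of_pos (by positivity)]; nlinarith
      have n2 := norm_add_le x0 ((‖x0‖ / 8) • y)
      have n3 := norm_sub_le (x0 + (‖x0‖ / 8) • y) ((‖x0‖ / 8) • y)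
      rw [add_sub_cancel_right] at n3
      simp only [clE, pt, rad, Sum.elim_inr]
      rw [hE.flat w _ _ (by linarith) fun hw => le_trans (by nlinarith) (h2 hw), add_assoc,
        add_sub_cancel_left, ← smul_add, inv_smul_smul₀ (by positivity)]
      simp
    refine ⟨⟨c.db.sm, fun j _ q hq => ?_⟩, c.zero, c.dzero⟩
    have e : clE T E (Sum.inr w) x0 =ᶠ[𝓝 q] fun _ => 0 :=
      mem_of_superset ((isOpen_ball.prod isOpen_univ).mem_nhds ⟨hq.1, mem_univ _⟩) z
    rw [(e.iteratedFDeriv ℝ j).eq_of_nhds, iteratedFDeriv_fun_zero]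
    simpa [kap] using mul_nonneg K0 (wt_nonneg (T := T) (γ := γ) (L := L) (w := w) (x := x0))

theorem set {ι : Type} {g : T.V → Fam T} {γ : ℝ} {l : Filter ι} {L : ι → T.V → ℝ} {G : ι → Fam T}
    (h : T.Ok) (h0 : 0 < γ) (hS : T.Seq g γ l L G) (hF : ∀ᶠ i in l, Sk.Flat T (G i))
    (hM : MET T g) (hE : EXP T) (hD : DATA T g γ l L G) : SET T g γ l L G := by
  have lg : ∀ l0, ∀ᶠ i in l, Lg T l0 (L i) := fun l0 => by
    have e : ∀ᶠ i in l, ∀ w, w ≠ T.root → l0 ≤ L i w := eventually_all.2 fun w => by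
      by_cases hw : w = T.root
      · exact Eventually.of_forall fun _ h' => absurd hw h'
      · exact ((hS.top w hw).eventually (eventually_ge_atTop l0)).mono fun _ h' _ => h'
    exact (hS.met.and e).mono fun i hi => ⟨hi.1.1, hi.2⟩
  obtain ⟨T1, hM⟩ := hM
  obtain ⟨Ke, r0, R1, l1, Ke0, r00, R10, hE⟩ := hE
  obtain ⟨Kd, C, T2, Kd0, C0, hD⟩ := hD
  refine ⟨lg, max Kd (Ke / min 1 ((2 * R1) ^ (-(γ / 5)))), r0, C, max T1 T2,
    Kd0.le.trans (le_max_left _ _), r00, C0, fun T0 hT => ?_⟩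
  obtain ⟨l0, hM⟩ := hM T0 ((le_max_left _ _).trans hT)
  filter_upwards [lg l0, lg l1, hD T0 ((le_max_right _ _).trans hT), hF, hS.met]
    with i a1 a2 a3 ⟨R', a4⟩ a5
  obtain ⟨E, hE⟩ := hE _ a2
  have γ0 : 0 ≤ γ / 5 := by positivity
  refine ⟨E, max (max 2 R') (max R1 (Real.exp (T0 + 1 / 10))), h, a5.1,
    Kd0.le.trans (le_max_left _ _), (le_max_left _ _).trans (le_max_left _ _), hM _ a1, a5.2,
    fun s x0 hx => kap_bd h γ0 hx,
    fun s x0 hx => (a3 s x0 hx).monoK (le_max_left _ _) (kap_bd h γ0 hx).1,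
    fun s x0 hx => ex_cell γ0 Ke0.le R10 hE hx (le_max_right _ _), hE.compat, fun x hx => ?_⟩
  simp only [max_le_iff] at hx
  refine ⟨a4 x hx.1.2, ?_, fun v => hE.flat _ x v hx.2.1 fun hw => absurd rfl hw⟩
  rw [gbL_root]
  refine gb_one ?_
  have := (Real.le_log_iff_exp_le (by linarith [hx.1.1])).2 hx.2.2
  rw [CB.tau, if_pos rfl]; linarith

end Crest.Agent.N207.Ga

end
end

-- ▼ part N207/Ga/Lim

/-!
# Row 207, GAUGE (helper29): the leaf `LIM`
-/

set_option autoImplicit false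

open scoped ContDiff Matrix
open Metric Set Filter Topology
open Crest.GeometryTopology.CoordMetric Crest.Agent.R202.Tens
open Crest.Agent.NLib.Ell Crest.Agent.N207.I Crest.Agent.N207.CB Crest.Agent.N207.N
  Crest.Agent.N207.Lg

noncomputable section

namespace Crest.Agent.N207.Ga

namespace Lm

variable {V W : Set E4} {C : ℝ} {k : ℕ} {G g : MetricField 4} {x : E4}

theorem pd_lim (hV : IsOpen V) {f : ℕ → E4 → ℝ} {f0 : E4 → ℝ}
    (h : ∀ n, CKA (1 / 2) V (k + 1) C (f n))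
    (t : ∀ x ∈ V, Tendsto (fun n => f n x) atTop (𝓝 (f0 x))) (i : Fin 4) :
    ∀ x ∈ V, Tendsto (fun n => pderiv i (f n) x) atTop (𝓝 (pderiv i f0 x)) := fun _ hx =>
  (CKA.limit_one hV (by norm_num) (Eventually.of_forall fun n => (h n).of_le (by omega)) t hx).2 _

theorem proj (hV : IsOpen V) {f : E4 → E4} (h : CKA (1 / 2) V k C f) (m : Fin 4) :
    CKA (1 / 2) V k C fun y => f y m :=
  h.clm1 hV (EuclideanSpace.proj m : E4 →L[ℝ] ℝ)
    (ContinuousLinearMap.opNorm_le_bound _ zero_le_one fun v => by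
      simpa using PiLp.norm_apply_le v m)

/-- the equation passes to the limit -/
theorem eq_lim (hV : IsOpen V) (hg : IsRiemannianOn g W) {u : ℕ → E4 → E4} {v : E4 → E4}
    (h : ∀ n, CKA (1 / 2) V 4 C (u n))
    (t : ∀ x ∈ V, Tendsto (fun n => u n x) atTop (𝓝 (v x))) (hx : x ∈ V) (hv : v x ∈ W)
    (j : Fin 4) : Tendsto (fun n => ∑ l, (∑ m, g (u n x) m l * pderiv j (fun z => u n z m) x) *
      tau G g (u n) x l) atTop
      (𝓝 (∑ l, (∑ m, g (v x) m l * pderiv j (fun z => v z m) x) * tau G g v x l)) := by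
  have t0 : ∀ m, ∀ x ∈ V, Tendsto (fun n => u n x m) atTop (𝓝 (v x m)) := fun m x hx =>
    ((EuclideanSpace.proj m : E4 →L[ℝ] ℝ).continuous.tendsto _).comp (t x hx)
  have t1 := fun m i => pd_lim hV (fun n => proj hV (h n) m) (t0 m) i
  have t2 := fun m i a => pd_lim hV (fun n => cpd (proj hV (h n) m) i) (t1 m i) a x hx
  have c : ∀ {f : E4 → ℝ}, ContDiffOn ℝ ∞ f W → Tendsto (fun n => f (u n x)) atTop (𝓝 (f (v x))) :=
    fun hf => (hf.continuousOn.continuousAt (hg.isOpen.mem_nhds hv)).tendsto.comp (t x hx)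
  refine tendsto_finsetSum _ fun l _ => (tendsto_finsetSum _ fun m _ =>
    (c (hg.contDiffOn m l)).mul (t1 m j x hx)).mul ?_
  exact tendsto_finsetSum _ fun a _ => tendsto_finsetSum _ fun d _ => tendsto_const_nhds.mul
    (((t2 l d a).add (tendsto_finsetSum _ fun p _ => tendsto_finsetSum _ fun q _ =>
      (c (sm_chr hg l p q)).mul ((t1 p a x hx).mul (t1 q d x hx)))).sub
      (tendsto_finsetSum _ fun e _ => (t1 l e x hx).mul tendsto_const_nhds))

theorem zero_of {A : E4 →L[ℝ] E4} (hA : Function.Injective A) {H : Matrix (Fin 4) (Fin 4) ℝ}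
    (hH : H.PosDef) {τ : Fin 4 → ℝ}
    (h : ∀ j, ∑ l, (∑ m, H m l * A (EuclideanSpace.single j 1) m) * τ l = 0) (n : Fin 4) :
    τ n = 0 := by
  obtain ⟨X, hX⟩ := (LinearMap.injective_iff_surjective (f := A.toLinearMap)).1 hA
    (WithLp.toLp 2 τ)
  have e : ∀ m, τ m = ∑ j, A (EuclideanSpace.single j 1) m * X j := fun m =>
    (congrArg (fun Y : E4 => Y m) hX).symm.trans (vec_sum X A m)
  by_contra hn
  refine (hH.dotProduct_mulVec_pos (x := τ) fun e0 => hn (congrFun e0 n)).ne' ?_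
  have e2 : star τ ⬝ᵥ H *ᵥ τ =
      ∑ j, (∑ l, (∑ m, H m l * A (EuclideanSpace.single j 1) m) * τ l) * X j := by
    simp only [star_trivial, dotProduct, Matrix.mulVec, Finset.sum_mul]
    rw [Finset.sum_congr rfl fun m _ => congrArg (· * ∑ l, H m l * τ l) (e m)]
    simp only [Finset.sum_mul]
    rw [Finset.sum_comm]
    refine Finset.sum_congr rfl fun j _ => ?_
    simp only [Finset.mul_sum]
    rw [Finset.sum_comm]
    exact Finset.sum_congr rfl fun l _ => Finset.sum_congr rfl fun m _ => by ring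
  rw [e2]
  simp only [h, zero_mul, Finset.sum_const_zero]

theorem tau_cs {c : ℝ} (hc : c ≠ 0) (G g : MetricField 4) (u : E4 → E4) (y : E4) (n : Fin 4) :
    tau (fun y => c • G y) (fun y => c • g y) u y n = c⁻¹ * tau G g u y n := by
  simp only [tau, chr_csmul hc, minv_smul hc, Matrix.smul_apply, smul_eq_mul, Finset.mul_sum,
    mul_assoc]

theorem chr_one (h : ∀ᶠ y in 𝓝 x, G y = 1) : christoffel G x = 0 := by
  rw [chr_congr (G' := fun _ => 1) h]
  funext k i j
  simp [christoffel, pd_const]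

/-- from the cell to the chart -/
theorem chart {x0 : E4} {r : ℝ} (hr : 0 < r) : ∃ C : ℝ → ℝ, ∀ (ε : ℝ) (u : E4 → E4),
    CKA (1 / 2) B1 4 ε (fun y => r⁻¹ • (u (x0 + r • y) - (x0 + r • y))) →
      CKA (1 / 2) ((fun x => -(r⁻¹ • x0) + r⁻¹ • x) ⁻¹' B1) 4 (C ε) u := by
  refine ⟨_, fun ε u h => (CKA.affine ob (by norm_num) (by norm_num)
    ((CKA.const x0).add ob (((cka_id 4).add ob h).smul ob r)) (-(r⁻¹ • x0)) (le_max_left _ 1)
    (le_max_right _ _)).congr (ob.preimage (by fun_prop)) fun x _ => ?_⟩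
  simp [smul_add, smul_inv_smul₀ hr.ne']

variable {M : Type*} {T : TD M} {L : T.V → ℝ} {s : T.S} {x0 y : E4} {ε : ℝ}
  {v : T.S → E4 → E4}

theorem scl_le (hy : y ∈ B1) (h0 : x0 ∈ T.gK L s) :
    0 ≤ scl T s (x0 + rad T s x0 • y) ∧ scl T s (x0 + rad T s x0 • y) ≤ 9 * rad T s x0 := by
  have hr := Sc.rad_pos h0
  cases s with
  | inl a => simp only [rad, scl, Sum.elim_inl]; norm_num
  | inr w =>
    have h1 := norm_add_le x0 (rad T (Sum.inr w) x0 • y)
    rw [norm_smul, Real.norm_of_nonneg hr.le] at h1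
    have h2 := mul_le_mul_of_nonneg_left (mem_ball_zero_iff.1 hy).le hr.le
    simp only [rad, scl, Sum.elim_inr] at h1 h2 ⊢
    exact ⟨norm_nonneg _, by linarith⟩

theorem dsp_cka (h0 : x0 ∈ T.gK L s) (h : CKA (1 / 2) B1 4 ε (clU T v s x0)) :
    CKA (1 / 2) B1 4 (rad T s x0 * ε) fun y =>
      v s (x0 + rad T s x0 • y) - (x0 + rad T s x0 • y) := by
  have hr := Sc.rad_pos h0
  have := h.smul ob (rad T s x0)
  rw [abs_of_pos hr] at this
  exact this.congr ob fun y _ => by simp only [clU, pt, smul_inv_smul₀ hr.ne']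

section
variable (hL : T.Long L) (hε : ε ≤ 1 / 8)
  (cv : ∀ s, ∀ x0 ∈ T.gK L s, CKA (1 / 2) B1 4 ε (clU T v s x0))
include hL cv

theorem jet (hx : x ∈ gU T L 1 s) {j : ℕ} (hj : j ≤ 4) :
    scl T s x ^ j * ‖iteratedFDeriv ℝ j (fun y => v s y - y) x‖ ≤ 36 ^ 4 * ε * scl T s x := by
  obtain ⟨x0, h0, y, hy, rfl, h2⟩ := Sc.exists_cell hL hx
  have hr := Sc.rad_pos h0
  have e0 := (cv s x0 h0).nonneg zB
  have h1 := (((dsp_cka h0 (cv s x0 h0)).of_le hj).ho_iter ob).bdd y hy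
  rw [hd_iter (fun y => v s y - y) hr.ne', norm_smul, Real.norm_of_nonneg (pow_pos hr j).le] at h1
  obtain ⟨h3, h4⟩ := scl_le hy h0
  calc _ ≤ (9 * rad T s x0) ^ j * _ :=
        mul_le_mul_of_nonneg_right (pow_le_pow_left₀ h3 h4 j) (norm_nonneg _)
    _ = 9 ^ j * (rad T s x0 ^ j * _) := by rw [mul_pow, mul_assoc]
    _ ≤ 9 ^ j * _ := mul_le_mul_of_nonneg_left h1 (by positivity)
    _ = 36 ^ j * ε * rad T s x0 := by
        rw [show (36 : ℝ) = 9 * 4 by norm_num, mul_pow]; push_cast; ring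
    _ ≤ _ := mul_le_mul (mul_le_mul_of_nonneg_right (pow_le_pow_right₀ (by norm_num) hj) e0) h2
        hr.le (by positivity)

include hε

theorem near (hx : x ∈ gU T L 1 s) : ‖v s x - x‖ ≤ scl T s x / 8 := by
  obtain ⟨x0, h0, y, hy, rfl, h2⟩ := Sc.exists_cell hL hx
  have h1 := (dsp_cka h0 (cv s x0 h0)).bdd hy
  have := mul_le_mul_of_nonneg_left hε (Sc.rad_pos h0).le
  linarith

theorem maps (h : T.Ok) (hx : x ∈ gU T L 1 s) : v s x ∈ (T.glob L).U s := by
  obtain ⟨x0, h0, y, hy, rfl, -⟩ := Sc.exists_cell hL hx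
  have h2 := Sc.pt_mem h0 (by norm_num) (by norm_num)
    (mem_ball_zero_iff.1 (mem_of_small (cv s x0 h0) hε hy))
  rw [smul_add, clU, smul_inv_smul₀ (Sc.rad_pos h0).ne', pt, ← add_assoc, add_sub_cancel] at h2
  exact gU_sub' h (by norm_num) s h2

theorem imm (hx : x ∈ gU T L 1 s) : Function.Injective (fderiv ℝ (v s) x) := by
  obtain ⟨x0, h0, y, hy, rfl, -⟩ := Sc.exists_cell hL hx
  have hr := (Sc.rad_pos h0).ne'
  have h1 := inj_of_small (cv s x0 h0) hε hy
  rwa [show (fun y => y + clU T v s x0 y) =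
      fun y => (rad T s x0)⁻¹ • (v s (x0 + rad T s x0 • y) - x0) from funext fun y => by
    simp only [clU, pt, smul_sub, smul_add, inv_smul_smul₀ hr]; abel, fderiv_cell hr] at h1

end

end Lm

open Lm in
/-- **leaf LIM** -/
theorem lim {M : Type*} (T : TD M) (hb : BOOT) (hh : HDEC) : LIM T := by
  refine ⟨36 ^ 4, by norm_num, fun L gb G ε R m u h hL mb mG hε hR mor cu cau eq fl => ?_⟩
  have hA := h.glob_ok hL
  obtain ⟨v, t⟩ : ∃ v : T.S → E4 → E4, ∀ s, ∀ x ∈ gU T L 1 s,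
      Tendsto (fun n => u n s x) atTop (𝓝 (v s x)) :=
    ⟨fun s x => limUnder atTop fun n => u n s x, fun s x hx => (cau s x hx).tendsto_limUnder⟩
  have cell : ∀ s, ∀ x0 ∈ T.gK L s, ∀ y ∈ B1, x0 + rad T s x0 • y ∈ gU T L 1 s :=
    fun s x0 h0 y hy => Sc.pt_mem h0 zero_le_one (by norm_num) (mem_ball_zero_iff.1 hy)
  have cv : ∀ s, ∀ x0 ∈ T.gK L s, CKA (1 / 2) B1 4 ε (clU T v s x0) := fun s x0 h0 =>
    CKA.limit ob (by norm_num) (Eventually.of_forall fun n => cu n s x0 h0) fun y hy =>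
      ((t s _ (cell s x0 h0 y hy)).sub_const _).const_smul _
  have loc : ∀ s, ∀ x ∈ gU T L 1 s, ∃ V C, IsOpen V ∧ x ∈ V ∧ V ⊆ gU T L 1 s ∧
      (∀ n, CKA (1 / 2) V 4 C (u n s)) ∧ CKA (1 / 2) V 4 C (v s) := fun s x hx => by
    obtain ⟨x0, h0, y, hy, rfl, -⟩ := Sc.exists_cell hL hx
    have hr := Sc.rad_pos h0
    obtain ⟨C, hC⟩ := chart (x0 := x0) hr
    refine ⟨_, C ε, ob.preimage (by fun_prop), ?_, fun z hz => ?_, fun n => hC _ _ (cu n s x0 h0),
      hC _ _ (cv s x0 h0)⟩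
    · simpa [smul_add, inv_smul_smul₀ hr.ne'] using hy
    · simpa [smul_add, smul_inv_smul₀ hr.ne'] using cell s x0 h0 _ hz
  have rG : ∀ s, IsRiemannianOn (G s) (gU T L 1 s) := fun s =>
    riemOn_mono (mG.riem s) (gU_open s) (gU_sub h le_rfl s)
  have ta : ∀ s, ∀ x ∈ gU T L 1 s, ∀ n, tau (G s) (rt T L gb s) (v s) x n = 0 := fun s x hx => by
    obtain ⟨V, C, hV, hxV, hs, c1, c2⟩ := loc s x hx
    have hv := maps hL hε cv h hx
    refine zero_of (imm hL hε cv hx) ((mb.riem s).posDef _ hv) fun j => ?_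
    have e1 := eq_lim (G := G s) hV (mb.riem s) c1 (fun z hz => t s z (hs hz)) hxV hv j
    have e2 := (eq s x hx j).congr fun n => ten_tau (rG s) (pull_pbG (gU_open s) (mb.riem s)
      ((mor n).maps s) ((mor n).sm s) ((mor n).imm s)) hx j
    simpa only [pd_cmp (c2.diffAt hV hxV)] using tendsto_nhds_unique e1 e2
  have sm : ∀ s, ContDiffOn ℝ ∞ (v s) (gU T L 1 s) := fun s =>
    hb _ _ _ _ _ (rG s) (mb.riem s) (fun x hx => by
      obtain ⟨V, C, hV, hxV, -, -, c2⟩ := loc s x hx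
      exact (((c2.of_le (j := 3) (by norm_num)).contDiffOn hV (by norm_num)).contDiffAt
        (hV.mem_nhds hxV)).contDiffWithinAt) (fun x hx => maps hL hε cv h hx) (ta s)
  refine ⟨v, ⟨sm, fun s x hx => maps hL hε cv h hx, fun s x hx j hj => jet hL cv hx hj,
    fun s s' x hx x' hx' e => ?_, ?_⟩, fun s x hx => ?_⟩
  · by_contra ne
    obtain ⟨n, hn⟩ := (((t s x hx).prodMk_nhds (t s' x' hx')).eventually
      (hA.t2 s s' _ (maps hL hε cv h hx) _ (maps hL hε cv h hx') ne)).exists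
    exact hn ((mor n).cmp s s' x hx x' hx' e)
  · have O : ∀ a : ℝ, IsOpen {x : E4 | a < ‖x‖} := fun a => isOpen_lt continuous_const continuous_norm
    have sub : ∀ x : E4, 2 * R < ‖x‖ → x ∈ gU T L 1 (Sum.inr T.root) := fun x hx =>
      mem_gU_inr.2 ⟨by linarith, fun k => (k rfl).elim⟩
    have sw : ContDiffOn ℝ ∞ (fun y => v (Sum.inr T.root) y - y) {x | 2 * R < ‖x‖} :=
      ((sm _).mono sub).sub contDiffOn_id
    refine ⟨2 * (2 * R), hh _ (2 * R) m (by linarith) sw (fun x hx n => ?_) fun x hx n => ?_⟩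
    · have h1 := near hL hε cv (sub x hx)
      have h2 := norm_sub_norm_le x (v (Sum.inr T.root) x)
      rw [norm_sub_rev] at h2
      have h3 : R < ‖v (Sum.inr T.root) x‖ := by
        simp only [scl, Sum.elim_inr] at h1; linarith
      have c1 := chr_one (((O R).eventually_mem (show R < ‖x‖ by linarith)).mono
        fun y hy => (fl y (le_of_lt hy)).1)
      have c2 : christoffel (rt T L gb (Sum.inr T.root)) (v (Sum.inr T.root) x) = 0 :=
        chr_one (((O R).eventually_mem h3).mono fun y hy => by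
          rw [rt, (fl y (le_of_lt hy)).2.1, show T.un (Sum.inr T.root) = T.root from rfl,
            h.eps_root, one_pow, one_smul])
      have h4 := ta _ x (sub x hx) n
      simp only [tau, c1, c2, (fl x (by linarith)).1, inv_one, Pi.zero_apply, zero_mul, mul_zero,
        Finset.sum_const_zero, add_zero, sub_zero, Matrix.one_apply, ite_mul, one_mul,
        Finset.sum_ite_eq, Finset.mem_univ, if_true] at h4
      refine Eq.trans (Finset.sum_congr rfl fun a _ => ?_) h4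
      have h5 := pd_congr_on a (O _) hx fun y hy =>
        pd_id_add ((sw.contDiffAt ((O _).mem_nhds hy)).differentiableAt (by simp)) a n
      simp only [add_sub_cancel] at h5
      rw [h5]
      simp only [pderiv, fderiv_const_add]
      rfl
    · exact (PiLp.norm_apply_le (v (Sum.inr T.root) x - x) n).trans (le_of_tendsto
        ((t _ x (sub x hx)).sub_const x).norm
        (Eventually.of_forall fun n => (fl x (by linarith)).2.2 n))
  · have hc : 0 < (T.eps L (T.un s) ^ 2)⁻¹ := inv_pos.2 (pow_pos (TD.eps_pos L _) 2)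
    have rs : ∀ {H : MetricField 4} {U : Set E4}, IsRiemannianOn H U →
        IsRiemannianOn (fun x => (T.eps L (T.un s) ^ 2)⁻¹ • H x) U := fun k =>
      ⟨k.isOpen, fun a b => contDiffOn_const.mul (k.contDiffOn a b),
        fun x hx => (k.posDef x hx).smul hc⟩
    rw [← nrm_rt T L gb]
    exact gauT_of_tau (rs (rG s)) (pull_pbG (gU_open s) (rs (mb.riem s))
      (fun x hx => maps hL hε cv h hx) (sm s) fun x hx => imm hL hε cv hx) hx fun n =>
        (tau_cs hc.ne' _ _ _ _ n).trans (by rw [ta s x hx n, mul_zero])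

end Crest.Agent.N207.Ga

end
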