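import Crest.Agent.N207.Ga.Loc1
import Crest.Agent.N207.K.Hd1
import Crest.Agent.N207.Ga.St3

-- ▼ part N207/Ga/Loc2
section

/-!
# Row 207, GAUGE (helper3): the nonlinear estimate on one cell
-/

set_option autoImplicit false

open scoped ContDiff
open Metric Set Filter Topology Finset
open Crest.GeometryTopology.CoordMetric Crest.Agent.R202.Tens
open Crest.Agent.NLib.Ell Crest.Agent.N207.CB Crest.Agent.N207.K

noncomputable section

namespace Crest.Agent.N207.Ga

variable {K η κ M δ d r0 : ℝ} {gh Gh : MetricField 4} {e : E4 × E4 → E4} {o o1 o2 : Tn 4 1}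

local notation "δ₁" => (1 : Matrix (Fin 4) (Fin 4) ℝ)

/-- a common bound of all the leaves -/
def cB (K : ℝ) : ℝ := 2 * cA K + cN (cA K) * K + K + 2

/-- bound of the inner bracket of `tau` -/
def c1 (B : ℝ) : ℝ := B + 4 * (4 * (48 * (B * (48 * (B * B))))) + 4 * (48 * (B * B))

/-- bound of `tau` -/
def c2 (B : ℝ) : ℝ := 4 * (4 * (48 * (B * c1 B)))

/-- bound of the coefficient in front of `tau` -/
def c3 (B : ℝ) : ℝ := 4 * (48 * (B * B))

/-- the constant of `loc_lip` -/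
def cT (K : ℝ) : ℝ := 4 * (48 * (c3 (cB K) * c2 (cB K))) + 4096 * (c3 (cB K) * cB K) +
  32 * (c3 (cB K) * (128 * (c1 (cB K) + 32 * (cB K * cB K)))) + 32 * cA K

theorem cB_ge (hK : 0 ≤ K) : 2 * cA K ≤ cB K ∧ cN (cA K) * K + 1 ≤ cB K ∧ K + 1 ≤ cB K := by
  have h1 := cA_ge hK
  have h2 := mul_nonneg (cN_pos h1).le hK
  unfold cB
  exact ⟨by linarith, by linarith, by linarith⟩

theorem cT_parts (hK : 0 ≤ K) : 0 < cB K ∧ 0 < c1 (cB K) ∧ 0 < c2 (cB K) ∧ 0 < c3 (cB K) := by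
  have h : 0 < cB K := by linarith [(cB_ge hK).2.2]
  have h1 : 0 < c1 (cB K) := by unfold c1; positivity
  exact ⟨h, h1, by unfold c2; positivity, by unfold c3; positivity⟩


theorem J.cg {C : ℝ} {a0 a1 a2 a' : E4 → ℝ} (h : J δ d C a0 a1 a2 a') (b0 b' : E4 → ℝ)
    (e0 : ∀ y ∈ B1, b0 y = a0 y) (e' : ∀ y ∈ B1, b' y = a' y) : J δ d C b0 a1 a2 b' :=
  ⟨h.h0.congr ob e0, h.h1.congr ob fun y hy => by rw [e0 y hy],
    h.h2.congr ob fun y hy => by rw [e0 y hy], h.h3.congr ob e',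
    h.h4.congr ob fun y hy => by rw [e' y hy]⟩

/-- the Lie derivative of the connection -/
def lieC (g : MetricField 4) (v : E4 → E4) (k a b : Fin 4) (y : E4) : ℝ :=
  pderiv a (pderiv b fun z => v z k) y +
    ∑ l, (pderiv l (fun z => christoffel g z k a b) y * v y l +
      christoffel g y k l b * pderiv a (fun z => v z l) y +
      christoffel g y k a l * pderiv b (fun z => v z l) y -
      christoffel g y l a b * pderiv l (fun z => v z k) y)

theorem tau_cell {z : E4 → E4} {a : ℝ} (h : CKA (1 / 2) B1 4 a z) {y : E4} (hy : y ∈ B1)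
    (n : Fin 4) : tau Gh gh (fun y => y + z y) y n =
      ∑ a, ∑ d, (Gh y)⁻¹ a d * (pderiv a (pderiv d fun y => z y n) y +
        ∑ p, ∑ q, christoffel gh (y + z y) n p q * ((δ₁ p a + pderiv a (fun y => z y p) y) *
          (δ₁ q d + pderiv d (fun y => z y q) y)) -
        ∑ l, (δ₁ n l + pderiv l (fun y => z y n) y) * christoffel Gh y l a d) := by
  simp only [tau, pd_id_add (h.diffAt ob hy), pd2_id_add h hy]

theorem loc_lip (hl : LIE) (c : CellG K η κ gh Gh) (E : CellE (K * κ) r0 e) (hK : 0 ≤ K)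
    (hη1 : η ≤ 1) (hκ0 : 0 ≤ κ) (hκ : κ ≤ 2) (s : Sm K r0 δ) (h1 : X1 κ δ o1) (ho1 : SmT o1 B1)
    (h2 : X1 κ δ o2) (ho2 : SmT o2 B1) (h : X1 κ d (o1 - o2)) :
    Y1 κ (cT K * (η + δ) * d) (TT gh Gh e o1 - TT gh Gh e o2 - lapT gh (o1 - o2)) := by
  intro j
  have D := dp c E hK hκ0 hκ s h1 ho1 h2 ho2 h
  have p1 := uu_pull c E hK hκ0 hκ s h1 ho1
  have p2 := uu_pull c E hK hκ0 hκ s h2 ho2
  have hG := riemOn_mono c.riemG ob b12
  have hg := riemOn_mono c.riem ob b12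
  have hA := cA_ge hK
  have hη : 0 ≤ η := (c.Gi 0 0).nonneg zB
  have hδ := s.nn
  have hδ1 := s.le1 hK
  have hd := h.nn
  obtain ⟨b1, b2, b3⟩ := cB_ge hK
  obtain ⟨q0, q1, q2, q3⟩ := cT_parts hK
  set B := cB K with hB
  set z1 := dsp gh e o1
  set z2 := dsp gh e o2
  set v := shp gh (o1 - o2) with hv
  have jP := fun m q => (D.jP hA hκ hδ hd m q).mono hδ hd b1
  have jD := fun p q m => (D.jD hA hκ0 p q m).mono hδ hd
    (mul_le_mul_of_nonneg_right (show cA K ≤ B by linarith) hκ0)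
  have jΓ := fun n p q => (D.jN hA hκ hδ hd s.s1 (c.chr n p q)).mono hδ hd
    (show cN (cA K) * (K * κ) ≤ B * κ by nlinarith)
  have jg := fun m n => (D.jN hA hκ hδ hd s.s1 (c.gb m n)).mono hδ hd
    (show cN (cA K) * K ≤ B by linarith)
  have kgi : ∀ a d, CK B fun y => (gh y)⁻¹ a d := fun a d =>
    ((c.gi a d).of_le (by norm_num)).mono (by linarith)
  have kGi : ∀ a d, CK B fun y => (Gh y)⁻¹ a d := fun a d =>
    (((c.Gi a d).add ob ((c.gi a d).of_le (by norm_num))).congr ob fun _ _ => by ring).mono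
      (by linarith)
  have kΓ : ∀ l a d, CK (B * κ) fun y => christoffel Gh y l a d := fun l a d =>
    (((c.chrG l a d).add ob (D.jN hA hκ hδ hd s.s1 (c.chr l a d)).h0).congr ob fun _ _ => by
      ring).mono (by nlinarith)
  have jI := fun n a d' => (((jD a d' n).add (J.sum4 fun p => J.sum4 fun q =>
    (jΓ n p q).mul ((jP p a).mul (jP q d') hδ hδ1 hd) hδ hδ1 hd)).sub
    (J.sum4 fun l => (jP n l).mul (J.const (kΓ l a d') hδ hd) hδ hδ1 hd)).mono hδ hd
    (show _ ≤ c1 B * κ from le_of_eq (by unfold c1; ring)) |>.cg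
    (fun y => -(christoffel Gh y n a d' - christoffel gh y n a d'))
    (fun y => lieC gh v n a d' y - ∑ l,
      pderiv l (fun y => v y n) y * (christoffel Gh y l a d' - christoffel gh y l a d'))
    (fun y _ => by simp [Matrix.one_apply]) fun y _ => by
      simp only [lieC, Hd.fderiv_eq_sum, Matrix.one_apply, mul_ite, ite_mul, mul_one, one_mul,
        mul_zero, zero_mul, sum_ite_eq', Finset.mem_univ, if_true, add_zero, mul_add,
        sum_add_distrib, sum_ite_irrel, sum_const_zero]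
      simp only [Fin.sum_univ_four]
      ring
  have jT := fun n => (J.sum4 fun a => J.sum4 fun d' =>
    (J.const (kGi a d') hδ hd).mul (jI n a d') hδ hδ1 hd).mono hδ hd
    (show _ ≤ c2 B * κ from le_of_eq (by unfold c2; ring))
  have jA := fun n => (J.sum4 fun m => (jg m n).mul (jP m j) hδ hδ1 hd).cg (fun y => gh y j n) _
    (fun y _ => by simp [Matrix.one_apply]) fun _ _ => rfl
  have jF := J.sum4 fun n => (jA n).mul (jT n) hδ hδ1 hd
  -- the value at `0` is small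
  have k0 : ∀ n, CK (4 * (4 * (8 * (B * (η * κ))))) fun y => ∑ a, ∑ d', (Gh y)⁻¹ a d' *
      -(christoffel Gh y n a d' - christoffel gh y n a d') := fun n =>
    CK.sum4 fun a => CK.sum4 fun d' => CK.mul (kGi a d') ((c.chrG n a d').neg ob)
  have kR : ∀ n a d', CK (4 * (8 * (B * d * (η * κ)))) fun y => ∑ l,
      pderiv l (fun y => v y n) y * (christoffel Gh y l a d' - christoffel gh y l a d') :=
    fun n a d' => CK.sum4 fun l => CK.mul (jP n l).h3 (c.chrG l a d')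
  have k1 := fun n => CK.sum4 fun a => CK.sum4 fun d' =>
    (CK.mul (c.Gi a d') (jI n a d').h3).sub ob (CK.mul (kgi a d') (kR n a d'))
  have k2 := CK.sum4 fun n => (CK.mul (jA n).h3 (k0 n)).add ob (CK.mul (jA n).h0 (k1 n))
  have k3 := CK.sum4 fun l => CK.mul (c.ric j l) (cka_proj (D.ch.of_le (by norm_num)) l)
  refine (((jF.h4.add ob k2).add ob k3).congr ob fun y hy => ?_).mono ?_
  · have e1 := ten_tau hG p1 hy j
    have e2 := ten_tau hG p2 hy j
    have e3 := hl gh B1 (o1 - o2) hg (ho1.sub ho2) y hy j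
    have u1 : uu gh e o1 = fun y => y + z1 y := rfl
    have u2 : uu gh e o2 = fun y => y + z2 y := rfl
    simp only [u1, u2, tau_cell D.c1 hy, tau_cell D.c2 hy, pd_id_add (D.c1.diffAt ob hy),
      pd_id_add (D.c2.diffAt ob hy)] at e1 e2
    simp only [Pi.sub_apply, TT, u1, u2, e1, e2]
    rw [← hv] at e3
    have e4 : lapT gh (o1 - o2) y ![j] = _ := (eq_sub_of_add_eq e3.symm)
    rw [e4]
    have e5 : ∀ (A' k0 : Fin 4 → ℝ) (kR : Fin 4 → Fin 4 → Fin 4 → ℝ) (i0 : Fin 4 → Fin 4 → Fin 4 → ℝ),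
        ∑ n, (A' n * k0 n + gh y j n * ∑ a, ∑ d', (0 * i0 n a d' +
          (Gh y)⁻¹ a d' * (lieC gh v n a d' y - kR n a d'))) =
        ∑ n, (A' n * k0 n + gh y j n * ∑ a, ∑ d', (((Gh y)⁻¹ a d' - (gh y)⁻¹ a d') *
          (lieC gh v n a d' y - kR n a d') - (gh y)⁻¹ a d' * kR n a d')) +
        ∑ n, gh y j n * ∑ a, ∑ d', (gh y)⁻¹ a d' * lieC gh v n a d' y := fun A' k0 kR i0 => by
      rw [← sum_add_distrib]
      refine sum_congr rfl fun n _ => ?_
      rw [add_assoc, ← mul_add, ← sum_add_distrib]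
      refine congrArg _ (congrArg _ (sum_congr rfl fun a _ => ?_))
      rw [← sum_add_distrib]
      exact sum_congr rfl fun d' _ => by ring
    rw [e5]
    simp only [lieC]
    ring
  · unfold cT
    rw [← hB]
    have r1 : 0 ≤ κ * η * d := by positivity
    have r2 : 0 ≤ κ * δ * d := by positivity
    have r3 : 0 ≤ c3 B * c2 B := by positivity
    have r4 : 0 ≤ c3 B * B := by positivity
    have r5 : 0 ≤ c3 B * (128 * (c1 B + 32 * (B * B))) := by positivity
    have r6 : 4 * (48 * (B * B)) = c3 B := rfl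
    rw [r6]
    nlinarith [mul_nonneg r3 r1, mul_nonneg r4 r2, mul_nonneg r5 r2,
      mul_nonneg (zero_le_one.trans hA) r2]

end Crest.Agent.N207.Ga

end
end

-- ▼ part N207/Ga/Dict
section

/-!
# Row 207, GAUGE (helper3): the dictionary between the charts and the cells
-/

set_option autoImplicit false

open scoped ContDiff
open Metric Set Filter Topology
open Crest.GeometryTopology.CoordMetric Crest.Agent.R202.Tens
open Crest.Agent.NLib.Ell Crest.Agent.N207.I Crest.Agent.N207.CB Crest.Agent.N207.N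
  Crest.Agent.N207.Lg Crest.Agent.N207.K

noncomputable section

namespace Crest.Agent.N207.Ga

theorem ten_af (G b : MetricField 4) (x0 : E4) (r : ℝ) (y : E4) :
    ten (fun y => G (x0 + r • y)) (fun y => b (x0 + r • y)) y = r • ten G b (x0 + r • y) := by
  have h : matT (fun y => b (x0 + r • y)) = fun y => matT b (x0 + r • y) := rfl
  funext I
  simp only [ten, divT, h, cov_af, trT, conT, ipA_two, matT, Pi.sub_apply, Pi.smul_apply,
    smul_eq_mul, mul_sub, Finset.mul_sum]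
  congr 1
  · exact Finset.sum_congr rfl fun _ _ => Finset.sum_congr rfl fun _ _ => by ring
  · exact Finset.sum_congr rfl fun _ _ => Finset.sum_congr rfl fun _ _ =>
      Finset.sum_congr rfl fun _ _ => Finset.sum_congr rfl fun _ _ => by ring

theorem ten_cs {c : ℝ} (hc : c ≠ 0) (G b : MetricField 4) :
    ten (fun y => c • G y) (fun y => c • b y) = ten G b := by
  have h : matT (fun y => c • b y) = c • matT b := rfl
  funext y I
  simp only [ten, divT, h, cov_cs hc, cov_smul, trT, conT, ipA_two, matT, Pi.sub_apply,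
    Pi.smul_apply, Matrix.smul_apply, minv_smul hc, smul_eq_mul]
  congr 1
  · exact Finset.sum_congr rfl fun _ _ => Finset.sum_congr rfl fun _ _ => by field_simp
  · congr 1
    exact Finset.sum_congr rfl fun _ _ => Finset.sum_congr rfl fun _ _ =>
      Finset.sum_congr rfl fun _ _ => Finset.sum_congr rfl fun _ _ => by field_simp

theorem lapT_add {G : MetricField 4} {U : Set E4} {S R : Tn 4 1} (hG : IsRiemannianOn G U)
    (hS : SmT S U) (hR : SmT R U) {y : E4} (hy : y ∈ U) :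
    lapT G (S + R) y = lapT G S y + lapT G R y := by
  have h1 : cov G (cov G (S + R)) y = cov G (cov G S) y + cov G (cov G R) y := by
    rw [cov_congr_on hG.isOpen hy (T' := cov G S + cov G R) fun z hz =>
      cov_add (hS.dAt hG.isOpen hz) (hR.dAt hG.isOpen hz)]
    exact cov_add ((hS.cov hG).dAt hG.isOpen hy) ((hR.cov hG).dAt hG.isOpen hy)
  funext I
  simp only [lapT, trT, h1, Pi.add_apply, mul_add, Finset.sum_add_distrib]

section XY

variable {κ a b : ℝ} {o o' : Tn 4 1}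

theorem X1.mono (h : X1 κ a o) (hκ : 0 ≤ κ) (hab : a ≤ b) : X1 κ b o := fun j =>
  ⟨(h j).1.mono hab, fun p q => ((h j).2 p q).mono (by gcongr)⟩

theorem X1.zero : X1 κ 0 0 := fun j =>
  ⟨CKA.zero, fun p q => by
    have : (pderiv p (pderiv q fun y : E4 => (0 : Tn 4 1) y ![j])) = fun _ => 0 := by
      funext y
      have : (pderiv q fun y : E4 => (0 : Tn 4 1) y ![j]) = fun _ => 0 :=
        funext fun _ => pd_const q 0
      rw [this, pd_const]
    rw [this, zero_mul]; exact CKA.zero⟩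

theorem X1.add (h : X1 κ a o) (h' : X1 κ b o') (ho : SmT o B1) (ho' : SmT o' B1) :
    X1 κ (a + b) (o + o') := fun j => by
  refine ⟨(h j).1.add ob (h' j).1, fun p q => ?_⟩
  refine ((((h j).2 p q).add ob ((h' j).2 p q)).congr ob fun y hy => ?_).mono (le_of_eq (by ring))
  have d : ∀ {o : Tn 4 1}, SmT o B1 → DifferentiableAt ℝ (pderiv q fun y => o y ![j]) y :=
    fun ho => ((sm_pd ob (ho ![j]) q).contDiffAt (ob.mem_nhds hy)).differentiableAt (by simp)
  rw [← pd_add p (d ho) (d ho')]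
  exact pd_congr_on p ob hy fun x hx =>
    pd_add q ((h j).1.diffAt ob hx) ((h' j).1.diffAt ob hx)

theorem Y1.mono (h : Y1 κ a o) (hκ : 0 ≤ κ) (hab : a ≤ b) : Y1 κ b o := fun j =>
  (h j).mono (by gcongr)

theorem Y1.congr (h : Y1 κ a o) (e : ∀ y ∈ B1, o' y = o y) : Y1 κ a o' := fun j =>
  (h j).congr ob fun y hy => by rw [e y hy]

theorem Y1.neg (h : Y1 κ a o) : Y1 κ a (-o) := fun j => (h j).neg ob

end XY

variable {M : Type*} {T : TD M} {L : T.V → ℝ} {s : T.S} {x0 : E4}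

theorem rad_pos (hx : x0 ∈ T.gK L s) : 0 < rad T s x0 := by
  cases s with
  | inl a => show (0 : ℝ) < 1 / 8; norm_num
  | inr w =>
    have := (TD.mem_gK_inr.1 hx).1
    show (0 : ℝ) < ‖x0‖ / 8
    linarith

theorem pt_ball (hx : x0 ∈ T.gK L s) {t : ℝ} {y : E4} (hy : y ∈ ball (0 : E4) t) :
    pt T s x0 y ∈ ball x0 (t * rad T s x0) := by
  have := rad_pos hx
  rw [mem_ball_zero_iff] at hy
  rw [mem_ball, dist_eq_norm, pt, add_sub_cancel_left, norm_smul, Real.norm_of_nonneg this.le]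
  nlinarith

theorem pt_gU (hx : x0 ∈ T.gK L s) {y : E4} (hy : y ∈ B1) : pt T s x0 y ∈ gU T L 1 s :=
  cell_gU zero_le_one s hx (pt_ball hx hy) (by norm_num)

theorem pt_U (h : T.Ok) (hx : x0 ∈ T.gK L s) {y : E4} (hy : y ∈ B2) :
    pt T s x0 y ∈ (T.glob L).U s :=
  gU_sub' h (t := 5 / 4) (by norm_num) s (cell_gU (by norm_num) s hx (pt_ball hx hy) (by norm_num))

theorem exists_pt (hL : T.Long L) {x : E4} (hx : x ∈ gU T L 1 s) :
    ∃ x0 ∈ T.gK L s, ∃ y ∈ B1, pt T s x0 y = x := by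
  obtain ⟨x0, h0, h1⟩ := gU_cell hL one_pos (by norm_num) s hx
  have hr := rad_pos h0
  refine ⟨x0, h0, (rad T s x0)⁻¹ • (x - x0), ?_, by simp [pt, smul_smul, hr.ne']⟩
  rw [mem_ball, dist_eq_norm, one_mul] at h1
  rw [mem_ball_zero_iff, norm_smul, norm_inv, Real.norm_of_nonneg hr.le, inv_mul_lt_iff₀ hr]
  linarith


theorem pt_sm (s : T.S) (x0 : E4) : ContDiff ℝ ∞ (pt T s x0) :=
  contDiff_const.add (contDiff_id.const_smul _)

theorem smT_cell (h : T.Ok) (hx : x0 ∈ T.gK L s) {om : T.S → Tn 4 1} (ho : (T.glob L).Sec om) :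
    SmT (clX T L om s x0) B1 := fun I =>
  contDiffOn_const.mul ((ho.sm s I).comp (pt_sm s x0).contDiffOn fun _ hy => pt_U h hx (b12 hy))

variable (gb G : Fam T) (E : T.S → E4 × E4 → E4) (om : T.S → Tn 4 1)

theorem eps2 (L : T.V → ℝ) (s : T.S) : T.eps L (T.un s) ^ 2 ≠ 0 :=
  pow_ne_zero _ (TD.eps_pos L _).ne'

theorem shp_cell (s : T.S) (x0 y : E4) : shp (clM T gb s x0) (clX T L om s x0) y =
    (rad T s x0)⁻¹ • shp (rt T L gb s) (om s) (pt T s x0 y) := by
  ext k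
  simp only [shp_apply, clM, clX, rt, minv_smul (eps2 L s), PiLp.smul_apply, Pi.smul_apply,
    Matrix.smul_apply, smul_eq_mul, Finset.mul_sum, mul_inv]
  exact Finset.sum_congr rfl fun _ _ => by ring

theorem uu_cell (hx : x0 ∈ T.gK L s) : uu (clM T gb s x0) (clE T E s x0) (clX T L om s x0) =
    fun y => (rad T s x0)⁻¹ • (uG T (rt T L gb) E om s (pt T s x0 y) - x0) := by
  funext y
  simp only [uu, dsp, clE, shp_cell, smul_smul, mul_inv_cancel₀ (rad_pos hx).ne', one_smul, uG]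
  abel

theorem dsp_cell (hx : x0 ∈ T.gK L s) : dsp (clM T gb s x0) (clE T E s x0) (clX T L om s x0) =
    clU T (uG T (rt T L gb) E om) s x0 := by
  funext y
  have h := congrFun (uu_cell gb E om hx) y
  rw [uu] at h
  rw [eq_sub_of_add_eq' h, clU]
  simp only [pt, smul_sub, smul_add, smul_smul, inv_mul_cancel₀ (rad_pos hx).ne', one_smul]
  abel

theorem TT_cell (hx : x0 ∈ T.gK L s) :
    TT (clM T gb s x0) (clM T (T.nrm L G) s x0) (clE T E s x0) (clX T L om s x0) =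
      clY T (opG T (rt T L gb) G E om) s x0 := by
  funext y
  have h1 := pbG_af (rad_pos hx).ne' (uG T (rt T L gb) E om s) (gb s) x0
  have h2 := ten_af (T.nrm L G s) (pbG (uG T (rt T L gb) E om s) (gb s)) x0 (rad T s x0) y
  have h3 := ten_cs (eps2 L s) (T.nrm L G s) (pbG (uG T (rt T L gb) E om s) (gb s))
  have h4 : (fun y => T.eps L (T.un s) ^ 2 • T.nrm L G s y) = G s := congrFun (rt_nrm T L G) s
  rw [h4, ← pbG_cs] at h3
  rw [TT, uu_cell gb E om hx]
  exact (congrArg (fun b => ten _ b y) h1).trans (h2.trans (by rw [← h3]; rfl))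

theorem lap_cell (hx : x0 ∈ T.gK L s) : lapT (clM T gb s x0) (clX T L om s x0) =
    clY T (fun s => lapT (rt T L gb s) (om s)) s x0 := by
  funext y
  have h1 := lapT_af (gb s) ((T.eps L (T.un s) ^ 2 * rad T s x0)⁻¹ • om s) x0 (rad T s x0) y
  have h2 := lapT_cs (eps2 L s) 1 (gb s) (om s) (pt T s x0 y)
  have h3 := lapT_cs one_ne_zero (T.eps L (T.un s) ^ 2 * rad T s x0)⁻¹ (gb s) (om s) (pt T s x0 y)
  simp only [one_smul, inv_one, one_mul, mul_one] at h2 h3
  refine h1.trans ?_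
  rw [clY]
  show _ • lapT (gb s) _ (pt T s x0 y) = _ • lapT (fun y => _ • gb s y) _ _
  rw [h2, h3, smul_smul, smul_smul]
  congr 1
  have := (rad_pos hx).ne'
  have := eps2 L s
  field_simp

theorem clX_add (om' : T.S → Tn 4 1) (s : T.S) (x0 : E4) :
    clX T L (om + om') s x0 = clX T L om s x0 + clX T L om' s x0 := by
  funext y; simp only [clX, Pi.add_apply, smul_add]

theorem clX_zero (s : T.S) (x0 : E4) : clX T L 0 s x0 = 0 := by
  funext y; simp [clX]

end Crest.Agent.N207.Ga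

end
end

-- ▼ part N207/Ga/Iter

/-!
# Row 207, GAUGE (helper3): the iteration
-/

set_option autoImplicit false

open scoped ContDiff
open Metric Set Filter Topology
open Crest.GeometryTopology.CoordMetric Crest.Agent.R202.Tens
open Crest.Agent.NLib.Ell Crest.Agent.N207.I Crest.Agent.N207.CB Crest.Agent.N207.N
  Crest.Agent.N207.Lg Crest.Agent.N207.K

noncomputable section

namespace Crest.Agent.N207.Ga

theorem exists_chain {α : Type*} {P : ℕ → α → Prop} {Q : ℕ → α → α → Prop} {a0 : α} (h0 : P 0 a0)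
    (hs : ∀ n a, P n a → ∃ b, P (n + 1) b ∧ Q n a b) :
    ∃ f : ℕ → α, (∀ n, P n (f n)) ∧ ∀ n, Q n (f n) (f (n + 1)) := by
  choose g hg using hs
  let F : ∀ n, {a // P n a} := fun n =>
    Nat.rec ⟨a0, h0⟩ (fun n a => ⟨g n a.1 a.2, (hg n a.1 a.2).1⟩) n
  exact ⟨fun n => (F n).1, fun n => (F n).2, fun n => (hg n _ (F n).2).2⟩

/-- the constant of `loc_zero` -/
def c0 (K : ℝ) : ℝ := 4096 * (cC 2 2 * K * (K + 1)) + 1

theorem c0_pos {K : ℝ} (hK : 0 ≤ K) : 0 < c0 K := by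
  have := cC_pos (M := 2) (by norm_num) 2
  unfold c0; positivity

theorem loc_zero {K η κ r0 δ : ℝ} {gh Gh : MetricField 4} {e : E4 × E4 → E4}
    (c : CellG K η κ gh Gh) (E : CellE (K * κ) r0 e) (hK : 0 ≤ K) (hη1 : η ≤ 1) (hκ0 : 0 ≤ κ)
    (hκ : κ ≤ 2) (s : Sm K r0 δ) : Y1 κ (c0 K * η) (TT gh Gh e 0) := by
  intro j
  have p := uu_pull c E hK hκ0 hκ s (X1.zero.mono hκ0 s.nn) SmT.zero
  have hη : 0 ≤ η := (c.Gi 0 0).nonneg zB
  have h1 : ∀ y ∈ B1, uu gh e 0 y = y := fun y hy => by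
    simp [uu, dsp, shp_zero, E.zero y (b12 hy)]
  have h2 : ∀ y ∈ B1, pbG (uu gh e 0) gh y = gh y := fun y hy => by
    ext a b
    rw [pbG_apply, (ev_of_on ob hy h1).fderiv_eq, fderiv_fun_id, h1 y hy]
    simp [PiLp.single_apply]
  have kg : ∀ a b, CK (cC 2 2 * K) fun y => gh y a b := fun a b =>
    ((c.gb a b).of_le (by norm_num)).comp ob isOpen_ball (convex_ball _ _) (fun _ hy => b12 hy)
      (cka_id 2)
  have kG : ∀ a d, CK (K + 1) fun y => (Gh y)⁻¹ a d := fun a d =>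
    (((c.Gi a d).add ob ((c.gi a d).of_le (by norm_num))).congr ob fun _ _ => by ring).mono
      (by linarith)
  refine ((CK.sum4 fun k => CK.mul (kg j k) (CK.sum4 fun a => CK.sum4 fun d =>
    CK.mul (kG a d) ((c.chrG k a d).neg ob))).congr ob fun y hy => ?_).mono ?_
  · simp only [TT, ten_eq (riemOn_mono c.riemG ob b12) p.riem' hy, sS, h2 y hy,
      chr_congr (ev_of_on ob hy h2), neg_sub]
  · have : 0 ≤ η * κ := by positivity
    unfold c0; nlinarith

theorem chr_flat {G : MetricField 4} {x : E4} (h : G =ᶠ[𝓝 x] fun _ => 1) (k a b : Fin 4) :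
    christoffel G x k a b = 0 := by
  rw [chr_congr h]; simp [christoffel, pd_const]

theorem lapT_flat {G : MetricField 4} {x : E4} (h : G =ᶠ[𝓝 x] fun _ => 1) (o : Tn 4 1) (n : Fin 4) :
    lapT G o x ![n] = ∑ a, pderiv a (pderiv a fun y => o y ![n]) x := by
  have h0 : ∀ y k a b, christoffel (fun _ : E4 => (1 : Matrix (Fin 4) (Fin 4) ℝ)) y k a b = 0 :=
    fun y => chr_flat EventuallyEq.rfl
  rw [(lapT_congr h EventuallyEq.rfl).eq_of_nhds]
  simp only [lapT, trT, cov, h0, inv_one, Matrix.one_apply, ite_mul, one_mul, zero_mul,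
    Finset.sum_ite_eq, Finset.mem_univ, if_true, Finset.sum_const_zero, sub_zero]
  rfl

variable {M : Type*} {T : TD M} {γ K η r0 R0 δ C N : ℝ} {L : T.V → ℝ} {gb G : Fam T}
  {E : T.S → E4 × E4 → E4} {om : T.S → Tn 4 1}

theorem root_gK {x : E4} (hx : 3 / 2 ≤ ‖x‖) : x ∈ T.gK L (Sum.inr T.root) :=
  TD.mem_gK_inr.2 ⟨hx, fun h => absurd rfl h⟩

theorem pt_zero (s : T.S) (x : E4) : pt T s x 0 = x := by simp [pt]

theorem ev_far {R : ℝ} {x : E4} (hx : R < ‖x‖) : ∀ᶠ z in 𝓝 x, R ≤ ‖z‖ :=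
  (continuous_norm.tendsto x).eventually (eventually_ge_nhds hx)

namespace St

variable (S : St T γ K η r0 R0 L gb G E)
include S

theorem rt_one {x : E4} (hx : R0 ≤ ‖x‖) : rt T L gb (Sum.inr T.root) x = 1 := by
  show T.eps L T.root ^ 2 • _ = _
  rw [S.ok.eps_root, (S.flat x hx).2.1]; simp

theorem u_flat {x : E4} (hx : R0 ≤ ‖x‖) (n : Fin 4) :
    uG T (rt T L gb) E om (Sum.inr T.root) x n = x n + om (Sum.inr T.root) x ![n] := by
  rw [uG, (S.flat x hx).2.2, PiLp.add_apply, shp_apply, S.rt_one hx]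
  simp [Matrix.one_apply]

theorem clu (s : Sm K r0 δ) (ho : (T.glob L).Sec om) (hx : XN T γ L δ om) (a : T.S) {x0 : E4}
    (h0 : x0 ∈ T.gK L a) :
    CKA (1 / 2) B1 4 (cA K * δ) (clU T (uG T (rt T L gb) E om) a x0) := by
  rw [← dsp_cell gb E om h0]
  exact (dsp_one (S.cg a x0 h0) (S.ce a x0 h0) S.K0 (S.k0 a x0 h0).1 (S.k0 a x0 h0).2 s
    (hx a x0 h0) (smT_cell S.ok h0 ho)).1

theorem op_zero (s : Sm K r0 δ) (ho : (T.glob L).Sec om) (hx : XN T γ L δ om)
    (m : Atl.Mor (sh T L 1) (T.glob L) id (uG T (rt T L gb) E om)) {x : E4} (hR : 2 * R0 ≤ ‖x‖)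
    (h : lapT (rt T L gb (Sum.inr T.root)) (om (Sum.inr T.root)) x = 0) :
    opG T (rt T L gb) G E om (Sum.inr T.root) x = 0 := by
  have hR2 := S.R2
  have h0 : x ∈ T.gK L (Sum.inr T.root) := root_gK (by linarith)
  have hU := gK_sub S.ok one_pos _ h0
  set u := uG T (rt T L gb) E om (Sum.inr T.root) with hu
  have p := pull_pbG (gU_open _) (S.mb.riem (Sum.inr T.root)) (m.maps _) (m.sm _)
    (m.imm (Sum.inr T.root))
  have e1 := ev_far (show R0 < ‖x‖ by linarith)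
  have h1 : ‖u x - x‖ ≤ ‖x‖ / 64 := by
    have := ((S.clu s ho hx _ h0).bdd zB).trans s.s1
    have hr : rad T (Sum.inr T.root) x = ‖x‖ / 8 := rfl
    rw [clU, pt_zero, norm_smul, norm_inv, Real.norm_of_nonneg (rad_pos h0).le,
      inv_mul_le_iff₀ (rad_pos h0), hr] at this
    linarith
  have h2 : R0 < ‖u x‖ := by
    have := norm_sub_norm_le x (u x)
    rw [norm_sub_rev] at this
    linarith
  have g1 : G (Sum.inr T.root) =ᶠ[𝓝 x] fun _ => 1 := e1.mono fun z hz => (S.flat z hz).1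
  have g2 : rt T L gb (Sum.inr T.root) =ᶠ[𝓝 (u x)] fun _ => 1 :=
    (ev_far h2).mono fun z hz => S.rt_one hz
  have hd : ∀ n, ∀ᶠ z in 𝓝 x, DifferentiableAt ℝ (fun y => om (Sum.inr T.root) y ![n]) z :=
    fun n => e1.mono fun z hz => (ho.sm _).dAt ((S.ok.glob_ok S.long).isOpen _)
      (TD.mem_glob_inr.2 ⟨by linarith, fun h => absurd rfl h⟩) _
  have h3 : ∀ n, tau (G (Sum.inr T.root)) (rt T L gb (Sum.inr T.root)) u x n = 0 := fun n => by
    have h4 : ∀ a, pderiv a (pderiv a fun z => u z n) x =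
        pderiv a (pderiv a fun y => om (Sum.inr T.root) y ![n]) x := fun a => by
      have h5 : (pderiv a fun z => u z n) =ᶠ[𝓝 x] fun z => (1 : Matrix (Fin 4) (Fin 4) ℝ) n a +
          pderiv a (fun y => om (Sum.inr T.root) y ![n]) z := by
        filter_upwards [e1.eventually_nhds, hd n] with z hz hz'
        rw [pd_congr a (hz.mono fun w hw => S.u_flat hw n), pd_add a (by fun_prop) hz',
          pd_cmp differentiableAt_fun_id]
        simp [Matrix.one_apply, PiLp.single_apply]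
      rw [pd_congr a h5]
      simp only [pderiv, fderiv_const_add]
      rfl
    have h6 := congrFun h ![n]
    rw [lapT_flat (e1.mono fun z hz => S.rt_one hz)] at h6
    simp only [tau, chr_flat g1, chr_flat g2, g1.eq_of_nhds, inv_one, Matrix.one_apply, ite_mul,
      one_mul, zero_mul, mul_zero, Finset.sum_ite_eq, Finset.mem_univ, if_true,
      Finset.sum_const_zero, sub_zero, add_zero, h4]
    exact h6
  funext I
  have hI : I = ![I 0] := by funext i; fin_cases i; rfl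
  rw [hI, opG, ten_tau (riemOn_mono (S.mG.riem _) (gU_open _) (gU_sub S.ok le_rfl _)) p hU]
  simp only [← hu, h3, mul_zero, Finset.sum_const_zero, Pi.zero_apply]

end St

variable (T) in
/-- the linear estimate at one `L` -/
def XS (γ C : ℝ) (L : T.V → ℝ) (gb : Fam T) : Prop :=
  ∀ (F : T.S → Tn 4 1) (N R' : ℝ), 0 ≤ N → (T.glob L).Sec F → YN T γ L N F →
    (∀ x : E4, R' ≤ ‖x‖ → F (Sum.inr T.root) x = 0) →
    ∃ om : T.S → Tn 4 1, (T.glob L).Sec om ∧
      (∀ s, ∀ x ∈ (T.glob L).U s, lapT (rt T L gb s) (om s) x = F s x) ∧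
      XN T γ L (C * N) om ∧ Tendsto (om (Sum.inr T.root)) (cocompact E4) (𝓝 0)

variable (T) in
/-- the invariant of the iteration -/
structure Inv (γ R0 a N : ℝ) (L : T.V → ℝ) (gb G : Fam T) (E : T.S → E4 × E4 → E4)
    (om : T.S → Tn 4 1) : Prop where
  sec : (T.glob L).Sec om
  xn : XN T γ L a om
  yn : YN T γ L N (opG T (rt T L gb) G E om)
  har : ∀ x : E4, 2 * R0 ≤ ‖x‖ → lapT (rt T L gb (Sum.inr T.root)) (om (Sum.inr T.root)) x = 0
  lim : Tendsto (om (Sum.inr T.root)) (cocompact E4) (𝓝 0)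

theorem St.xn_mono (S : St T γ K η r0 R0 L gb G E) {a b : ℝ} (h : XN T γ L a om) (hab : a ≤ b) :
    XN T γ L b om := fun s x0 h0 => (h s x0 h0).mono (S.k0 s x0 h0).1 hab

theorem St.step (S : St T γ K η r0 R0 L gb G E) (hl : LIE) (hs : SEC T) (hX : XS T γ C L gb)
    (hη1 : η ≤ 1) (s : Sm K r0 δ) (hC : 0 ≤ C) (hN : 0 ≤ N) (hq : cT K * (η + δ) * C ≤ 1 / 2)
    (I : Inv T γ R0 (δ - 2 * C * N) N L gb G E om) :
    ∃ om', Inv T γ R0 (δ - 2 * C * (N / 2)) (N / 2) L gb G E om' ∧ ∀ a, ∀ x0 ∈ T.gK L a,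
      X1 (kap T γ L a x0) (C * N) (clX T L om' a x0 - clX T L om a x0) := by
  have hCN : 0 ≤ C * N := mul_nonneg hC hN
  have hR2 := S.R2
  have x1 := S.xn_mono I.xn (show _ ≤ δ by linarith)
  obtain ⟨m, F, hF, eF⟩ := hs γ K η r0 R0 δ L gb G E om S s I.sec x1
  have hF0 : ∀ x : E4, 2 * R0 ≤ ‖x‖ → (-F) (Sum.inr T.root) x = 0 := fun x hx => by
    rw [Pi.neg_apply, Pi.neg_apply, eF _ x (gK_sub S.ok one_pos _ (root_gK (by linarith))),
      S.op_zero s I.sec x1 m hx (I.har x hx), neg_zero]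
  obtain ⟨d, hd, ed, xd, ld⟩ := hX (-F) N (2 * R0) hN hF.neg (fun a x0 h0 =>
    (I.yn a x0 h0).neg.congr fun y hy => by
      simp only [clY, Pi.neg_apply, eF a _ (pt_gU h0 hy), smul_neg]) hF0
  have e1 : ∀ a x0, clX T L (om + d) a x0 - clX T L om a x0 = clX T L d a x0 := fun a x0 => by
    rw [clX_add, add_sub_cancel_left]
  have x2 : XN T γ L (δ - 2 * C * (N / 2)) (om + d) := fun a x0 h0 => by
    rw [clX_add]
    exact ((I.xn a x0 h0).add (xd a x0 h0) (smT_cell S.ok h0 I.sec) (smT_cell S.ok h0 hd)).mono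
      (S.k0 a x0 h0).1 (le_of_eq (by ring))
  refine ⟨om + d, ⟨I.sec.add hd, x2, fun a x0 h0 => ?_, fun x hx => ?_, ?_⟩, fun a x0 h0 => ?_⟩
  · have := loc_lip hl (S.cg a x0 h0) (S.ce a x0 h0) S.K0 hη1 (S.k0 a x0 h0).1 (S.k0 a x0 h0).2 s
      (S.xn_mono x2 (show _ ≤ δ by linarith) a x0 h0) (smT_cell S.ok h0 (I.sec.add hd))
      (x1 a x0 h0) (smT_cell S.ok h0 I.sec) (d := C * N) (by rw [e1]; exact xd a x0 h0)
    rw [e1, TT_cell gb G E _ h0, TT_cell gb G E _ h0, lap_cell gb d h0] at this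
    refine (this.congr fun y hy => ?_).mono (S.k0 a x0 h0).1 (by nlinarith)
    simp only [clY, Pi.sub_apply, ed a _ (pt_U S.ok h0 (b12 hy)), Pi.neg_apply,
      eF a _ (pt_gU h0 hy), smul_neg]
    abel
  · have hU : x ∈ (T.glob L).U (Sum.inr T.root) :=
      TD.mem_glob_inr.2 ⟨by linarith, fun h => absurd rfl h⟩
    rw [Pi.add_apply, lapT_add (S.mb.riem _) (I.sec.sm _) (hd.sm _) hU, I.har x hx, ed _ x hU,
      hF0 x hx, add_zero]
  · exact (add_zero (0 : Arr 4 1)) ▸ I.lim.add ld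
  · rw [e1]; exact xd a x0 h0

theorem St.start (S : St T γ K η r0 R0 L gb G E) (hη1 : η ≤ 1) (s : Sm K r0 δ) :
    Inv T γ R0 0 (c0 K * η) L gb G E 0 := by
  refine ⟨Atl.Sec.zero, fun a x0 _ => ?_, fun a x0 h0 => ?_, fun x _ => ?_, tendsto_const_nhds⟩
  · rw [clX_zero]; exact X1.zero
  · rw [← TT_cell gb G E _ h0, clX_zero]
    exact loc_zero (S.cg a x0 h0) (S.ce a x0 h0) S.K0 hη1 (S.k0 a x0 h0).1 (S.k0 a x0 h0).2 s
  · funext I
    simp [lapT, trT, cov_zero]

theorem Inv.dec (S : St T γ K η r0 R0 L gb G E) (hm : EXTMP) {a : ℝ}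
    (I : Inv T γ R0 a N L gb G E om) (ha : a ≤ δ) {x : E4} (hx : 2 * R0 ≤ ‖x‖) :
    ‖uG T (rt T L gb) E om (Sum.inr T.root) x - x‖ ≤ 4 * (δ * R0 * (2 * R0) ^ 2) / ‖x‖ ^ 2 := by
  have hR2 := S.R2
  have h1 : ∀ n, |om (Sum.inr T.root) x ![n]| ≤ δ * R0 * (2 * R0) ^ 2 / ‖x‖ ^ 2 := fun n => by
    refine hm (fun y => om (Sum.inr T.root) y ![n]) (2 * R0) (δ * R0) (by linarith)
      (((I.sec.sm _ _).mono fun z hz => TD.mem_glob_inr.2
        ⟨by simp only [mem_ofPred_eq] at hz; linarith, fun h => absurd rfl h⟩).of_le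
        (WithTop.coe_le_coe.2 le_top)) (fun z hz => ?_)
      ((continuous_apply _).tendsto _ |>.comp I.lim) (fun z hz => ?_) x hx
    · rw [← lapT_flat ((ev_far (show R0 < ‖z‖ by linarith)).mono fun w hw => S.rt_one hw),
        I.har z hz]; rfl
    · have h0 : z ∈ T.gK L (Sum.inr T.root) := root_gK (by linarith)
      have h2 := (I.xn _ z h0 n).1.bdd zB
      have ha0 := (norm_nonneg _).trans h2
      have hr : rad T (Sum.inr T.root) z = ‖z‖ / 8 := rfl
      have he : T.eps L (T.un (Sum.inr T.root)) = 1 := S.ok.eps_root L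
      simp only [clX, pt_zero, he, one_pow, one_mul, Pi.smul_apply, smul_eq_mul, norm_mul, norm_inv,
        Real.norm_of_nonneg (rad_pos h0).le] at h2
      rw [inv_mul_le_iff₀ (rad_pos h0), hr, hz, Real.norm_eq_abs] at h2
      nlinarith
  have h2 : uG T (rt T L gb) E om (Sum.inr T.root) x - x =
      ∑ n, om (Sum.inr T.root) x ![n] • (ei n : E4) := by
    ext n
    simp [S.u_flat (show R0 ≤ ‖x‖ by linarith) n, Pi.single_apply]
  rw [h2]
  refine (norm_sum_le _ _).trans ((Finset.sum_le_sum fun n _ =>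
    (show _ ≤ δ * R0 * (2 * R0) ^ 2 / ‖x‖ ^ 2 by
      rw [norm_smul, norm_ei, mul_one]; exact h1 n)).trans (le_of_eq ?_))
  simp [mul_div_assoc]

theorem iter (S : St T γ K η r0 R0 L gb G E) (hl : LIE) (hs : SEC T) (hm : EXTMP)
    (hX : XS T γ C L gb) (hη : 0 ≤ η) (hη1 : η ≤ 1) (hC : 0 ≤ C) (hδ : δ = 2 * C * (c0 K * η))
    (s : Sm K r0 δ) (hq : cT K * (η + δ) * C ≤ 1 / 2) :
    ∃ u : ℕ → T.S → E4 → E4, (∀ n, Atl.Mor (sh T L 1) (T.glob L) id (u n)) ∧
      (∀ n a, ∀ x0 ∈ T.gK L a, CKA (1 / 2) B1 4 (cA K * δ) (clU T (u n) a x0)) ∧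
      (∀ a, ∀ x ∈ gU T L 1 a, CauchySeq fun n => u n a x) ∧
      (∀ a, ∀ x ∈ gU T L 1 a, ∀ j,
        Tendsto (fun n => ten (G a) (pbG (u n a) (rt T L gb a)) x ![j]) atTop (𝓝 0)) ∧
      ∀ x : E4, 2 * R0 ≤ ‖x‖ → ∀ n,
        ‖u n (Sum.inr T.root) x - x‖ ≤ 4 * (δ * R0 * (2 * R0) ^ 2) / ‖x‖ ^ 2 := by
  set N0 := c0 K * η with hN0
  have hN : ∀ n : ℕ, 0 ≤ N0 * (1 / 2) ^ n := fun n => by
    have := c0_pos S.K0
    positivity
  have hle : ∀ n : ℕ, δ - 2 * C * (N0 * (1 / 2) ^ n) ≤ δ := fun n => by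
    have := mul_nonneg hC (hN n)
    linarith
  obtain ⟨f, hf, hd⟩ := exists_chain
    (P := fun n om => Inv T γ R0 (δ - 2 * C * (N0 * (1 / 2) ^ n)) (N0 * (1 / 2) ^ n) L gb G E om)
    (Q := fun n om om' => ∀ a, ∀ x0 ∈ T.gK L a, X1 (kap T γ L a x0) (C * (N0 * (1 / 2) ^ n))
      (clX T L om' a x0 - clX T L om a x0)) (a0 := 0)
    (by simpa [hδ] using S.start hη1 s) fun n om I => by
      have := S.step hl hs hX hη1 s hC (hN n) hq I
      rwa [show N0 * (1 / 2) ^ n / 2 = N0 * (1 / 2) ^ (n + 1) by ring] at this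
  have hx : ∀ n, XN T γ L δ (f n) := fun n => S.xn_mono (hf n).xn (hle n)
  refine ⟨fun n => uG T (rt T L gb) E (f n),
    fun n => (hs γ K η r0 R0 δ L gb G E _ S s (hf n).sec (hx n)).1,
    fun n a x0 h0 => S.clu s (hf n).sec (hx n) a h0, fun a x hx' => ?_, fun a x hx' j => ?_,
    fun x hx' n => (hf n).dec S hm (hle n) hx'⟩
  · obtain ⟨x0, h0, y, hy, rfl⟩ := exists_pt S.long hx'
    have hr := rad_pos h0
    refine cauchySeq_of_le_geometric (1 / 2) (rad T a x0 * (3 * cA K * (C * N0))) (by norm_num)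
      fun n => ?_
    have D := dp (S.cg a x0 h0) (S.ce a x0 h0) S.K0 (S.k0 a x0 h0).1 (S.k0 a x0 h0).2 s
      (hx (n + 1) a x0 h0) (smT_cell S.ok h0 (hf _).sec) (hx n a x0 h0)
      (smT_cell S.ok h0 (hf _).sec) (hd n a x0 h0)
    have h1 := (D.cr.add ob D.ch).bdd hy
    rw [sub_add_cancel, dsp_cell gb E _ h0, dsp_cell gb E _ h0, clU, clU, ← smul_sub,
      sub_sub_sub_cancel_right, norm_smul, norm_inv, Real.norm_of_nonneg hr.le,
      inv_mul_le_iff₀ hr] at h1
    rw [dist_comm, dist_eq_norm, mul_assoc]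
    refine h1.trans (mul_le_mul_of_nonneg_left ?_ hr.le)
    have h2 : kap T γ L a x0 * δ ≤ 2 * 1 :=
      mul_le_mul (S.k0 a x0 h0).2 (s.le1 S.K0) s.nn (by norm_num)
    have h3 : 0 ≤ cA K * (C * (N0 * (1 / 2) ^ n)) :=
      mul_nonneg (zero_le_one.trans (cA_ge S.K0)) (mul_nonneg hC (hN n))
    nlinarith
  · obtain ⟨x0, h0, y, hy, rfl⟩ := exists_pt S.long hx'
    have hr := rad_pos h0
    refine squeeze_zero_norm (a := fun n => (rad T a x0)⁻¹ * (N0 * kap T γ L a x0) * (1 / 2) ^ n)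
      (fun n => ?_) (by
        simpa using (tendsto_pow_atTop_nhds_zero_of_lt_one (r := (1 / 2 : ℝ)) (by norm_num)
          (by norm_num)).const_mul ((rad T a x0)⁻¹ * (N0 * kap T γ L a x0)))
    have h1 := ((hf n).yn a x0 h0 j).bdd hy
    simp only [clY, Pi.smul_apply, norm_smul, Real.norm_of_nonneg hr.le] at h1
    rw [mul_assoc, le_inv_mul_iff₀ hr]
    exact h1.trans (le_of_eq (by ring))

end Crest.Agent.N207.Ga

end
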