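import Crest.Agent.N207.Ga.Defs
import Crest.Agent.N207.Lg.Fun1
import Crest.Agent.N207.I.NkRot
import Crest.Agent.N207.K.Sch

/-!
# Row 207, GAUGE (helper3): the tension field in coordinates; scaling
-/

set_option autoImplicit false

open scoped ContDiff
open Metric Set Filter Topology Finset
open Crest.GeometryTopology.CoordMetric Crest.Agent.R202.Tens
open Crest.Agent.N207.Lg Crest.Agent.N207.I

noncomputable section

namespace Crest.Agent.N207.Ga

variable {G b c g : MetricField 4} {U V W : Set E4} {y : E4} {u : E4 → E4}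

theorem gv_TG {H : M2 (Fin 4) ℝ} (hH : Sy2 H) (hb : IsRiemannianOn b U) (hc : IsRiemannianOn c U)
    (hy : y ∈ U) (j : Fin 4) : gv H (TG c b y) j =
      ∑ k, b y j k * ∑ a, ∑ d, H a d * (christoffel b y k a d - christoffel c y k a d) := by
  have h1 := chr_TG hc hb hy
  have h2 : ∀ k, ∑ a, ∑ d, H a d * (christoffel b y k a d - christoffel c y k a d) =
      ∑ m, iv b y k m * gv H (TG c b y) m := fun k => by
    rw [← chr_tr _ _ hH, h1]
    exact sum_congr rfl fun a _ => sum_congr rfl fun d _ => by simp only [Pi.sub_apply]; ring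
  simp only [h2]
  exact ((iv_inv hb hy).r _ j).symm

theorem ten_gv (hG : IsRiemannianOn G U) (hy : y ∈ U) (j : Fin 4) :
    ten G b y ![j] = gv (iv G y) (TG G b y) j := by
  have h1 : conT G (matT G) (cov G (matT b)) y ![j] = vT (iv G y) (TG G b y) j := by
    have e : ∀ p q, ∑ a, ∑ d, (G y)⁻¹ a p * (G y)⁻¹ d q * G y a d = (G y)⁻¹ p q := fun p q => by
      have := ginv_g_sum hG hy p fun d => (G y)⁻¹ d q
      have h3 : ∀ l, ∑ m, G y l m * (G y)⁻¹ m q = (1 : Matrix (Fin 4) (Fin 4) ℝ) l q := fun l => by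
        rw [← Matrix.mul_apply, Matrix.mul_nonsing_inv _ (hG.posDef y hy).det_pos.ne'.isUnit]
      rw [← this]
      refine sum_congr rfl fun a _ => ?_
      rw [mul_sum]
      exact sum_congr rfl fun d _ => by rw [ginv_symm hG hy p a]; ring
    simp only [conT, ipA_two, vT, tr2, iv, TG, a3, matT]
    rw [sum_comm]
    refine sum_congr rfl fun p _ => ?_
    rw [sum_congr rfl fun a _ => sum_comm, sum_comm]
    refine sum_congr rfl fun q _ => ?_
    rw [← e p q, sum_mul]
    refine sum_congr rfl fun a _ => ?_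
    rw [sum_mul]
    refine sum_congr rfl fun d _ => ?_
    simp only [Matrix.cons_val_zero, Matrix.cons_val_one]
    rw [← mul_assoc]
    rfl
  simp only [ten, Pi.sub_apply, Pi.smul_apply, smul_eq_mul, h1, gv]
  rfl

/-- `G^{ab} (Γ(b) - Γ(G))^k_{ab}` -/
def sS (G b : MetricField 4) (y : E4) (k : Fin 4) : ℝ :=
  ∑ a, ∑ d, (G y)⁻¹ a d * (christoffel b y k a d - christoffel G y k a d)

theorem ten_eq (hG : IsRiemannianOn G U) (hb : IsRiemannianOn b U) (hy : y ∈ U) (j : Fin 4) :
    ten G b y ![j] = ∑ k, b y j k * sS G b y k := by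
  rw [ten_gv hG hy, gv_TG (iv_sy hG hy) hb hG hy]; rfl

theorem gauT_eq (hG : IsRiemannianOn G U) (hb : IsRiemannianOn b U) (hy : y ∈ U) (I : Fin 1 → Fin 4) :
    gauT b G y I = -∑ k, G y (I 0) k * sS G b y k := by
  rw [gauT, gv_TG (iv_sy hG hy) hG hb hy, ← sum_neg_distrib]
  refine sum_congr rfl fun k _ => ?_
  rw [sS, ← mul_neg, ← sum_neg_distrib]
  refine congrArg _ (sum_congr rfl fun a _ => ?_)
  rw [← sum_neg_distrib]
  exact sum_congr rfl fun d _ => by simp only [iv]; ring

theorem pbG_apply (u : E4 → E4) (g : MetricField 4) (y : E4) (i j : Fin 4) :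
    pbG u g y i j = ∑ a, ∑ d, g (u y) a d * (fderiv ℝ u y (EuclideanSpace.single i 1)) a *
      (fderiv ℝ u y (EuclideanSpace.single j 1)) d := by
  simp only [pbG, Matrix.of_apply, pullT, AI.evT_two]
  exact sum_congr rfl fun a _ => sum_congr rfl fun d _ => by simp [matT]; ring

theorem matT_pbG (u : E4 → E4) (g : MetricField 4) : matT (pbG u g) = pullT u (matT g) := by
  funext y I
  simp only [matT, pbG, Matrix.of_apply]
  congr 1
  funext s
  fin_cases s <;> rfl

theorem pull_pbG (hV : IsOpen V) (hg : IsRiemannianOn g W) (hm : ∀ y ∈ V, u y ∈ W)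
    (hu : ContDiffOn ℝ ∞ u V) (hi : ∀ y ∈ V, Function.Injective (fderiv ℝ u y)) :
    Pull (pbG u g) g u V W := ⟨hV, hg, hm, hu, fun y _ => pbG_apply u g y, hi⟩

/-- the tension field of `u : (G) → (g)` -/
def tau (G g : MetricField 4) (u : E4 → E4) (y : E4) (n : Fin 4) : ℝ :=
  ∑ a, ∑ d, (G y)⁻¹ a d * (pderiv a (pderiv d fun z => u z n) y +
    ∑ p, ∑ q, christoffel g (u y) n p q * (pderiv a (fun z => u z p) y * pderiv d (fun z => u z q) y) -
    ∑ l, pderiv l (fun z => u z n) y * christoffel G y l a d)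

theorem pd_cmp (hu : DifferentiableAt ℝ u y) (i n : Fin 4) :
    pderiv i (fun z => u z n) y = fderiv ℝ u y (EuclideanSpace.single i 1) n := by
  have := ((EuclideanSpace.proj n : E4 →L[ℝ] ℝ).hasFDerivAt.comp y hu.hasFDerivAt).fderiv
  exact congrArg (fun L : E4 →L[ℝ] ℝ => L (EuclideanSpace.single i 1)) this

theorem pd2_cmp (hu : ContDiffAt ℝ 2 u y) (a d n : Fin 4) :
    pderiv a (pderiv d fun z => u z n) y =
      fderiv ℝ (fderiv ℝ u) y (EuclideanSpace.single a 1) (EuclideanSpace.single d 1) n := by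
  have h1 : ∀ᶠ z in 𝓝 y, DifferentiableAt ℝ u z :=
    (hu.eventually (by simp)).mono fun z hz => hz.differentiableAt (by simp)
  have h2 : DifferentiableAt ℝ (fderiv ℝ u) y :=
    (hu.fderiv_right (m := 1) le_rfl).differentiableAt (by simp)
  rw [pd_congr a (h1.mono fun z hz => pd_cmp hz d n)]
  have := (((EuclideanSpace.proj n : E4 →L[ℝ] ℝ).comp (ContinuousLinearMap.apply ℝ E4
    (EuclideanSpace.single d (1 : ℝ) : E4))).hasFDerivAt.comp y h2.hasFDerivAt).fderiv
  exact congrArg (fun L : E4 →L[ℝ] ℝ => L (EuclideanSpace.single a 1)) this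

theorem vec_sum (X : E4) (L : E4 →L[ℝ] E4) (n : Fin 4) :
    L X n = ∑ l, L (EuclideanSpace.single l 1) n * X l := by
  conv_lhs => rw [eq_sum_single X]
  simp [map_sum, mul_comm]

theorem tau_eq (p : Pull b g u V W) (hy : y ∈ V) (n : Fin 4) :
    tau G g u y n = ∑ k, pderiv k (fun z => u z n) y * sS G b y k := by
  have hd : DifferentiableAt ℝ u y := (p.contDiffAt hy).differentiableAt (by simp)
  have h2 : ContDiffAt ℝ 2 u y := (p.contDiffAt hy).of_le (WithTop.coe_le_coe.2 le_top)
  have key : ∀ a d, pderiv a (pderiv d fun z => u z n) y + ∑ p, ∑ q, christoffel g (u y) n p q *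
      (pderiv a (fun z => u z p) y * pderiv d (fun z => u z q) y) =
      ∑ k, pderiv k (fun z => u z n) y * christoffel b y k a d := fun a d => by
    have h := congrArg (fun X : E4 => X n)
      (p.gam_eq hy (EuclideanSpace.single a 1) (EuclideanSpace.single d 1))
    simp only [PiLp.add_apply, Gam_apply] at h
    rw [vec_sum] at h
    simp only [pd2_cmp h2, pd_cmp hd, Gam_apply] at h ⊢
    rw [add_comm]
    refine Eq.trans ?_ (h.symm.trans ?_)
    · simp only [mul_assoc]
    · refine sum_congr rfl fun k _ => ?_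
      simp [PiLp.single_apply]
  simp only [tau, key, sS, mul_sum, ← sum_sub_distrib]
  rw [sum_congr rfl fun a _ => sum_comm, sum_comm]
  exact sum_congr rfl fun k _ => sum_congr rfl fun a _ => sum_congr rfl fun d _ => by ring

theorem ten_tau (hG : IsRiemannianOn G V) (p : Pull b g u V W) (hy : y ∈ V) (j : Fin 4) :
    ten G b y ![j] = ∑ n, (∑ m, g (u y) m n * pderiv j (fun z => u z m) y) * tau G g u y n := by
  have hd : DifferentiableAt ℝ u y := (p.contDiffAt hy).differentiableAt (by simp)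
  simp only [ten_eq hG p.riem' hy, tau_eq p hy, p.pull y hy, pd_cmp hd, sum_mul, mul_sum]
  rw [sum_congr rfl fun k _ => sum_comm, sum_comm]
  refine sum_congr rfl fun n _ => ?_
  exact sum_congr rfl fun k _ => sum_congr rfl fun m _ => by ring

theorem gauT_of_tau (hG : IsRiemannianOn G V) (p : Pull b g u V W) (hy : y ∈ V)
    (h : ∀ n, tau G g u y n = 0) : gauT b G y = 0 := by
  have hd : DifferentiableAt ℝ u y := (p.contDiffAt hy).differentiableAt (by simp)
  have h1 : (WithLp.toLp 2 (sS G b y) : E4) = 0 := by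
    refine p.inj y hy ?_
    ext n
    rw [vec_sum, map_zero]
    have := h n
    simp only [tau_eq p hy, pd_cmp hd] at this
    exact this
  have h2 : ∀ k, sS G b y k = 0 := fun k => congrArg (fun X : E4 => X k) h1
  funext I
  simp [gauT_eq hG p.riem' hy, h2]

/-! ### scaling -/

variable {x0 : E4} {r : ℝ} {k : ℕ}

theorem pd_af (i : Fin 4) (w : E4 → ℝ) (x0 : E4) (r : ℝ) (y : E4) :
    pderiv i (fun y => w (x0 + r • y)) y = r * pderiv i w (x0 + r • y) := K.pd_aff i w x0 r y

theorem chr_af (G : MetricField 4) (x0 : E4) (r : ℝ) (y : E4) (k a d : Fin 4) :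
    christoffel (fun y => G (x0 + r • y)) y k a d = r * christoffel G (x0 + r • y) k a d := by
  have h : ∀ i p q, pderiv i (fun y => G (x0 + r • y) p q) y =
      r * pderiv i (fun y => G y p q) (x0 + r • y) := fun i p q => pd_af i (fun y => G y p q) x0 r y
  simp only [christoffel, inverseField, h, mul_sum]
  exact sum_congr rfl fun l _ => by ring

theorem cov_af (G : MetricField 4) (T : Tn 4 k) (x0 : E4) (r : ℝ) :
    cov (fun y => G (x0 + r • y)) (fun y => T (x0 + r • y)) =
      r • fun y => cov G T (x0 + r • y) := by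
  funext y J
  simp only [cov, chr_af, Pi.smul_apply, smul_eq_mul, mul_sub, mul_sum, mul_assoc]
  rw [pd_af (J 0) (fun z => T z (Fin.tail J))]

theorem lapT_af (G : MetricField 4) (T : Tn 4 k) (x0 : E4) (r : ℝ) (y : E4) :
    lapT (fun y => G (x0 + r • y)) (fun y => T (x0 + r • y)) y = r ^ 2 • lapT G T (x0 + r • y) := by
  funext I
  simp only [lapT, cov_af, cov_smul, trT, Pi.smul_apply, smul_eq_mul, mul_sum]
  exact sum_congr rfl fun a _ => sum_congr rfl fun d _ => by ring

theorem cov_cs {c : ℝ} (hc : c ≠ 0) (G : MetricField 4) (T : Tn 4 k) :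
    cov (fun y => c • G y) T = cov G T := by
  funext y J
  simp only [cov, chr_csmul hc]

theorem lapT_cs {c : ℝ} (hc : c ≠ 0) (e : ℝ) (G : MetricField 4) (T : Tn 4 k) (y : E4) :
    lapT (fun y => c • G y) (e • T) y = (c⁻¹ * e) • lapT G T y := by
  funext I
  simp only [lapT, cov_cs hc, cov_smul, trT, minv_smul hc, Pi.smul_apply, Matrix.smul_apply,
    smul_eq_mul, mul_sum]
  exact sum_congr rfl fun a _ => sum_congr rfl fun d _ => by ring



theorem pbG_cs (c : ℝ) (u : E4 → E4) (g : MetricField 4) :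
    pbG u (fun y => c • g y) = fun y => c • pbG u g y := by
  funext y
  ext i j
  simp only [pbG_apply, Matrix.smul_apply, smul_eq_mul, mul_sum, mul_assoc]

theorem fderiv_cell (hr : r ≠ 0) (u : E4 → E4) (x0 y : E4) :
    fderiv ℝ (fun y => r⁻¹ • (u (x0 + r • y) - x0)) y = fderiv ℝ u (x0 + r • y) := by
  have h := fderiv_const_smul_field (𝕜 := ℝ) (f := fun y => u (x0 + r • y) - x0) r⁻¹
  have h2 : (fun y => r⁻¹ • (u (x0 + r • y) - x0)) = r⁻¹ • fun y => u (x0 + r • y) - x0 := rfl
  rw [h2, h, Pi.smul_apply, fderiv_sub_const, NLib.Ell.fderiv_aff, smul_smul,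
    inv_mul_cancel₀ hr, one_smul]

theorem pbG_af (hr : r ≠ 0) (u : E4 → E4) (g : MetricField 4) (x0 : E4) :
    pbG (fun y => r⁻¹ • (u (x0 + r • y) - x0)) (fun y => g (x0 + r • y)) =
      fun y => pbG u g (x0 + r • y) := by
  funext y
  ext i j
  simp only [pbG_apply, fderiv_cell hr, smul_smul, mul_inv_cancel₀ hr, one_smul, add_sub_cancel]

end Crest.Agent.N207.Ga

end
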