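import Crest.Agent.N207.Ga.Defs
import Crest.Agent.N207.A.Co2
import Crest.Agent.N207.Ga.Ten

-- ▼ part N207/Ga/Jq
section

/-!
# Row 207, GAUGE (helper3): first order Taylor calculus in `C^{2,1/2}(B1)`; the displacement
-/

set_option autoImplicit false

open scoped ContDiff
open Metric Set Filter Topology
open Crest.GeometryTopology.CoordMetric
open Crest.Agent.NLib.Ell Crest.Agent.N207.CB Crest.Agent.N207.K

noncomputable section

namespace Crest.Agent.N207.Ga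

/-- `C^{2,1/2}` bound on the unit ball -/
abbrev CK (C : ℝ) (f : E4 → ℝ) : Prop := CKA (1 / 2) B1 2 C f

theorem ob : IsOpen B1 := isOpen_ball

theorem zB : (0 : E4) ∈ B1 := mem_ball_self one_pos

theorem b12 : B1 ⊆ B2 := ball_subset_ball (by norm_num)

theorem CK.mul {C C' : ℝ} {f g : E4 → ℝ} (hf : CK C f) (hg : CK C' g) :
    CK (8 * (C * C')) fun y => f y * g y := (CKA.mul ob hf hg).mono (le_of_eq (by norm_num))

theorem CK.sum4 {C : ℝ} {f : Fin 4 → E4 → ℝ} (h : ∀ i, CK C (f i)) :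
    CK (4 * C) fun y => ∑ i, f i y := (CKA.sum_le ob h).mono (by simp)

/-- `a1`, `a2` are the values at two points of size `δ` and distance `d`, `a0` the value at `0`,
`a'` the linearisation applied to the difference -/
structure J (δ d C : ℝ) (a0 a1 a2 a' : E4 → ℝ) : Prop where
  h0 : CK C a0
  h1 : CK (C * δ) fun y => a1 y - a0 y
  h2 : CK (C * δ) fun y => a2 y - a0 y
  h3 : CK (C * d) a'
  h4 : CK (C * δ * d) fun y => a1 y - a2 y - a' y

variable {δ d C C' : ℝ} {a0 a1 a2 a' b0 b1 b2 b' : E4 → ℝ}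

theorem J.mono (h : J δ d C a0 a1 a2 a') (hδ : 0 ≤ δ) (hd : 0 ≤ d) (hC : C ≤ C') :
    J δ d C' a0 a1 a2 a' :=
  ⟨h.h0.mono hC, h.h1.mono (by gcongr), h.h2.mono (by gcongr), h.h3.mono (by gcongr),
    h.h4.mono (by gcongr)⟩

theorem J.const (h : CK C a0) (hδ : 0 ≤ δ) (hd : 0 ≤ d) : J δ d C a0 a0 a0 fun _ => 0 := by
  have hC : 0 ≤ C := h.nonneg zB
  have h0 : ∀ c, 0 ≤ c → CK c fun _ => (0 : ℝ) := fun c hc => CKA.zero.mono hc
  exact ⟨h, by simpa using h0 _ (by positivity), by simpa using h0 _ (by positivity),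
    h0 _ (by positivity), by simpa using h0 _ (by positivity)⟩

theorem J.add (h : J δ d C a0 a1 a2 a') (h' : J δ d C' b0 b1 b2 b') :
    J δ d (C + C') (fun y => a0 y + b0 y) (fun y => a1 y + b1 y) (fun y => a2 y + b2 y)
      fun y => a' y + b' y :=
  ⟨h.h0.add ob h'.h0,
    ((h.h1.add ob h'.h1).congr ob fun _ _ => by ring).mono (le_of_eq (by ring)),
    ((h.h2.add ob h'.h2).congr ob fun _ _ => by ring).mono (le_of_eq (by ring)),
    (h.h3.add ob h'.h3).mono (le_of_eq (by ring)),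
    ((h.h4.add ob h'.h4).congr ob fun _ _ => by ring).mono (le_of_eq (by ring))⟩

theorem J.sub (h : J δ d C a0 a1 a2 a') (h' : J δ d C' b0 b1 b2 b') :
    J δ d (C + C') (fun y => a0 y - b0 y) (fun y => a1 y - b1 y) (fun y => a2 y - b2 y)
      fun y => a' y - b' y :=
  ⟨h.h0.sub ob h'.h0,
    ((h.h1.sub ob h'.h1).congr ob fun _ _ => by ring).mono (le_of_eq (by ring)),
    ((h.h2.sub ob h'.h2).congr ob fun _ _ => by ring).mono (le_of_eq (by ring)),
    (h.h3.sub ob h'.h3).mono (le_of_eq (by ring)),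
    ((h.h4.sub ob h'.h4).congr ob fun _ _ => by ring).mono (le_of_eq (by ring))⟩

theorem J.sum4 {a0 a1 a2 a' : Fin 4 → E4 → ℝ} (h : ∀ i, J δ d C (a0 i) (a1 i) (a2 i) (a' i)) :
    J δ d (4 * C) (fun y => ∑ i, a0 i y) (fun y => ∑ i, a1 i y) (fun y => ∑ i, a2 i y)
      fun y => ∑ i, a' i y :=
  ⟨CK.sum4 fun i => (h i).h0,
    ((CK.sum4 fun i => (h i).h1).congr ob fun _ _ => by
      rw [Finset.sum_sub_distrib]).mono (le_of_eq (by ring)),
    ((CK.sum4 fun i => (h i).h2).congr ob fun _ _ => by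
      rw [Finset.sum_sub_distrib]).mono (le_of_eq (by ring)),
    (CK.sum4 fun i => (h i).h3).mono (le_of_eq (by ring)),
    ((CK.sum4 fun i => (h i).h4).congr ob fun _ _ => by
      rw [Finset.sum_sub_distrib, Finset.sum_sub_distrib]).mono (le_of_eq (by ring))⟩

theorem J.bd1 (h : J δ d C a0 a1 a2 a') (hδ1 : δ ≤ 1) : CK (2 * C) a1 :=
  ((h.h0.add ob h.h1).congr ob fun _ _ => by ring).mono (by nlinarith [h.h0.nonneg zB])

theorem J.bd2 (h : J δ d C a0 a1 a2 a') (hδ1 : δ ≤ 1) : CK (2 * C) a2 :=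
  ((h.h0.add ob h.h2).congr ob fun _ _ => by ring).mono (by nlinarith [h.h0.nonneg zB])

theorem J.mul (h : J δ d C a0 a1 a2 a') (h' : J δ d C' b0 b1 b2 b') (hδ : 0 ≤ δ) (hδ1 : δ ≤ 1)
    (hd : 0 ≤ d) :
    J δ d (48 * (C * C')) (fun y => a0 y * b0 y) (fun y => a1 y * b1 y) (fun y => a2 y * b2 y)
      fun y => a' y * b0 y + a0 y * b' y := by
  have hC : 0 ≤ C * C' := mul_nonneg (h.h0.nonneg zB) (h'.h0.nonneg zB)
  have e1 : 0 ≤ C * C' * δ := by positivity
  have e2 : 0 ≤ C * C' * d := by positivity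
  refine ⟨(CK.mul h.h0 h'.h0).mono (by linarith),
    (((CK.mul h.h1 (h'.bd1 hδ1)).add ob (CK.mul h.h0 h'.h1)).congr ob fun _ _ => by ring).mono
      (by nlinarith),
    (((CK.mul h.h2 (h'.bd2 hδ1)).add ob (CK.mul h.h0 h'.h2)).congr ob fun _ _ => by ring).mono
      (by nlinarith),
    ((CK.mul h.h3 h'.h0).add ob (CK.mul h.h0 h'.h3)).mono (by nlinarith), ?_⟩
  exact (((((CK.mul h.h4 (h'.bd1 hδ1)).add ob (CK.mul h.h3 h'.h1)).add ob
    (CK.mul (h.bd2 hδ1) h'.h4)).add ob (CK.mul h.h2 h'.h3)).congr ob fun _ _ => by ring).mono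
    (le_of_eq (by ring))

theorem cka_id (k : ℕ) : CKA (1 / 2) B1 k 2 fun y : E4 => y := by
  have h0 : R273.SchA_152.HO (1 / 2) (2 * 1) B1 fun y : E4 => y :=
    ho_of_lip (by norm_num) (by norm_num) (fun x hx => (mem_ball_zero_iff.1 hx).le)
      fun x _ y _ => by simp
  rw [mul_one] at h0
  cases k with
  | zero => exact h0
  | succ k =>
    refine ⟨h0, differentiableOn_id, fun i => ?_⟩
    refine ((CKA.const (ei i : E4)).congr ob fun x _ => by simp).mono (by simp)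

theorem cka_proj {k : ℕ} {f : E4 → E4} (h : CKA (1 / 2) B1 k C f) (m : Fin 4) :
    CKA (1 / 2) B1 k C fun y => f y m :=
  h.clm1 ob (EuclideanSpace.proj m : E4 →L[ℝ] ℝ)
    (ContinuousLinearMap.opNorm_le_bound _ zero_le_one fun v => by
      simpa using PiLp.norm_apply_le v m)

theorem cka_vec {k : ℕ} {f : E4 → E4} (h : ∀ m, CKA (1 / 2) B1 k C fun y => f y m) :
    CKA (1 / 2) B1 k (4 * C) f := by
  have h1 : ∀ m, CKA (1 / 2) B1 k C fun y => f y m • (ei m : E4) := fun m =>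
    (h m).clm1 ob ((ContinuousLinearMap.id ℝ ℝ).smulRight (ei m : E4))
      (ContinuousLinearMap.opNorm_le_bound _ zero_le_one fun v => by simp [norm_smul])
  refine ((CKA.sum_le ob h1).congr ob fun y _ => ?_).mono (by simp)
  ext i
  simp [Pi.single_apply]

/-- the displacements `z1`, `z2` and the linear part `h` of their difference -/
structure Dp (A κ δ d : ℝ) (z1 z2 h : E4 → E4) : Prop where
  c1 : CKA (1 / 2) B1 4 (A * δ) z1
  c2 : CKA (1 / 2) B1 4 (A * δ) z2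
  ch : CKA (1 / 2) B1 4 (A * d) h
  cr : CKA (1 / 2) B1 4 (A * κ * δ * d) fun y => z1 y - z2 y - h y
  d1 : ∀ p q m, CK (A * κ * δ) (pderiv p (pderiv q fun y => z1 y m))
  d2 : ∀ p q m, CK (A * κ * δ) (pderiv p (pderiv q fun y => z2 y m))
  dh : ∀ p q m, CK (A * κ * d) (pderiv p (pderiv q fun y => h y m))

variable {A κ K : ℝ} {z1 z2 h : E4 → E4}

theorem pd_sub3 {f g u : E4 → ℝ} {k : ℕ} {c1 c2 c3 : ℝ} (hf : CKA (1 / 2) B1 (k + 1) c1 f)
    (hg : CKA (1 / 2) B1 (k + 1) c2 g) (hu : CKA (1 / 2) B1 (k + 1) c3 u) (i : Fin 4) {y : E4}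
    (hy : y ∈ B1) : pderiv i (fun y => f y - g y - u y) y = pderiv i f y - pderiv i g y - pderiv i u y := by
  rw [pd_sub i ((hf.diffAt ob hy).fun_sub (hg.diffAt ob hy)) (hu.diffAt ob hy),
    pd_sub i (hf.diffAt ob hy) (hg.diffAt ob hy)]

/-- first derivatives -/
theorem Dp.jP (D : Dp A κ δ d z1 z2 h) (hA : 1 ≤ A) (hκ : κ ≤ 2) (hδ : 0 ≤ δ) (hd : 0 ≤ d)
    (m q : Fin 4) :
    J δ d (2 * A) (fun _ => (1 : Matrix (Fin 4) (Fin 4) ℝ) m q)
      (fun y => (1 : Matrix (Fin 4) (Fin 4) ℝ) m q + pderiv q (fun y => z1 y m) y)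
      (fun y => (1 : Matrix (Fin 4) (Fin 4) ℝ) m q + pderiv q (fun y => z2 y m) y)
      (pderiv q fun y => h y m) := by
  have e1 : 0 ≤ A * δ := by positivity
  have e2 : 0 ≤ A * d := by positivity
  have e3 : 0 ≤ A * δ * d := by positivity
  refine ⟨(CKA.const _).mono ?_, ?_, ?_, (((cka_proj D.ch m).pd q).pred).mono (by linarith), ?_⟩
  · by_cases hm : m = q <;> simp [Matrix.one_apply, hm] <;> linarith
  · exact ((((cka_proj D.c1 m).pd q).pred).congr ob fun _ _ => by simp [pderiv]).mono (by linarith)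
  · exact ((((cka_proj D.c2 m).pd q).pred).congr ob fun _ _ => by simp [pderiv]).mono (by linarith)
  · refine ((((cka_proj D.cr m).pd q).pred).congr ob fun y hy => ?_).mono (by nlinarith)
    have := pd_sub3 (cka_proj D.c1 m) (cka_proj D.c2 m) (cka_proj D.ch m) q hy
    simp only [PiLp.sub_apply]
    exact Eq.trans (by ring) this.symm

/-- second derivatives -/
theorem Dp.jD (D : Dp A κ δ d z1 z2 h) (hA : 1 ≤ A) (hκ : 0 ≤ κ) (p q m : Fin 4) :
    J δ d (A * κ) (fun _ => 0) (pderiv p (pderiv q fun y => z1 y m))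
      (pderiv p (pderiv q fun y => z2 y m)) (pderiv p (pderiv q fun y => h y m)) := by
  refine ⟨CKA.zero.mono (by positivity), (D.d1 p q m).congr ob fun _ _ => by simp,
    (D.d2 p q m).congr ob fun _ _ => by simp, D.dh p q m, ?_⟩
  refine ((((cka_proj D.cr m).pd q).pd p).congr ob fun y hy => ?_)
  have h1 := pd_sub3 ((cka_proj D.c1 m).pd q) ((cka_proj D.c2 m).pd q) ((cka_proj D.ch m).pd q) p hy
  refine Eq.trans h1.symm (pd_congr_on p ob hy fun x hx => ?_)
  simp only [PiLp.sub_apply]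
  exact (pd_sub3 (cka_proj D.c1 m) (cka_proj D.c2 m) (cka_proj D.ch m) q hx).symm

theorem Dp.mem (D : Dp A κ δ d z1 z2 h) (hs : A * δ ≤ 1 / 8) {y : E4} (hy : y ∈ B1) :
    y + z1 y ∈ B2 ∧ y + z2 y ∈ B2 := by
  have h1 := D.c1.bdd hy
  have h2 := D.c2.bdd hy
  rw [mem_ball_zero_iff] at hy
  constructor <;> rw [mem_ball_zero_iff]
  · linarith [norm_add_le y (z1 y)]
  · linarith [norm_add_le y (z2 y)]

/-- the constant of `Dp.jN` -/
def cN (A : ℝ) : ℝ := 16 * cL 3 2 * A * A + 16 * cC 3 2 * A + cL 3 2 * A + cC 3 2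

theorem cN_pos (hA : 1 ≤ A) : 0 < cN A := by
  have := cL_pos (M := 3) (by norm_num) 2
  have := cC_pos (M := 3) (by norm_num) 2
  unfold cN; positivity

/-- composition with a fixed function -/
theorem Dp.jN (D : Dp A κ δ d z1 z2 h) (hA : 1 ≤ A) (hκ : κ ≤ 2) (hδ : 0 ≤ δ) (hd : 0 ≤ d)
    (hs : A * δ ≤ 1 / 8) {Φ : E4 → ℝ} (hΦ : DB B2 5 K Φ) :
    J δ d (cN A * K) Φ (fun y => Φ (y + z1 y)) (fun y => Φ (y + z2 y))
      fun y => fderiv ℝ Φ y (h y) := by
  have hK : 0 ≤ K := (norm_nonneg _).trans (hΦ.zero (b12 zB))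
  have hL := cL_pos (M := 3) (by norm_num) 2
  have hC := cC_pos (M := 3) (by norm_num) 2
  have hb : IsOpen B2 := isOpen_ball
  have hc : Convex ℝ B2 := convex_ball _ _
  have i3 : CKA (1 / 2) B1 2 3 fun y : E4 => y := (cka_id 2).mono (by norm_num)
  have f1 : CKA (1 / 2) B1 2 3 fun y => y + z1 y :=
    ((cka_id 2).add ob (D.c1.of_le (by norm_num))).mono (by linarith)
  have f2 : CKA (1 / 2) B1 2 3 fun y => y + z2 y :=
    ((cka_id 2).add ob (D.c2.of_le (by norm_num))).mono (by linarith)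
  have g1 : CKA (1 / 2) B1 2 (A * δ) fun y => y + z1 y - y :=
    (D.c1.of_le (by norm_num)).congr ob fun _ _ => by abel
  have g2 : CKA (1 / 2) B1 2 (A * δ) fun y => y + z2 y - y :=
    (D.c2.of_le (by norm_num)).congr ob fun _ _ => by abel
  have hD := (hΦ.of_le (m' := 4) (by norm_num)).fderiv hb |>.comp ob hb hc (fun _ hy => b12 hy) i3
  have hκδ : A * κ * δ * d ≤ A * d := by
    have e1 : A * δ * d * κ ≤ A * δ * d * 2 := mul_le_mul_of_nonneg_left hκ (by positivity)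
    have e2 : A * δ * d ≤ 1 / 8 * d := mul_le_mul_of_nonneg_right hs hd
    have e3 : 1 * d ≤ A * d := mul_le_mul_of_nonneg_right hA hd
    linarith
  have g3 : CKA (1 / 2) B1 2 (2 * A * d) fun y => y + z1 y - (y + z2 y) :=
    (((D.cr.of_le (by norm_num)).add ob (D.ch.of_le (by norm_num))).congr ob fun _ _ => by
      abel).mono (by linarith)
  have p1 : 0 ≤ cL 3 2 * A * A * K := by positivity
  have p2 : 0 ≤ cC 3 2 * A * K := by positivity
  have p3 : 0 ≤ cL 3 2 * A * K := by positivity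
  have p4 : 0 ≤ cC 3 2 * K := by positivity
  have q0 : cN A * K = 16 * (cL 3 2 * A * A * K) + 16 * (cC 3 2 * A * K) + cL 3 2 * A * K +
    cC 3 2 * K := by unfold cN; ring
  refine ⟨((hΦ.of_le (by norm_num)).comp ob hb hc (fun _ hy => b12 hy) i3).mono (by linarith),
    ((hΦ.of_le (by norm_num)).lip ob (by norm_num) hb hc (fun _ hy => (D.mem hs hy).1)
      (fun _ hy => b12 hy) f1 i3 g1).mono ?_,
    ((hΦ.of_le (by norm_num)).lip ob (by norm_num) hb hc (fun _ hy => (D.mem hs hy).2)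
      (fun _ hy => b12 hy) f2 i3 g2).mono ?_,
    (hD.app ob (D.ch.of_le (by norm_num))).mono ?_, ?_⟩
  · rw [q0]; nlinarith
  · rw [q0]; nlinarith
  · rw [q0]; norm_num; nlinarith
  · have s1 := hΦ.sec ob (by norm_num) hb hc (fun _ hy => (D.mem hs hy).1)
      (fun _ hy => (D.mem hs hy).2) (fun _ hy => b12 hy) f1 f2 i3 g1 g2 g3
    refine ((s1.add ob (hD.app ob (D.cr.of_le (by norm_num)))).congr ob fun y _ => ?_).mono ?_
    · have : y + z1 y - (y + z2 y) = (z1 y - z2 y - h y) + h y := by abel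
      rw [this, map_add]; ring
    · rw [q0]
      have r1 : 0 ≤ δ * d := mul_nonneg hδ hd
      have r2 : cC 3 2 * A * K * (δ * d) * κ ≤ cC 3 2 * A * K * (δ * d) * 2 :=
        mul_le_mul_of_nonneg_left hκ (by positivity)
      norm_num
      nlinarith [mul_nonneg p1 r1, mul_nonneg p2 r1, mul_nonneg p3 r1, mul_nonneg p4 r1]

end Crest.Agent.N207.Ga

end
end

-- ▼ part N207/Ga/Loc1

/-!
# Row 207, GAUGE (helper3): the displacement on one cell
-/

set_option autoImplicit false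

open scoped ContDiff
open Metric Set Filter Topology
open Crest.GeometryTopology.CoordMetric Crest.Agent.R202.Tens
open Crest.Agent.NLib.Ell Crest.Agent.N207.CB Crest.Agent.N207.K

noncomputable section

namespace Crest.Agent.N207.Ga

/-- the displacement -/
def dsp (gh : MetricField 4) (e : E4 × E4 → E4) (o : Tn 4 1) (y : E4) : E4 :=
  shp gh o y + e (y, shp gh o y)

/-- the map -/
def uu (gh : MetricField 4) (e : E4 × E4 → E4) (o : Tn 4 1) (y : E4) : E4 := y + dsp gh e o y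

/-- the nonlinear operator -/
def TT (gh Gh : MetricField 4) (e : E4 × E4 → E4) (o : Tn 4 1) : Tn 4 1 :=
  ten Gh (pbG (uu gh e o) gh)

variable {K η κ M δ d r0 : ℝ} {gh Gh : MetricField 4} {e : E4 × E4 → E4} {o o1 o2 : Tn 4 1}

theorem cpd {U : Set E4} {k : ℕ} {f : E4 → ℝ} (h : CKA (1 / 2) U (k + 1) M f) (i : Fin 4) :
    CKA (1 / 2) U k M (pderiv i f) := h.pd i

theorem X1.nn (h : X1 κ M o) : 0 ≤ M := (h 0).1.nonneg zB

theorem X1.cka4 (h : X1 κ M o) (ho : SmT o B1) (hκ : κ ≤ 2) (j : Fin 4) :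
    CKA (1 / 2) B1 4 (2 * M) fun y => o y ![j] := by
  have hM := h.nn
  refine ⟨(h j).1.1.mono (by linarith), (h j).1.diff, fun q =>
    ⟨((h j).1.pd q).ho.mono (by linarith), ?_, fun p => ((h j).2 p q).mono (by nlinarith)⟩⟩
  exact (sm_pd ob (ho ![j]) q).differentiableOn (by simp)

theorem shp_apply (g : MetricField 4) (o : Tn 4 1) (y : E4) (k : Fin 4) :
    shp g o y k = ∑ j, (g y)⁻¹ k j * o y ![j] := rfl

theorem shp_sub (g : MetricField 4) (o1 o2 : Tn 4 1) (y : E4) :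
    shp g (o1 - o2) y = shp g o1 y - shp g o2 y := by
  ext k
  simp only [shp_apply, PiLp.sub_apply, Pi.sub_apply, mul_sub, Finset.sum_sub_distrib]

theorem shp_zero (g : MetricField 4) (y : E4) : shp g 0 y = 0 := by
  ext k; simp [shp_apply]

theorem shp_sm {g : MetricField 4} {U : Set E4} (hg : IsRiemannianOn g U) (ho : SmT o U) :
    ContDiffOn ℝ ∞ (shp g o) U :=
  (contDiffOn_piLp 2).2 fun k => by
    simp only [shp_apply]
    exact ContDiffOn.sum fun j _ => (sm_inv hg k j).mul (ho ![j])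

theorem shp_cka (c : CellG K η κ gh Gh) (h : X1 κ M o) (ho : SmT o B1) (hκ : κ ≤ 2) :
    CKA (1 / 2) B1 4 (1024 * K * M) (shp gh o) :=
  (cka_vec fun k => CKA.sum_le ob fun j => CKA.mul ob (c.gi k j) (h.cka4 ho hκ j)).mono
    (le_of_eq (by simp; ring))

theorem shp_dd (c : CellG K η κ gh Gh) (h : X1 κ M o) (ho : SmT o B1) (hκ : κ ≤ 2)
    (p q k : Fin 4) : CK (224 * K * κ * M) (pderiv p (pderiv q fun y => shp gh o y k)) := by
  have h4 := h.cka4 ho hκ
  have hA : ∀ j, CKA (1 / 2) B1 3 (2 ^ (3 + 1) * (K * κ * (2 * M))) fun y =>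
      pderiv q (fun y => (gh y)⁻¹ k j) y * o y ![j] := fun j =>
    CKA.mul ob (c.dgi k j q) (h4 j).pred
  have hB : ∀ j, CKA (1 / 2) B1 3 (2 ^ (3 + 1) * (K * (2 * M))) fun y =>
      (gh y)⁻¹ k j * pderiv q (fun y => o y ![j]) y := fun j =>
    CKA.mul ob (c.gi k j).pred ((h4 j).pd q)
  have h1 : ∀ j, CK (56 * K * κ * M) (pderiv p fun y =>
      pderiv q (fun y => (gh y)⁻¹ k j) y * o y ![j] +
        (gh y)⁻¹ k j * pderiv q (fun y => o y ![j]) y) := fun j => by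
    refine (((((hA j).pd p).add ob (CK.mul (c.dgi k j p).pred ((h4 j).pd q).pred)).add ob
      (CK.mul ((c.gi k j).of_le (by norm_num)) ((h j).2 p q))).congr ob fun y hy => ?_).mono
      (le_of_eq (by ring))
    rw [pd_add p ((hA j).diffAt ob hy) ((hB j).diffAt ob hy),
      pd_mul p ((c.gi k j).diffAt ob hy) ((cpd (h4 j) q).diffAt ob hy)]
    simp only [pderiv]
    ring
  refine ((CK.sum4 h1).congr ob fun y hy => ?_).mono (le_of_eq (by ring))
  rw [← pd_sum p _ fun j _ => ((hA j).diffAt ob hy).fun_add ((hB j).diffAt ob hy)]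
  refine pd_congr_on p ob hy fun x hx => ?_
  simp only [shp_apply]
  rw [pd_sum q _ fun j _ => ((c.gi k j).diffAt ob hx).fun_mul ((h4 j).diffAt ob hx)]
  refine Finset.sum_congr rfl fun j _ => ?_
  rw [pd_mul q ((c.gi k j).diffAt ob hx) ((h4 j).diffAt ob hx)]

/-- the constant of the quadratic part of the displacement -/
def cE (K : ℝ) : ℝ := 32 * cL 3 4 * K * (1024 * K) * (1024 * K)

/-- the constant of the displacement -/
def cA (K : ℝ) : ℝ := 1024 * K + 2 * cE K + 1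

theorem cE_nn (hK : 0 ≤ K) : 0 ≤ cE K := by
  have := cL_pos (M := 3) (by norm_num) 4
  unfold cE; positivity

theorem cA_ge (hK : 0 ≤ K) : 1 ≤ cA K := by
  have := cE_nn hK
  unfold cA; linarith

theorem e_sec (E : CellE (K * κ) r0 e) {v1 v2 : E4 → E4} {a b : ℝ} (ha : a ≤ 1) (har : a < r0)
    (h1 : CKA (1 / 2) B1 4 a v1) (h2 : CKA (1 / 2) B1 4 a v2)
    (h3 : CKA (1 / 2) B1 4 b fun y => v1 y - v2 y) :
    CKA (1 / 2) B1 4 (32 * cL 3 4 * (K * κ) * a * b) fun y => e (y, v1 y) - e (y, v2 y) := by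
  have ha0 : 0 ≤ a := h1.nonneg zB
  have hm : ∀ {v : E4 → E4}, CKA (1 / 2) B1 4 a v → ∀ y ∈ B1, (y, v y) ∈ B2 ×ˢ ball (0 : E4) r0 :=
    fun h y hy => ⟨b12 hy, mem_ball_zero_iff.2 ((h.bdd hy).trans_lt har)⟩
  have h0 : CKA (1 / 2) B1 4 a fun _ : E4 => (0 : E4) := CKA.zero.mono ha0
  have hz : ∀ {v : E4 → E4} {c : ℝ}, CKA (1 / 2) B1 4 c v →
      CKA (1 / 2) B1 4 c fun y => ((0 : E4), v y) := fun h => by
    simpa using (CKA.zero (F := E4)).prod ob h
  have := E.db.sec ob (by norm_num) (isOpen_ball.prod isOpen_ball)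
    ((convex_ball _ _).prod (convex_ball _ _)) (hm h1) (hm h2) (hm h0) (M := 3) (δ := a) (d := b)
    (((cka_id 4).prod ob h1).mono (by linarith)) (((cka_id 4).prod ob h2).mono (by linarith))
    (((cka_id 4).prod ob h0).mono (by linarith)) ((hz h1).congr ob fun _ _ => by simp)
    ((hz h2).congr ob fun _ _ => by simp) ((hz h3).congr ob fun _ _ => by simp)
  refine (this.congr ob fun y hy => ?_).mono (le_of_eq (by norm_num))
  rw [Prod.mk_sub_mk, sub_self, E.dzero y (b12 hy), sub_zero]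

/-- smallness -/
structure Sm (K r0 δ : ℝ) : Prop where
  nn : 0 ≤ δ
  s1 : cA K * δ ≤ 1 / 8
  s2 : cA K * δ < r0

theorem Sm.a (s : Sm K r0 δ) (hK : 0 ≤ K) : 1024 * K * δ ≤ cA K * δ :=
  mul_le_mul_of_nonneg_right (by have := cE_nn hK; unfold cA; linarith) s.nn

theorem Sm.le1 (s : Sm K r0 δ) (hK : 0 ≤ K) : δ ≤ 1 := by nlinarith [cA_ge hK, s.s1, s.nn]

theorem Sm.mono (s : Sm K r0 δ) (hK : 0 ≤ K) {δ' : ℝ} (h0 : 0 ≤ δ') (h : δ' ≤ δ) : Sm K r0 δ' :=
  have := mul_le_mul_of_nonneg_left h (zero_le_one.trans (cA_ge hK))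
  ⟨h0, this.trans s.s1, this.trans_lt s.s2⟩

theorem e_one (c : CellG K η κ gh Gh) (E : CellE (K * κ) r0 e) (hK : 0 ≤ K) (hκ : κ ≤ 2)
    (s : Sm K r0 δ) (h : X1 κ δ o) (ho : SmT o B1) :
    CKA (1 / 2) B1 4 (cE K * κ * δ * δ) fun y => e (y, shp gh o y) := by
  have h1 := shp_cka c h ho hκ
  have := e_sec E (v2 := fun _ => 0) (by linarith [s.a hK, s.s1]) ((s.a hK).trans_lt s.s2) h1
    (CKA.zero.mono (h1.nonneg zB)) (h1.congr ob fun _ _ => sub_zero _)
  refine (this.congr ob fun y hy => ?_).mono (le_of_eq (by unfold cE; ring))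
  rw [E.zero y (b12 hy), sub_zero]

theorem dsp_one (c : CellG K η κ gh Gh) (E : CellE (K * κ) r0 e) (hK : 0 ≤ K) (hκ0 : 0 ≤ κ)
    (hκ : κ ≤ 2) (s : Sm K r0 δ) (h : X1 κ δ o) (ho : SmT o B1) :
    CKA (1 / 2) B1 4 (cA K * δ) (dsp gh e o) ∧
      ∀ p q m, CK (cA K * κ * δ) (pderiv p (pderiv q fun y => dsp gh e o y m)) := by
  have h1 := shp_cka c h ho hκ
  have h2 := e_one c E hK hκ s h ho
  have hE := cE_nn hK
  have hδ := s.nn
  have e1 : cE K * κ * δ * δ ≤ cE K * κ * δ * 1 :=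
    mul_le_mul_of_nonneg_left (s.le1 hK) (by positivity)
  have e2 : cE K * δ * κ ≤ cE K * δ * 2 := mul_le_mul_of_nonneg_left hκ (by positivity)
  refine ⟨(h1.add ob h2).mono (by unfold cA; nlinarith), fun p q m => ?_⟩
  refine (((shp_dd c h ho hκ p q m).add ob (((cka_proj h2 m).pd q).pd p)).congr ob
    fun y hy => ?_).mono ?_
  · have := pd_add p (((cka_proj h1 m).pd q).diffAt ob hy) (((cka_proj h2 m).pd q).diffAt ob hy)
    refine Eq.trans (pd_congr_on p ob hy fun x hx => ?_) this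
    exact pd_add q ((cka_proj h1 m).diffAt ob hx) ((cka_proj h2 m).diffAt ob hx)
  · unfold cA
    have : 0 ≤ K * κ * δ := by positivity
    have : 0 ≤ cE K * κ * δ := by positivity
    have : 0 ≤ κ * δ := by positivity
    nlinarith

theorem dp (c : CellG K η κ gh Gh) (E : CellE (K * κ) r0 e) (hK : 0 ≤ K) (hκ0 : 0 ≤ κ)
    (hκ : κ ≤ 2) (s : Sm K r0 δ) (h1 : X1 κ δ o1) (ho1 : SmT o1 B1) (h2 : X1 κ δ o2)
    (ho2 : SmT o2 B1) (h : X1 κ d (o1 - o2)) :
    Dp (cA K) κ δ d (dsp gh e o1) (dsp gh e o2) (shp gh (o1 - o2)) := by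
  have a1 := dsp_one c E hK hκ0 hκ s h1 ho1
  have a2 := dsp_one c E hK hκ0 hκ s h2 ho2
  have a3 := shp_cka c h (ho1.sub ho2) hκ
  have hd := h.nn
  have hδ := s.nn
  have hE := cE_nn hK
  refine ⟨a1.1, a2.1, a3.mono (by unfold cA; nlinarith), ?_, a1.2, a2.2, fun p q m =>
    (shp_dd c h (ho1.sub ho2) hκ p q m).mono ?_⟩
  · have := e_sec E (by linarith [s.a hK, s.s1]) ((s.a hK).trans_lt s.s2) (shp_cka c h1 ho1 hκ)
      (shp_cka c h2 ho2 hκ) (a3.congr ob fun y _ => (shp_sub gh o1 o2 y).symm)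
    refine (this.congr ob fun y _ => ?_).mono ?_
    · simp only [dsp, shp_sub]; abel
    · have e1 : 32 * cL 3 4 * (K * κ) * (1024 * K * δ) * (1024 * K * d) = cE K * (κ * δ * d) := by
        unfold cE; ring
      have e2 : 0 ≤ κ * δ * d := by positivity
      rw [e1]; unfold cA; nlinarith
  · have : 0 ≤ κ * d := by positivity
    unfold cA; nlinarith

theorem uu_sm (c : CellG K η κ gh Gh) (E : CellE (K * κ) r0 e) (hK : 0 ≤ K) (hκ : κ ≤ 2)
    (s : Sm K r0 δ) (h : X1 κ δ o) (ho : SmT o B1) : ContDiffOn ℝ ∞ (uu gh e o) B1 := by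
  have h1 := shp_sm (riemOn_mono c.riem ob b12) ho
  refine contDiffOn_id.add (h1.add (E.db.sm.comp (contDiffOn_id.prodMk h1) fun y hy => ?_))
  exact ⟨b12 hy, mem_ball_zero_iff.2
    (((shp_cka c h ho hκ).bdd hy).trans_lt ((s.a hK).trans_lt s.s2))⟩

theorem inj_of_small {z : E4 → E4} {a : ℝ} {k : ℕ} (h : CKA (1 / 2) B1 (k + 1) a z) (ha : a ≤ 1 / 8)
    {y : E4} (hy : y ∈ B1) : Function.Injective (fderiv ℝ (fun y => y + z y) y) := by
  have h1 := (h.fderiv ob).bdd hy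
  rw [fderiv_fun_add differentiableAt_fun_id (h.diffAt ob hy), fderiv_fun_id]
  refine (injective_iff_map_eq_zero _).2 fun v hv => ?_
  have h2 : v = -(fderiv ℝ z y v) := eq_neg_of_add_eq_zero_left hv
  have h3 := (fderiv ℝ z y).le_opNorm v
  have h4 : ‖v‖ = ‖fderiv ℝ z y v‖ := by conv_lhs => rw [h2, norm_neg]
  have h5 : ‖fderiv ℝ z y‖ * ‖v‖ ≤ 1 / 2 * ‖v‖ :=
    mul_le_mul_of_nonneg_right (h1.trans (by push_cast; linarith)) (norm_nonneg _)
  exact norm_le_zero_iff.1 (by linarith)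

theorem mem_of_small {z : E4 → E4} {a : ℝ} {k : ℕ} (h : CKA (1 / 2) B1 k a z) (ha : a ≤ 1 / 8)
    {y : E4} (hy : y ∈ B1) : y + z y ∈ B2 := by
  have h1 := h.bdd hy
  rw [mem_ball_zero_iff] at hy ⊢
  linarith [norm_add_le y (z y)]

theorem uu_pull (c : CellG K η κ gh Gh) (E : CellE (K * κ) r0 e) (hK : 0 ≤ K) (hκ0 : 0 ≤ κ)
    (hκ : κ ≤ 2) (s : Sm K r0 δ) (h : X1 κ δ o) (ho : SmT o B1) :
    Pull (pbG (uu gh e o) gh) gh (uu gh e o) B1 B2 :=
  have a := (dsp_one c E hK hκ0 hκ s h ho).1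
  pull_pbG ob c.riem (fun _ hy => mem_of_small a s.s1 hy) (uu_sm c E hK hκ s h ho)
    fun _ hy => inj_of_small a s.s1 hy

theorem pd_id_add {z : E4 → E4} {y : E4} (hz : DifferentiableAt ℝ z y) (q m : Fin 4) :
    pderiv q (fun y => (y + z y) m) y =
      (1 : Matrix (Fin 4) (Fin 4) ℝ) m q + pderiv q (fun y => z y m) y := by
  rw [pd_cmp (differentiableAt_fun_id.fun_add hz), pd_cmp hz,
    fderiv_fun_add differentiableAt_fun_id hz, fderiv_fun_id]
  simp [Matrix.one_apply, PiLp.single_apply]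

theorem pd2_id_add {z : E4 → E4} {a : ℝ} {k : ℕ} (h : CKA (1 / 2) B1 (k + 2) a z) {y : E4}
    (hy : y ∈ B1) (p q m : Fin 4) :
    pderiv p (pderiv q fun y => (y + z y) m) y = pderiv p (pderiv q fun y => z y m) y := by
  rw [pd_congr_on p ob hy fun x hx => pd_id_add (h.diffAt ob hx) q m,
    pd_add p (differentiableAt_const _) ((cpd (cka_proj h m) q).diffAt ob hy), pd_const, zero_add]

end Crest.Agent.N207.Ga

end
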